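import Vale.Agent.P092.H19.ShF
import Vale.Agent.P092.H377.Inv

/-!
P092 (helper261): the sharp rank theorem, both directions of the isomorphism.
-/

set_option linter.all false

namespace Vale.Agent.P092.H261

open Vale.Agent.P092.H19 Vale.Agent.P092.H103.St
open Vale.Agent.P092.H655 (SLR IsLat TraceRep)

theorem inv : H19.Inv := by
  intro Γ Λ _ _ hI ι _ t R hR
  obtain ⟨k, R', h⟩ := H377.arep_inv hI hR
  exact ⟨k, t⁻¹, R', h⟩

/-- The final statement, version 2. -/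
theorem final2 (hS : H19.SharpRow) :
    (∀ m n : ℕ, 1 ≤ m → m < n →
      ∀ (Γ₀ : Subgroup (SLR m)), DiscreteTopology Γ₀ → ∀ (Λ₀ : Subgroup (SLR n)), IsLat n Λ₀ →
      ∀ (Γ Λ : Type) [Group Γ] [Group Λ] (i : Γ₀ →* Γ) (j : Λ₀ →* Λ), Function.Injective i →
      i.range.FiniteIndex → Function.Injective j → ∀ k : ℕ,
        (∀ U : Λ → MOp k Γ, ¬ TraceRep Λ Γ k U) ∧
        ((∀ g : Γ, g ≠ 1 → Set.Infinite {y : Γ | ∃ h, y = h * g * h⁻¹}) ∨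
          (∀ g : Λ, g ≠ 1 → Set.Infinite {y : Λ | ∃ h, y = h * g * h⁻¹}) →
          ∀ p : MOp k Γ, IsProj p → IsEmpty (CornerIso Λ Γ k p)) ∧
        ((∀ g : Λ, g ≠ 1 → Set.Infinite {y : Λ | ∃ h, y = h * g * h⁻¹}) →
          ∀ p : MOp k Λ, IsProj p → IsEmpty (CornerIso Γ Λ k p))) ∧
    (∀ m n : ℕ, 2 ≤ m → 2 ≤ n → m ≠ n →
      ∀ (Γ : Subgroup (Matrix.ProjectiveSpecialLinearGroup (Fin m) ℤ))
        (Λ : Subgroup (Matrix.ProjectiveSpecialLinearGroup (Fin n) ℤ)),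
        Γ.FiniteIndex → Λ.FiniteIndex → ∀ (k : ℕ) (p : MOp k Γ), IsProj p →
        IsEmpty (CornerIso Λ Γ k p)) := by
  refine ⟨fun m n hm hmn Γ₀ hΓ Λ₀ hΛ Γ Λ _ _ i j hi hfi hj k =>
    ⟨fun U => ?_, fun hI p hp => ?_, fun hI p hp => ?_⟩, fun m n hm hn hmn Γ Λ hΓ hΛ k p hp => ?_⟩
  · exact no_emb hS hm hmn hΓ hΛ i j hi hfi hj k U
  · exact no_iso hS hm hmn hΓ hΛ i j hi hfi hj hI k p hp
  · exact no_iso' hS inv hm hmn hΓ hΛ i j hi hfi hj hI k p hp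
  · haveI := hΓ
    haveI := hΛ
    exact no_iso_psl hS inv (by omega) (by omega) hmn Γ Λ k p hp

end Vale.Agent.P092.H261
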