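import Vale.Agent.P092.H761.Sharp
import Vale.Agent.P092.H701.SLn
import Vale.Agent.P092.H944.Geo
import Vale.Agent.P092.H85.CD
import Vale.Agent.P092.H670.Inst
import Vale.Agent.P092.H655.Stmt

/-!
P092 (helper261): wiring of the sharp rank theorem.
-/

set_option linter.all false

open scoped InnerProductSpace
open Filter Topology ContinuousLinearMap MeasureTheory

namespace Vale.Agent.P092.H261

open Vale.Agent.P092.H160 Vale.Agent.P092.H553 Vale.Agent.P092.H200 Vale.Agent.P092.H432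
open Vale.Agent.P092.H538 Vale.Agent.P092.H761 Vale.Agent.P092.H701 Vale.Agent.P092.H655

/-- Ping-pong families of elements of a measurable group. -/
def PingT (E : Type) [Group E] [MeasurableSpace E] (p : ℕ) (u : Fin p → E) : Prop :=
  ∃ Bm Bp : Fin p → Set E, (∀ l, MeasurableSet (Bm l)) ∧ (∀ l, MeasurableSet (Bp l)) ∧
    (∀ l l', l ≠ l' → Disjoint (Bm l) (Bm l')) ∧ (∀ l l', l ≠ l' → Disjoint (Bp l) (Bp l')) ∧
    ∀ l x, x ∉ Bm l → u l * x ∈ Bp l

theorem gchain_of_hchain {E : Type} [Group E] [TopologicalSpace E] [MeasurableSpace E] {r : ℕ}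
    (C : HChain E r) : GChain (fun K : Set E => IsCompact K) (PingT E) r C.b C.K where
  cpt := C.compact
  comm_b := C.comm_b
  comm_K := C.comm_K
  ping := by
    intro j p
    obtain ⟨N, hN⟩ := C.pp j p
    obtain ⟨κ, κ', Bm, Bp, h1, h2, h3, h4, h5, h6, h7⟩ := hN N le_rfl
    exact ⟨N, κ, κ', h1, h2, Bm, Bp, h3, h4, h5, h6, h7⟩

/-- `SharpData` instance of a lattice `Λ` in `E` represented in an amplification of `L(Γ)`. -/
def SharpInst : Prop :=
  ∀ (E : Type) [Group E] [TopologicalSpace E] [IsTopologicalGroup E] [LocallyCompactSpace E]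
    [SecondCountableTopology E] [T2Space E] [MeasurableSpace E] [BorelSpace E] (Λ : Subgroup E)
    [DiscreteTopology Λ] [MeasurableSpace (E ⧸ Λ)] [BorelSpace (E ⧸ Λ)] (ν : Measure (E ⧸ Λ))
    [IsProbabilityMeasure ν] (_ : ∀ g : E, ν.map (fun x => g • x) = ν)
    (Γ ι : Type) [Group Γ] [DecidableEq Γ] [Countable Γ] [Fintype ι] (t : ℝ)
    (R : Λ → (Ell2 (Γ × ι) →L[ℂ] Ell2 (Γ × ι))) (_ : ARep t R),
    ∃ mass : E → (Γ → ℝ) → ℝ, SharpData t mass (fun K : Set E => IsCompact K) (PingT E)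

/-- The rank theorem for a group `E` with a chain of length `m` and a lattice in it. -/
theorem not_arep (hI : SharpInst) {E : Type} [Group E] [TopologicalSpace E]
    [IsTopologicalGroup E] [LocallyCompactSpace E]
    [SecondCountableTopology E] [T2Space E] [MeasurableSpace E] [BorelSpace E] (Λ : Subgroup E)
    [DiscreteTopology Λ] [MeasurableSpace (E ⧸ Λ)] [BorelSpace (E ⧸ Λ)] (ν : Measure (E ⧸ Λ))
    [IsProbabilityMeasure ν] (hν : ∀ g : E, ν.map (fun x => g • x) = ν)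
    {Γ ι J : Type} [Group Γ] [Countable Γ] [Fintype ι] [Fintype J] {r m : ℕ} {gap : J → Γ → ℝ}
    {cl : J → Fin r} (hg : Gaps gap cl)
    (hgeo : ∀ (_ : DecidableEq Γ) (θ : Finset J), Geo gap θ) (C : HChain E m) (hrm : r < m)
    {t : ℝ} {R : Λ → (Ell2 (Γ × ι) →L[ℂ] Ell2 (Γ × ι))} (hR : ARep t R) : False := by
  classical
  obtain ⟨mass, hM⟩ := hI E Λ ν hν Γ ι t R hR
  exact sharpAbs hM hg (fun θ _ _ => hgeo _ θ) (gchain_of_hchain C) hrm

/-! ### Discrete subgroups of `SL_n(ℝ)` -/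

theorem isCompact_hs_le {n : ℕ} (R : ℝ) :
    IsCompact {A : Matrix (Fin n) (Fin n) ℝ | H944.hs A ≤ R} := by
  have hc : Continuous (fun A : Fin n → Fin n → ℝ => ∑ i, ∑ j, A i j ^ 2) := by fun_prop
  have h1 : IsCompact {A : Fin n → Fin n → ℝ | ∑ i, ∑ j, A i j ^ 2 ≤ R} := by
    refine (isCompact_univ_pi (fun _ : Fin n => isCompact_univ_pi
      (fun _ : Fin n => isCompact_Icc (a := -(|R| + 1)) (b := |R| + 1)))).of_isClosed_subset
      (isClosed_le hc continuous_const) ?_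
    intro A hA
    rw [Set.mem_univ_pi]
    intro i
    rw [Set.mem_univ_pi]
    intro j
    have hA' : ∑ i, ∑ j, A i j ^ 2 ≤ R := hA
    have h2 : A i j ^ 2 ≤ R :=
      ((Finset.single_le_sum (f := fun j => A i j ^ 2) (fun _ _ => sq_nonneg _)
        (Finset.mem_univ j)).trans (Finset.single_le_sum (f := fun i => ∑ j, A i j ^ 2)
        (fun _ _ => Finset.sum_nonneg fun _ _ => sq_nonneg _) (Finset.mem_univ i))).trans hA'
    have h3 : |A i j| ≤ |R| + 1 := by
      have h4 := le_abs_self R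
      have h5 : |A i j| ^ 2 ≤ |R| := by rw [sq_abs]; linarith
      by_contra h
      push Not at h
      nlinarith [abs_nonneg R, abs_nonneg (A i j)]
    exact abs_le.mp h3
  exact h1

/-- A discrete subgroup of `SL_n(ℝ)` has finite balls. -/
theorem finite_ball {n : ℕ} (Γ : Subgroup (SLR n)) [DiscreteTopology Γ] (R : ℝ) :
    {g : Γ | H944.hs ((g : SLR n) : Matrix (Fin n) (Fin n) ℝ) ≤ R}.Finite := by
  have h1 : IsClosed (Γ : Set (SLR n)) := Subgroup.isClosed_of_discrete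
  have h2 : Topology.IsClosedEmbedding (fun g : Γ => (g : SLR n)) := h1.isClosedEmbedding_subtypeVal
  have h3 : Topology.IsClosedEmbedding (fun g : SLR n => (g : Matrix (Fin n) (Fin n) ℝ)) :=
    Matrix.SpecialLinearGroup.isClosedEmbedding_val
  have h4 : IsCompact ((fun g : Γ => ((g : SLR n) : Matrix (Fin n) (Fin n) ℝ)) ⁻¹'
      {A : Matrix (Fin n) (Fin n) ℝ | H944.hs A ≤ R}) :=
    (h3.comp h2).isCompact_preimage (isCompact_hs_le R)
  exact h4.finite_of_discrete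

theorem emb_discrete {n : ℕ} (Γ : Subgroup (SLR n)) [DiscreteTopology Γ] :
    H944.Emb (fun g : Γ => ((g : SLR n) : Matrix (Fin n) (Fin n) ℝ)) :=
  H944.emb_of_hom Γ.subtype (finite_ball Γ)

theorem countable_discrete {n : ℕ} (Γ : Subgroup (SLR n)) [DiscreteTopology Γ] : Countable Γ :=
  H790.countable_of_discrete Γ

/-- **SHARP, row form**, for a group `E` with a chain of length `> m - 1`. -/
theorem not_arep_sl (hI : SharpInst) {E : Type} [Group E] [TopologicalSpace E]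
    [IsTopologicalGroup E] [LocallyCompactSpace E]
    [SecondCountableTopology E] [T2Space E] [MeasurableSpace E] [BorelSpace E] (Λ : Subgroup E)
    [DiscreteTopology Λ] [MeasurableSpace (E ⧸ Λ)] [BorelSpace (E ⧸ Λ)] (ν : Measure (E ⧸ Λ))
    [IsProbabilityMeasure ν] (hν : ∀ g : E, ν.map (fun x => g • x) = ν)
    {m r : ℕ} (hm : 1 ≤ m) (Γ : Subgroup (SLR m)) [DiscreteTopology Γ] (C : HChain E r)
    (hr : m ≤ r) {ι : Type} [Fintype ι]
    {t : ℝ} {R : Λ → (Ell2 (Γ × ι) →L[ℂ] Ell2 (Γ × ι))} (hR : ARep t R) : False := by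
  have := countable_discrete Γ
  exact not_arep hI Λ ν hν (H944.gaps (emb_discrete Γ))
    (fun _ θ => H944.geo (by omega) (emb_discrete Γ) θ) C (by omega) hR

theorem sharpRow (hI : SharpInst) : ∀ m n, 1 ≤ m → m < n → ∀ (Γ₀ : Subgroup (SLR m)),
    DiscreteTopology Γ₀ → ∀ (Λ₀ : Subgroup (SLR n)), IsLat n Λ₀ → ∀ (ι : Type) [Fintype ι] (t : ℝ)
    (R : Λ₀ → (Ell2 (Γ₀ × ι) →L[ℂ] Ell2 (Γ₀ × ι))), ¬ ARep t R := by
  intro m n hm hmn Γ₀ hΓ₀ Λ₀ hΛ₀ ι _ t R hR
  obtain ⟨n, rfl⟩ : ∃ k, n = k + 1 := ⟨n - 1, by omega⟩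
  have hd := hΛ₀.disc
  let _ : MeasurableSpace (SLR (n + 1) ⧸ Λ₀) := borel _
  have _ : BorelSpace (SLR (n + 1) ⧸ Λ₀) := ⟨rfl⟩
  let _ : MeasurableSpace (SLR (n + 1)) := borel _
  have _ : BorelSpace (SLR (n + 1)) := ⟨rfl⟩
  obtain ⟨ν, hν0, hνf, hν⟩ := hΛ₀.covol
  have hν1 : ν Set.univ ≠ 0 := by
    intro h
    exact hν0 (Measure.measure_univ_eq_zero.mp h)
  have hP : IsProbabilityMeasure ((ν Set.univ)⁻¹ • ν) := by
    constructor
    rw [Measure.smul_apply, smul_eq_mul]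
    exact ENNReal.inv_mul_cancel hν1 hνf.ne
  refine not_arep_sl hI Λ₀ ((ν Set.univ)⁻¹ • ν) (fun g => ?_) hm Γ₀
    (slChain ℝ n) (by omega) hR
  have hg : Measurable (fun x : SLR (n + 1) ⧸ Λ₀ => g • x) := H85.smul_meas Λ₀ g
  ext s hs
  rw [Measure.map_apply hg hs, Measure.smul_apply, Measure.smul_apply, hν g s hs]

end Vale.Agent.P092.H261
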