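import Vale.Agent.P092.H261.K3d
import Vale.Agent.P092.H217.F5
import Vale.Agent.P092.H866.G1b
import Vale.Agent.P092.H99.CL.Key

/-!
P092 (helper261), COUNT_1 FOR FORMS of Witt index 2, nonarchimedean fields, any kernel: the end.

* `mdl_gen` : the model of the letters by matrices, for every group `S` with a homomorphism to the
  isometry group;
* `u3_of` : the class estimate (helper217, helper866);
* `count1_gen` : `H99.CL.Count1Stmt` in the general letters; `count1_lt` : for `CL.lt`, `s = 0`.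
-/

set_option linter.all false

open scoped InnerProductSpace ENNReal LinearAlgebra.Projectivization ZeroAtInfty Matrix
open Filter Topology ContinuousLinearMap MeasureTheory TopologicalSpace Module Matrix

namespace Vale.Agent.P092.H261.K3

open Vale.Agent.P092.CL (Lt ta nmM NW1 AttS)
open Vale.Agent.P092.H589.K2 (Nrm Opf Cells)
open Vale.Agent.P092.H835.PlF (Alt w3)
open Vale.Agent.P092.H835.PlGr (plk mem_iff rep_line rep_alt plk_of_mem plk_cont plk_inj)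
open Vale.Agent.P092.H820 (wd pj pj_eq pj_surj)
open Vale.Agent.P092.H714.Cl (hf Frm)
open Vale.Agent.P092.H217.F (Fm An Nw Near Lcf Iso2)
open Vale.Agent.P092.H303 (FormGroup)
open Vale.Agent.P092.H370.Po (SGr Inc Col Sing Ort)

section u3

variable {k : Type} [NontriviallyNormedField k] [ProperSpace k] [IsUltrametricDist k]
  [MeasurableSpace k] [BorelSpace k] {n : Type} [Fintype n] [DecidableEq n] {σ : k →+* k}
  {ε : k} {J : Matrix n n k} {β : ℝ}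

theorem zmS_of (h : H866.G1.ZmS σ J) : H217.F.ZmS σ J := by
  intro C c hC hc
  obtain ⟨C', c', h1, h2, h3⟩ := h C c hC hc
  refine ⟨C', c', h1, h2, fun g ρ hg hgg hρ hρ1 => ?_⟩
  obtain ⟨a, a', ha⟩ := h3 g ρ hg hgg hρ hρ1
  exact ⟨a, a', ⟨ha.inv, ha.iso, ha.z1, ha.z2, ha.z3⟩⟩

/-- the class estimate -/
theorem u3_of (cl : Cells k) (h : Fm σ J β) {Ca : ℝ} (hCa : 0 ≤ Ca) (hA : An σ J Ca)
    (hZ : H217.F.ZmS σ J) (K : Type) [NormedAddCommGroup K] [InnerProductSpace ℂ K]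
    [CompleteSpace K] {φ : (n × n → k) → ℂ} {δ CF : ℝ} (hφ : Lcf φ δ CF) : U3Stmt K σ J φ := by
  intro C C₂ C₃ c₀ hC h₂ h₃ h0
  obtain ⟨T₀, C', hT, hC', H⟩ := H217.F.unit3 (K := K) cl h hCa hA hZ hφ C C₂ C₃ c₀ hC h₂ h₃ h0
  refine ⟨T₀, C', hT, hC', ?_⟩
  intro X Y _ _ _ _ _ _ _ _ _ _ s q hs hsi hq hqn hqi Inc hI hw3 b z l n' h1 h2 h3 κ S M η m hM hη
    ρ hρ hρ1 hTρ B hB hBc A' hA' hn1 hn2 E W F N hN hEB hEn hE hF hW hWz v
  rcases S.eq_empty_or_nonempty with rfl | ⟨i, hi⟩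
  · rw [Finset.sum_empty]
    positivity
  · exact H X Y s q hs hsi hq hqn hqi Inc hI hw3 b z l n' h1 h2 h3 κ S M η m (hM i hi).m1 hM hη
      ρ hρ hρ1 hTρ B hB hBc A' hA' hn1 hn2 E W F N hN hEB hEn hE hF hW hWz v

end u3

section dense

variable {n : Type} [Fintype n] [DecidableEq n] {k : Type} [NontriviallyNormedField k]
  [ProperSpace k] {σ : k →+* k} {J : Matrix n n k} [Fact (Continuous σ)]

/-- the Pluecker map of the singular lines -/
noncomputable def pm (σ : k →+* k) (J : Matrix n n k) :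
    C(SGr σ J 2, ℙ k (n × n → k)) := ⟨fun Y => plk Y.1, plk_cont.comp SGr.val_cont⟩

theorem pm_inj : Function.Injective (pm σ J) := fun X Y h =>
  Subtype.ext (plk_inj h)

/-- the pulled back locally constant functions -/
def DL (σ : k →+* k) (J : Matrix n n k) : Set C(SGr σ J 2, ℂ) :=
  {G | ∃ f : C(ℙ k (n × n → k), ℂ), IsLocallyConstant f ∧ G = f.comp (pm σ J)}

theorem dl_dense [IsUltrametricDist k] :
    closure (Submodule.span ℂ (DL σ J) : Set C(SGr σ J 2, ℂ)) = Set.univ := by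
  have hemb : IsClosedEmbedding (pm σ J) := (pm σ J).continuous.isClosedEmbedding pm_inj
  refine Set.eq_univ_of_univ_subset fun G _ => ?_
  obtain ⟨f, hf⟩ : ∃ f : C(ℙ k (n × n → k), ℂ), f.comp (pm σ J) = G := by
    exact ContinuousMap.exists_extension hemb G
  have h1 : f ∈ closure {f : C(ℙ k (n × n → k), ℂ) | IsLocallyConstant f} :=
    H890.dense_lc (k := k) (m := n × n) f
  have hc : Continuous fun f : C(ℙ k (n × n → k), ℂ) => f.comp (pm σ J) :=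
    ContinuousMap.continuous_precomp _
  have h2 := image_closure_subset_closure_image hc ⟨f, h1, hf⟩
  refine closure_mono ?_ h2
  rintro _ ⟨f, hf, rfl⟩
  exact Submodule.subset_span ⟨f, hf, rfl⟩

/-- locally constant functions are functions of the Pluecker vector -/
theorem dl_lcf [IsUltrametricDist k] {G : C(SGr σ J 2, ℂ)} (hG : G ∈ DL σ J) :
    ∃ (φ : (n × n → k) → ℂ) (δ CF : ℝ), Lcf φ δ CF ∧
      ∀ (Y : SGr σ J 2) (ω : n × n → k) (h : ω ≠ 0), plk Y.1 = pj k (n × n) ⟨ω, h⟩ →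
        G Y = φ ω := by
  obtain ⟨f, hf, rfl⟩ := hG
  obtain ⟨ε, hε, hlc⟩ := H696.ev_lc hf
  refine ⟨H890.ev f, ε, ‖f‖, ⟨hε, fun c v hc => H890.ev_scale f hc v, fun v w hw => ?_,
    fun v => ?_⟩, fun Y ω h hY => ?_⟩
  · refine (hlc v (v + w) ?_).symm
    rw [sub_add_cancel_left, norm_neg]
    exact hw
  · by_cases hv : v = 0
    · subst hv
      rw [H890.ev_zero, norm_zero]
      exact norm_nonneg _
    · rw [H890.ev_ne f hv]
      exact ContinuousMap.norm_coe_le_norm f _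
  · rw [H890.ev_ne f h]
    change f (plk Y.1) = _
    rw [hY]

end dense

section model

variable {n : Type} [Fintype n] [DecidableEq n] {k : Type} [NontriviallyNormedField k]
  [ProperSpace k] [MeasurableSpace k] [BorelSpace k] {σ : k →+* k} {ε : k} {J : Matrix n n k}
  {S V₁ V₂ : Type} [Group S] [MeasurableSpace V₁] [MeasurableSpace V₂] [MulAction S (SGr σ J 1)]
  [MulAction S (SGr σ J 2)]

/-- the letters are those of the isometry group, through `φ` -/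
structure IsL (L : Lt S (SGr σ J 1) (SGr σ J 2) V₁ V₂) (φ : S →* FormGroup σ J) : Prop where
  In : ∀ x l, L.In x l ↔ Inc x l
  nm : ∀ g, L.nm g = nmM (ta (φ g).1)
  NA : ∀ R T B g, g ∈ L.NA1 R T B ↔ NW1 R (ta (φ g).1) ∧ AttS T B (ta (φ g).1)
  a1 : ∀ (g : S) (x : SGr σ J 1), g • x = φ g • x
  a2 : ∀ (g : S) (y : SGr σ J 2), g • y = φ g • y

/-- **the model** -/
theorem mdl_gen [Nonempty n] [MeasurableSpace (SGr σ J 1)] [BorelSpace (SGr σ J 1)]
    [MeasurableSpace (SGr σ J 2)] [BorelSpace (SGr σ J 2)]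
    {L : Lt S (SGr σ J 1) (SGr σ J 2) V₁ V₂} {φ : S →* FormGroup σ J} (hL : IsL L φ)
    (hσ : ∀ x, ‖σ x‖ = ‖x‖) {β β' : ℝ} (hJ : Fm σ J β) (hB : H789.S2.Bd σ J β') {r₀ : ℕ} {D₀ : ℝ}
    (hD : H315P.G.Fb σ ε J r₀ D₀)
    (hmax : ∀ X Y : SGr σ J 1, Col X Y → ∃ l : SGr σ J 2, Inc X l ∧ Inc Y l)
    {s : SGr σ J 1 → n → k} {p : SGr σ J 2 → n × n → k} (hs : Measurable s)
    (hsn : ∀ x, Nrm (s x)) (hsS : ∀ x, s x ∈ x.S) (hp : Measurable p) (hpn : ∀ y, Nrm (p y))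
    (hpp : ∀ y, ∃ h, plk y.1 = pj k (n × n) ⟨p y, h⟩) :
    Mdl L σ J (fun g => ta (φ g).1) s p where
  hs := hs
  hp := hp
  hsn := hsn
  hsi x := x.sing.zero (hsS x)
  hpn := hpn
  hpi y := by
    obtain ⟨h, hh⟩ := hpp y
    obtain ⟨x, hx, z, hz, e⟩ := pi_iso2 hh
    exact ⟨x, z, e, y.sing x hx x hx, y.sing x hx z hz, y.sing z hz x hx, y.sing z hz z hz⟩
  hI := by
    have e : {z : SGr σ J 1 × SGr σ J 2 | L.In z.1 z.2} =
        {z : SGr σ J 1 × SGr σ J 2 | Inc z.1 z.2} := by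
      ext z
      exact hL.In z.1 z.2
    rw [e]
    exact H370.Po.inc_closed
  hw3 x y h := by
    obtain ⟨h0, hh⟩ := hpp y
    exact (mem_iff hh).1 ((hL.In x y).1 h (hsS x))
  ax g x := by
    have h1 : s (g • x) ∈ (φ g • x).S := by
      rw [← hL.a1]
      exact hsS _
    exact vec_smul (ta_mem (φ g) (hsS x)) h1 (ta_ne _ (nrm_ne (hsn x))) (nrm_ne (hsn _))
  ay g y := by
    obtain ⟨h0, hh⟩ := hpp y
    obtain ⟨x, hx, z, hz, e⟩ := pi_iso2 hh
    obtain ⟨h0', hh'⟩ := hpp (g • y)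
    have e1 : H835.PlF.sq (ta (φ g).1) *ᵥ p y = wd (ta (φ g).1 *ᵥ x) (ta (φ g).1 *ᵥ z) := by
      rw [e, H835.PlF.sq_wd]
    have h2 : wd (ta (φ g).1 *ᵥ x) (ta (φ g).1 *ᵥ z) ≠ 0 := by
      rw [← e1]
      exact sq_ta_ne _ h0
    have h3 : plk (φ g • y).1 = pj k (n × n) ⟨wd (ta (φ g).1 *ᵥ x) (ta (φ g).1 *ᵥ z), h2⟩ :=
      plk_of_mem (ta_mem (φ g) hx) (ta_mem (φ g) hz) h2
    rw [← hL.a2, hh'] at h3
    obtain ⟨c, hc⟩ := (pj_eq _ _).1 h3
    refine ⟨c, c.ne_zero, ?_⟩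
    rw [e1]
    exact hc.symm
  nw R := by
    refine ⟨_, ?_, fun T A g m hg hm h1 h2 =>
      nw_of (φ g) ((hL.NA R T A g).1 hg).1 hm (by rw [← hL.nm]; exact h1)⟩
    have h1 : (0 : ℝ) ≤ Fintype.card n := Nat.cast_nonneg _
    have h2 := abs_nonneg R
    have : 0 ≤ (Fintype.card n : ℝ) * (Fintype.card n * |R|) := by positivity
    linarith
  cap q hud R := by
    choose N hN using hud
    refine ⟨fun D => N (6 * β' ^ 8 * (1 + |R| + |D|) ^ 4), fun T A m hm Sf hS D x hx hxx hc =>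
      hN _ Sf fun γ hγ γ' hγ' => ?_⟩
    rw [hL.nm, map_mul, map_inv]
    exact cap_pair hB hm ((hL.NA R T A _).1 (hS γ hγ).1).1 ((hL.NA R T A _).1 (hS γ' hγ').1).1
      (by rw [← hL.nm]; exact (hS γ hγ).2.1) (by rw [← hL.nm]; exact (hS γ' hγ').2.1) hx
      (hc γ hγ) (hc γ' hγ')
  ball q hud R := by
    obtain ⟨N, hN⟩ := hud (Fintype.card n * |R| * (β ^ 2 * (Fintype.card n * |R|)))
    refine ⟨N, fun Sf hS => hN Sf fun γ hγ γ' hγ' => ?_⟩
    have h1 : nmM (ta (φ (q γ')).1) ≤ |R| := by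
      rw [← hL.nm]
      exact (hS γ' hγ').trans (le_abs_self R)
    have h2 : nmM (ta (φ (q γ)).1) ≤ |R| := by
      rw [← hL.nm]
      exact (hS γ hγ).trans (le_abs_self R)
    have hβ := hJ.b1
    have hc : (0 : ℝ) ≤ Fintype.card n := Nat.cast_nonneg _
    have hR := abs_nonneg R
    rw [hL.nm, map_mul, map_inv]
    have e : ta (φ (q γ') * (φ (q γ))⁻¹).1 = ta (φ (q γ')).1 * ta ((φ (q γ))⁻¹).1 := ta_mul _ _
    rw [e]
    refine (nmM_mul _ _).trans ?_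
    refine mul_le_mul (mul_le_mul_of_nonneg_left h1 hc) ((nmM_inv hJ (φ (q γ))).trans ?_)
      (nmM_nonneg _) (by positivity)
    gcongr
  loc R A B hA hB hAB := by
    obtain ⟨T, hT, D, hD1, h⟩ := loc_of hσ hD hmax hsS hsn A B hA hB fun x hx x' hx' y h1 h2 =>
      hAB x hx x' hx' y ((hL.In x y).2 h1) ((hL.In x' y).2 h2)
    refine ⟨T, hT, D, hD1, fun g hg x hx => ?_⟩
    rw [hL.nm]
    refine h (φ g) ((hL.NA R T A g).1 hg).2 x ?_
    rw [← hL.a1]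
    exact hx
  mono R T A A' hAA g hg := by
    obtain ⟨h1, X, hX, D, h2, h3⟩ := (hL.NA R T A g).1 hg
    exact (hL.NA R T A' g).2 ⟨h1, X, hAA hX, D, h2, h3⟩

end model

section inv

variable {k : Type} [NontriviallyNormedField k] {n : Type} [Fintype n] [DecidableEq n]
  {σ : k →+* k} {ε : k} {J : Matrix n n k}

/-- a nondegenerate form has an invertible matrix -/
theorem exists_Jinv (hF : H188.G2.Fh σ ε J) : ∃ J' : Matrix n n k, J * J' = 1 := by
  have hinj : Function.Injective fun x : n → k => x ᵥ* J := by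
    intro x y h
    by_contra hxy
    obtain ⟨z, hz⟩ := hF.nondeg (x - y) (sub_ne_zero.2 hxy)
    apply hz
    have e : (x - y) ᵥ* J = 0 := by
      rw [Matrix.sub_vecMul]
      exact sub_eq_zero.2 h
    unfold hf
    rw [Matrix.dotProduct_mulVec, e, zero_dotProduct]
  have hu : IsUnit J := Matrix.vecMul_injective_iff_isUnit.1 hinj
  exact ⟨J⁻¹, Matrix.mul_nonsing_inv _ ((Matrix.isUnit_iff_isUnit_det _).1 hu)⟩

end inv

section main

variable {n : Type} [Fintype n] [DecidableEq n] {k : Type} [NontriviallyNormedField k]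
  [ProperSpace k] {σ : k →+* k} {ε : k} {J : Matrix n n k}
  {S V₁ V₂ : Type} [Group S] [MeasurableSpace V₁] [MeasurableSpace V₂] [TopologicalSpace S]
  [MulAction S (SGr σ J 1)] [MulAction S (SGr σ J 2)] [Fact (Continuous σ)]
  [ContinuousConstSMul S (SGr σ J 1)] [ContinuousConstSMul S (SGr σ J 2)]

/-- **COUNT_1, general letters**, from the class estimate for a dense set of functions, every
local field. -/
theorem count1_any [Nonempty n] [MeasurableSpace k] [BorelSpace k] (cl : Cells k)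
    {L : Lt S (SGr σ J 1) (SGr σ J 2) V₁ V₂} {φ : S →* FormGroup σ J} (hL : IsL L φ)
    (hF : H188.G2.Fh σ ε J) (hσ : ∀ x, ‖σ x‖ = ‖x‖) {r₀ : ℕ} {D₀ : ℝ}
    (hD : H315P.G.Fb σ ε J r₀ D₀)
    (hmax : ∀ X Y : SGr σ J 1, Col X Y → ∃ l : SGr σ J 2, Inc X l ∧ Inc Y l)
    {𝒟 : Set C(SGr σ J 2, ℂ)} (h𝒟 : closure (Submodule.span ℂ 𝒟 : Set C(SGr σ J 2, ℂ)) = Set.univ)
    (hU : ∀ G ∈ 𝒟, ∃ (φ : (n × n → k) → ℂ) (CF : ℝ), Hb φ CF ∧
      (∀ (Y : SGr σ J 2) (ω : n × n → k) (h : ω ≠ 0), plk Y.1 = pj k (n × n) ⟨ω, h⟩ →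
        G Y = φ ω) ∧
      ∀ (K : Type) [NormedAddCommGroup K] [InnerProductSpace ℂ K] [CompleteSpace K],
        U3Stmt K σ J φ) : H99.CL.Count1Stmt L := by
  classical
  letI : MeasurableSpace (SGr σ J 1) := borel _
  haveI : BorelSpace (SGr σ J 1) := ⟨rfl⟩
  letI : MeasurableSpace (SGr σ J 2) := borel _
  haveI : BorelSpace (SGr σ J 2) := ⟨rfl⟩
  obtain ⟨J', hJJ⟩ := exists_Jinv hF
  obtain ⟨β, hJ⟩ := H188.G2.exists_fm hF hσ
  obtain ⟨β', hB⟩ := H789.S2.exists_bd hσ hJJ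
  obtain ⟨Cz, -, hz⟩ := H866.G1.exists_hz hF hJ
  obtain ⟨s, hs, hsn, hsS⟩ := exists_s (σ := σ) (J := J)
  obtain ⟨p, hp, hpn, hpp⟩ := exists_p (σ := σ) (J := J)
  have hd := mdl_gen hL hσ hJ hB hD hmax hs hsn hsS hp hpn hpp
  refine ⟨𝒟, h𝒟, ?_⟩
  intro Γ K _ _ _ q hud E B G G' hEG hBG hBG' R A h f hf hfA
  obtain ⟨φ', CF, hφ, hφ', hu⟩ := hU f hf
  exact count1_of hd (ka3_of cl hJ hz) H914.opfStmt hφ (hu K) q hud E B G G' hEG hBG hBG' R A h f
    (fun y => by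
      obtain ⟨h0, hh⟩ := hpp y
      exact hφ' y (p y) h0 hh) hfA

/-- **COUNT_1, general letters**, nonarchimedean fields. -/
theorem count1_gen [IsUltrametricDist k] [Nonempty n] {L : Lt S (SGr σ J 1) (SGr σ J 2) V₁ V₂}
    {φ : S →* FormGroup σ J} (hL : IsL L φ) (hF : H188.G2.Fh σ ε J) (hσ : ∀ x, ‖σ x‖ = ‖x‖)
    (hW : H188.G2.WI2 σ J) {r₀ : ℕ} {D₀ : ℝ} (hD : H315P.G.Fb σ ε J r₀ D₀)
    (hmax : ∀ X Y : SGr σ J 1, Col X Y → ∃ l : SGr σ J 2, Inc X l ∧ Inc Y l) :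
    H99.CL.Count1Stmt L := by
  letI : MeasurableSpace k := borel k
  haveI : BorelSpace k := ⟨rfl⟩
  obtain ⟨β, hJ⟩ := H188.G2.exists_fm hF hσ
  obtain ⟨Cz, -, hz⟩ := H866.G1.exists_hz hF hJ
  obtain ⟨Ca, hCa, hA⟩ := H188.G2.exists_an hF hσ hW
  obtain ⟨cl⟩ := H914.exists_cells (k := k) (Or.inr inferInstance)
  have hZ := zmS_of (H866.G1.zmS hJ hF.inv hz)
  refine count1_any cl hL hF hσ hD hmax dl_dense fun G hG => ?_
  obtain ⟨φ', δ, CF, hφ, hφ'⟩ := dl_lcf hG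
  exact ⟨φ', CF, Hb.of_lcf hφ, hφ', fun K _ _ _ => u3_of cl hJ hCa hA hZ K hφ⟩

/-- the pulled back tame functions -/
def DT (σ : k →+* k) (J : Matrix n n k) : Set C(SGr σ J 2, ℂ) :=
  {G | ∃ f ∈ H696.TD k (n × n), G = f.comp (pm σ J)}

theorem dt_dense (hk : (∃ τ : k →+* ℂ, ∀ x, ‖τ x‖ = ‖x‖) ∨ IsUltrametricDist k) :
    closure (Submodule.span ℂ (DT σ J) : Set C(SGr σ J 2, ℂ)) = Set.univ := by
  have hemb : IsClosedEmbedding (pm σ J) := (pm σ J).continuous.isClosedEmbedding pm_inj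
  refine Set.eq_univ_of_univ_subset fun G _ => ?_
  obtain ⟨f, hf⟩ : ∃ f : C(ℙ k (n × n → k), ℂ), f.comp (pm σ J) = G :=
    ContinuousMap.exists_extension hemb G
  have h1 : f ∈ closure (H696.TD k (n × n)) := H696.dense_td hk f
  have hc : Continuous fun f : C(ℙ k (n × n → k), ℂ) => f.comp (pm σ J) :=
    ContinuousMap.continuous_precomp _
  have h2 := image_closure_subset_closure_image hc ⟨f, h1, hf⟩
  refine closure_mono ?_ h2
  rintro _ ⟨f, hf, rfl⟩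
  exact Submodule.subset_span ⟨f, hf, rfl⟩

/-- homogeneous lifts of continuous functions are Borel -/
theorem meas_lift [MeasurableSpace k] [BorelSpace k] {f : C(ℙ k (n × n → k), ℂ)}
    {φ : (n × n → k) → ℂ} (h : ∀ v hv, f (Projectivization.mk k v hv) = φ v) : Measurable φ := by
  refine measurable_of_continuousOn_compl_singleton 0 ?_
  rw [continuousOn_iff_continuous_restrict]
  have h1 : Continuous fun v : ({(0 : n × n → k)}ᶜ : Set (n × n → k)) =>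
      f (pj k (n × n) ⟨v.1, v.2⟩) :=
    f.continuous.comp (H820.pj_continuous.comp (continuous_subtype_val.subtype_mk _))
  refine h1.congr fun v => ?_
  exact h v.1 v.2

/-- **COUNT_1, general letters, every local field**, from the class estimate for the tame
functions. -/
theorem count1_tame (hk : (∃ τ : k →+* ℂ, ∀ x, ‖τ x‖ = ‖x‖) ∨ IsUltrametricDist k) [Nonempty n]
    [MeasurableSpace k] [BorelSpace k]
    {L : Lt S (SGr σ J 1) (SGr σ J 2) V₁ V₂} {φ : S →* FormGroup σ J} (hL : IsL L φ)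
    (hF : H188.G2.Fh σ ε J) (hσ : ∀ x, ‖σ x‖ = ‖x‖) {r₀ : ℕ} {D₀ : ℝ}
    (hD : H315P.G.Fb σ ε J r₀ D₀)
    (hmax : ∀ X Y : SGr σ J 1, Col X Y → ∃ l : SGr σ J 2, Inc X l ∧ Inc Y l)
    (hU : ∀ (K : Type) [NormedAddCommGroup K] [InnerProductSpace ℂ K] [CompleteSpace K]
      (φ : (n × n → k) → ℂ), H589.K2.Tame K φ → Measurable φ → U3Stmt K σ J φ) :
    H99.CL.Count1Stmt L := by
  obtain ⟨cl⟩ := H914.exists_cells (k := k) hk
  refine count1_any cl hL hF hσ hD hmax (dt_dense hk) fun G hG => ?_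
  obtain ⟨f, ⟨φ', h1, h2, h3⟩, rfl⟩ := hG
  obtain ⟨B, -, hB⟩ := (h1 ℂ).2.1
  refine ⟨φ', B, ⟨h2, hB⟩, fun Y ω h hY => ?_, fun K _ _ _ => hU K φ' (h1 K)
    (meas_lift h3)⟩
  change f (plk Y.1) = _
  rw [hY]
  exact h3 ω h

end main

section lt

variable {k : Type} [NontriviallyNormedField k] [ProperSpace k] [IsUltrametricDist k]
  [MeasurableSpace k] {ι : Type} [Fintype ι] [DecidableEq ι] {σ : k →+* k} {ε : k}
  {J₀ : Matrix ι ι k}

/-- **COUNT_1 for the classical groups of Witt index 2**, nonarchimedean fields, any kernel -/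
theorem count1_lt [Fact (Continuous σ)] (hF : Frm σ ε (H303.hyp (0 + 2) ε J₀)) {w : k}
    (hw : w ≠ 0) (hσw : σ w = w) (μ₁ : Measure k) (μ₂ : Measure (CL.V2 σ ε))
    (hσ : ∀ x, ‖σ x‖ = ‖x‖) (hW : H370.Po.WI σ (H303.hyp (0 + 2) ε J₀) (0 + 2)) :
    H99.CL.Count1Stmt (CL.lt (s := 0) hF hw hσw μ₁ μ₂) := by
  haveI : Nonempty (H303.Idx (0 + 2) ι) := ⟨Sum.inl (Sum.inl 0)⟩
  obtain ⟨J', hJJ⟩ := exists_Jinv (H188.G2.Fh.of_frm hF)
  obtain ⟨D, hD⟩ := H315P.G.exists_fb hF hσ hJJ 0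
  refine count1_gen (L := CL.lt (s := 0) hF hw hσw μ₁ μ₂) (φ := MonoidHom.id _)
    ⟨fun x l => Iff.rfl, fun g => rfl, fun R T B g => Iff.rfl, fun g x => rfl, fun g y => rfl⟩
    (H188.G2.Fh.of_frm hF) hσ (fun X hX => hW.2 X hX) hD fun X Y h => ?_
  exact H416.CL.exists_max hF le_rfl (CL.m0 (s := 0)) h

end lt

end Vale.Agent.P092.H261.K3
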