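import Vale.Agent.P092.H261.K3e
import Vale.Agent.P092.CL.LtO2
import Vale.Agent.P092.H315P.G6

/-!
P092 (helper261): COUNT_1 for the forms without central element (`H370.Fo`), any group `S` over the
isometry group, and for the orthogonal letters `CL.ltO`, Witt index 2.
-/

set_option linter.all false

open scoped Matrix
open Filter Topology MeasureTheory TopologicalSpace Module Matrix

namespace Vale.Agent.P092.H261.K3

open Vale.Agent.P092.CL (Lt ta nmM NW1 AttS OF ltO)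
open Vale.Agent.P092.H303 (FormGroup)
open Vale.Agent.P092.H370.Po (SGr Inc Col Sing Ort)
open Vale.Agent.P092.H370.Fo (Wf)

section wf

variable {n : Type} [Fintype n] [DecidableEq n] {k : Type} [NontriviallyNormedField k]
  {σ : k →+* k} {ε : k} {J : Matrix n n k}

theorem fh_of_fm (h : H714.Sg.Fm σ ε J) : H188.G2.Fh σ ε J :=
  ⟨h.inv, h.eps, h.seps, h.herm, h.nondeg, h.tv⟩

/-- perpendicular points lie in a common line -/
theorem hmax_wf (hF : Wf σ ε J 2) (X Y : SGr σ J 1) (h : Col X Y) :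
    ∃ l : SGr σ J 2, Inc X l ∧ Inc Y l := by
  by_cases hXY : X = Y
  · subst hXY
    obtain ⟨l, l', -, h1, -⟩ := (CL.gq_wf hF).ln2 X
    exact ⟨l, h1, h1⟩
  · obtain ⟨l, h1, h2⟩ := H370.Fo.exists_line hF.fm hXY h
    exact ⟨l, h1, h2⟩

variable [ProperSpace k] [Fact (Continuous σ)]
  {S V₁ V₂ : Type} [Group S] [MeasurableSpace V₁] [MeasurableSpace V₂] [TopologicalSpace S]
  [MulAction S (SGr σ J 1)] [MulAction S (SGr σ J 2)]
  [ContinuousConstSMul S (SGr σ J 1)] [ContinuousConstSMul S (SGr σ J 2)]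

/-- **COUNT_1, every form of Witt index 2, nonarchimedean fields, any group of isometries.** -/
theorem count1_wf [IsUltrametricDist k] [Nonempty n] {L : Lt S (SGr σ J 1) (SGr σ J 2) V₁ V₂}
    {φ : S →* FormGroup σ J} (hL : IsL L φ) (hF : Wf σ ε J 2) (hσ : ∀ x, ‖σ x‖ = ‖x‖) :
    H99.CL.Count1Stmt L := by
  obtain ⟨J', hJJ⟩ := exists_Jinv (fh_of_fm hF.fm)
  obtain ⟨D, hD⟩ := H315P.GO.exists_fb hF.fm hσ hJJ 0
  exact count1_gen hL (fh_of_fm hF.fm) hσ (fun X hX => hF.wi.2 X hX) hD (hmax_wf hF)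

/-- the same for every local field, from the class estimate for the tame functions -/
theorem count1_wf_tame (hk : (∃ τ : k →+* ℂ, ∀ x, ‖τ x‖ = ‖x‖) ∨ IsUltrametricDist k) [Nonempty n]
    [MeasurableSpace k] [BorelSpace k] {L : Lt S (SGr σ J 1) (SGr σ J 2) V₁ V₂}
    {φ : S →* FormGroup σ J} (hL : IsL L φ) (hF : Wf σ ε J 2) (hσ : ∀ x, ‖σ x‖ = ‖x‖)
    (hU : ∀ (K : Type) [NormedAddCommGroup K] [InnerProductSpace ℂ K] [CompleteSpace K]
      (φ : (n × n → k) → ℂ), H589.K2.Tame K φ → Measurable φ → U3Stmt K σ J φ) :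
    H99.CL.Count1Stmt L := by
  obtain ⟨J', hJJ⟩ := exists_Jinv (fh_of_fm hF.fm)
  obtain ⟨D, hD⟩ := H315P.GO.exists_fb hF.fm hσ hJJ 0
  exact count1_tame hk hL (fh_of_fm hF.fm) hσ hD (hmax_wf hF) hU

end wf

section lto

variable {k : Type} [NontriviallyNormedField k] [ProperSpace k] [MeasurableSpace k]
  {ι : Type} [Fintype ι] [DecidableEq ι] {J₀ : Matrix ι ι k}

/-- the orthogonal letters -/
theorem isL_O (h : OF J₀) {a : k} (ha : a ≠ 0) (μ₁ : Measure k) (μ₂ : Measure (ι → k)) :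
    IsL (ltO h 0 ha μ₁ μ₂) (Subgroup.subtype _) :=
  ⟨fun x l => Iff.rfl, fun g => rfl, fun R T B g => Iff.rfl, fun g x => rfl, fun g y => rfl⟩

/-- **COUNT_1 for the orthogonal groups of Witt index 2**, nonarchimedean fields, any kernel -/
theorem count1_ltO [IsUltrametricDist k] (h : OF J₀) {a : k} (ha : a ≠ 0) (μ₁ : Measure k)
    (μ₂ : Measure (ι → k)) : H99.CL.Count1Stmt (ltO h 0 ha μ₁ μ₂) := by
  haveI : Nonempty (H303.Idx (0 + 2) ι) := ⟨Sum.inl (Sum.inl 0)⟩
  exact count1_wf (isL_O h ha μ₁ μ₂) (h.wf 0) fun x => rfl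

end lto

end Vale.Agent.P092.H261.K3
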