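import Vale.Agent.P092.H156.CO.Unit3R
import Vale.Agent.P092.H261.K3f

/-!
P092 (helper261): **COUNT_1 for the forms of Witt index 2 over EVERY local field** (real, complex,
ultrametric), any anisotropic kernel, any group of isometries, from helper156's `unit3_all`:
`count1_all`, `count1_wf_all`, `count1_lt_all`, `count1_ltO_all`.
-/

set_option linter.all false

open scoped InnerProductSpace ENNReal LinearAlgebra.Projectivization ZeroAtInfty Matrix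
open Filter Topology ContinuousLinearMap MeasureTheory TopologicalSpace Module Matrix

namespace Vale.Agent.P092.H261.K3

open Vale.Agent.P092.CL (Lt ta nmM NW1 AttS OF ltO)
open Vale.Agent.P092.H589.K2 (Nrm Opf Cells Tame)
open Vale.Agent.P092.H835.PlGr (plk)
open Vale.Agent.P092.H820 (wd pj)
open Vale.Agent.P092.H714.Cl (hf Frm)
open Vale.Agent.P092.H217.F (Fm An Nw Near Lcf Iso2)
open Vale.Agent.P092.H303 (FormGroup)
open Vale.Agent.P092.H370.Po (SGr Inc Col Sing Ort)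
open Vale.Agent.P092.H370.Fo (Wf)

section zms

variable {k : Type} [NontriviallyNormedField k] {n : Type} [Fintype n] [DecidableEq n]
  {σ : k →+* k} {J : Matrix n n k}

theorem zmS_any (h : H866.G1.ZmS σ J) : H217.F.ZmS σ J := by
  intro C c hC hc
  obtain ⟨C', c', h1, h2, h3⟩ := h C c hC hc
  refine ⟨C', c', h1, h2, fun g ρ hg hgg hρ hρ1 => ?_⟩
  obtain ⟨a, a', ha⟩ := h3 g ρ hg hgg hρ hρ1
  exact ⟨a, a', ⟨ha.inv, ha.iso, ha.z1, ha.z2, ha.z3⟩⟩

end zms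

section u3

variable {k : Type} [NontriviallyNormedField k] [ProperSpace k]
  [MeasurableSpace k] [BorelSpace k] {n : Type} [Fintype n] [DecidableEq n] {σ : k →+* k}
  {ε : k} {J : Matrix n n k} {β : ℝ}

/-- the class estimate, every local field -/
theorem u3_all (cl : Cells k) (h : Fm σ J β) {Ca : ℝ} (hCa : 0 ≤ Ca) (hA : An σ J Ca)
    (hZ : H217.F.ZmS σ J) (K : Type) [NormedAddCommGroup K] [InnerProductSpace ℂ K]
    [CompleteSpace K] {φ : (n × n → k) → ℂ} (hφ : Tame K φ) (hφm : Measurable φ) :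
    U3Stmt K σ J φ := by
  intro C C₂ C₃ c₀ hC h₂ h₃ h0
  obtain ⟨T₀, C', hT, hC', H⟩ :=
    H156.CO.unit3_all (K := K) cl h hCa hA hZ hφ hφm C C₂ C₃ c₀ hC h₂ h₃ h0
  refine ⟨T₀, C', hT, hC', ?_⟩
  intro X Y _ _ _ _ _ _ _ _ _ _ s q hs hsi hq hqn hqi Inc hI hw3 b z l n' h1 h2 h3 κ S M η m hM hη
    ρ hρ hρ1 hTρ B hB hBc A' hA' hn1 hn2 E W F N hN hEB hEn hE hF hW hWz v
  rcases S.eq_empty_or_nonempty with rfl | ⟨i, hi⟩
  · rw [Finset.sum_empty]
    positivity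
  · exact H X Y s q hs hsi hq hqn hqi Inc hI hw3 b z l n' h1 h2 h3 κ S M η m (hM i hi).m1 hM hη
      ρ hρ hρ1 hTρ B hB hBc A' hA' hn1 hn2 E W F N hN hEB hEn hE hF hW hWz v

end u3

section main

variable {n : Type} [Fintype n] [DecidableEq n] {k : Type} [NontriviallyNormedField k]
  [ProperSpace k] {σ : k →+* k} {ε : k} {J : Matrix n n k}
  {S V₁ V₂ : Type} [Group S] [MeasurableSpace V₁] [MeasurableSpace V₂] [TopologicalSpace S]
  [MulAction S (SGr σ J 1)] [MulAction S (SGr σ J 2)] [Fact (Continuous σ)]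
  [ContinuousConstSMul S (SGr σ J 1)] [ContinuousConstSMul S (SGr σ J 2)]

/-- **COUNT_1, general letters, every local field**, no analytic hypothesis. -/
theorem count1_all (hk : (∃ τ : k →+* ℂ, ∀ x, ‖τ x‖ = ‖x‖) ∨ IsUltrametricDist k) [Nonempty n]
    {L : Lt S (SGr σ J 1) (SGr σ J 2) V₁ V₂} {φ : S →* FormGroup σ J} (hL : IsL L φ)
    (hF : H188.G2.Fh σ ε J) (hσ : ∀ x, ‖σ x‖ = ‖x‖) (hW : H188.G2.WI2 σ J) {r₀ : ℕ} {D₀ : ℝ}
    (hD : H315P.G.Fb σ ε J r₀ D₀)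
    (hmax : ∀ X Y : SGr σ J 1, Col X Y → ∃ l : SGr σ J 2, Inc X l ∧ Inc Y l) :
    H99.CL.Count1Stmt L := by
  letI : MeasurableSpace k := borel k
  haveI : BorelSpace k := ⟨rfl⟩
  obtain ⟨β, hJ⟩ := H188.G2.exists_fm hF hσ
  obtain ⟨Cz, -, hz⟩ := H866.G1.exists_hz hF hJ
  obtain ⟨Ca, hCa, hA⟩ := H188.G2.exists_an hF hσ hW
  obtain ⟨cl⟩ := H914.exists_cells (k := k) hk
  have hZ := zmS_any (H866.G1.zmS hJ hF.inv hz)
  exact count1_tame hk hL hF hσ hD hmax fun K _ _ _ φ' hφ hm => u3_all cl hJ hCa hA hZ K hφ hm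

/-- **COUNT_1, every form of Witt index 2, every local field, any group of isometries.** -/
theorem count1_wf_all (hk : (∃ τ : k →+* ℂ, ∀ x, ‖τ x‖ = ‖x‖) ∨ IsUltrametricDist k) [Nonempty n]
    {L : Lt S (SGr σ J 1) (SGr σ J 2) V₁ V₂}
    {φ : S →* FormGroup σ J} (hL : IsL L φ) (hF : Wf σ ε J 2) (hσ : ∀ x, ‖σ x‖ = ‖x‖) :
    H99.CL.Count1Stmt L := by
  obtain ⟨J', hJJ⟩ := exists_Jinv (fh_of_fm hF.fm)
  obtain ⟨D, hD⟩ := H315P.GO.exists_fb hF.fm hσ hJJ 0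
  exact count1_all hk hL (fh_of_fm hF.fm) hσ (fun X hX => hF.wi.2 X hX) hD (hmax_wf hF)

end main

section lt

variable {k : Type} [NontriviallyNormedField k] [ProperSpace k]
  [MeasurableSpace k] {ι : Type} [Fintype ι] [DecidableEq ι] {σ : k →+* k} {ε : k}
  {J₀ : Matrix ι ι k}

/-- **COUNT_1 for the classical groups of Witt index 2**, every local field, any kernel -/
theorem count1_lt_all [Fact (Continuous σ)]
    (hk : (∃ τ : k →+* ℂ, ∀ x, ‖τ x‖ = ‖x‖) ∨ IsUltrametricDist k)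
    (hF : Frm σ ε (H303.hyp (0 + 2) ε J₀)) {w : k}
    (hw : w ≠ 0) (hσw : σ w = w) (μ₁ : Measure k) (μ₂ : Measure (CL.V2 σ ε))
    (hσ : ∀ x, ‖σ x‖ = ‖x‖) (hW : H370.Po.WI σ (H303.hyp (0 + 2) ε J₀) (0 + 2)) :
    H99.CL.Count1Stmt (CL.lt (s := 0) hF hw hσw μ₁ μ₂) := by
  haveI : Nonempty (H303.Idx (0 + 2) ι) := ⟨Sum.inl (Sum.inl 0)⟩
  obtain ⟨J', hJJ⟩ := exists_Jinv (H188.G2.Fh.of_frm hF)
  obtain ⟨D, hD⟩ := H315P.G.exists_fb hF hσ hJJ 0
  refine count1_all hk (L := CL.lt (s := 0) hF hw hσw μ₁ μ₂) (φ := MonoidHom.id _)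
    ⟨fun x l => Iff.rfl, fun g => rfl, fun R T B g => Iff.rfl, fun g x => rfl, fun g y => rfl⟩
    (H188.G2.Fh.of_frm hF) hσ (fun X hX => hW.2 X hX) hD fun X Y h => ?_
  exact H416.CL.exists_max hF le_rfl (CL.m0 (s := 0)) h

end lt

section lto

variable {k : Type} [NontriviallyNormedField k] [ProperSpace k] [MeasurableSpace k]
  {ι : Type} [Fintype ι] [DecidableEq ι] {J₀ : Matrix ι ι k}

/-- **COUNT_1 for the orthogonal groups of Witt index 2**, every local field, any kernel -/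
theorem count1_ltO_all (hk : (∃ τ : k →+* ℂ, ∀ x, ‖τ x‖ = ‖x‖) ∨ IsUltrametricDist k)
    (h : OF J₀) {a : k} (ha : a ≠ 0) (μ₁ : Measure k)
    (μ₂ : Measure (ι → k)) : H99.CL.Count1Stmt (ltO h 0 ha μ₁ μ₂) := by
  haveI : Nonempty (H303.Idx (0 + 2) ι) := ⟨Sum.inl (Sum.inl 0)⟩
  exact count1_wf_all hk (isL_O h ha μ₁ μ₂) (h.wf 0) fun x => rfl

end lto

end Vale.Agent.P092.H261.K3
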