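import Vale.Agent.P092.H261.K3a
import Vale.Agent.P092.H835.NF

/-!
P092 (helper261), COUNT_1 FOR FORMS, outer half, part 2: the estimate of one shell (`Ka3Stmt`) from
the class estimate of helper217 (`U3At`) and the Whitney decomposition `whitB`.
-/

set_option linter.all false

open scoped InnerProductSpace ENNReal LinearAlgebra.Projectivization ZeroAtInfty Matrix
open Filter Topology ContinuousLinearMap MeasureTheory TopologicalSpace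

namespace Vale.Agent.P092.H261.K3

open Vale.Agent.P092.H464 (Pv CI)
open Vale.Agent.P092.H464.PW (dec nrm_one)
open Vale.Agent.P092.H589.K2 (Nrm Opf Cells)
open Vale.Agent.P092.H589.Mu (Cap)
open Vale.Agent.P092.H835.PlF (Alt w3 sq)
open Vale.Agent.P092.H820 (wd)
open Vale.Agent.P092.H714.Cl (hf)
open Vale.Agent.P092.H217.F (Fm An Nw Near Lcf Iso2)

variable {k : Type} [NontriviallyNormedField k] {n : Type} [Fintype n] [DecidableEq n]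

/-- The class estimate (helper217, `unit3`) for given constants, as a Prop. -/
def U3At [MeasurableSpace k] (K : Type) [NormedAddCommGroup K] [InnerProductSpace ℂ K]
    [CompleteSpace K] (σ : k →+* k) (J : Matrix n n k) (φ : (n × n → k) → ℂ)
    (C C₂ C₃ c₀ T₀ C' : ℝ) : Prop :=
    ∀ (X Y : Type) [TopologicalSpace X] [CompactSpace X] [MetrizableSpace X]
      [MeasurableSpace X] [BorelSpace X] [TopologicalSpace Y] [CompactSpace Y]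
      [MetrizableSpace Y] [MeasurableSpace Y] [BorelSpace Y] (s : X → n → k)
      (q : Y → n × n → k), (∀ x, Nrm (s x)) → (∀ x, hf σ J (s x) (s x) = 0) → Measurable q →
      (∀ y, Nrm (q y)) → (∀ y, Iso2 σ J (q y)) →
      ∀ Inc : X → Y → Prop, IsClosed {z : X × Y | Inc z.1 z.2} →
      (∀ x y, Inc x y → w3 (s x) (q y) = 0) →
      ∀ (b z : C(X, ℂ) →⋆ₐ[ℂ] (K →L[ℂ] K)) (l n' : C(Y, ℂ) →⋆ₐ[ℂ] (K →L[ℂ] K)),
      CI Inc (H466.pv b) (H466.pv n') → CI Inc (H466.pv z) (H466.pv n') →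
      CI Inc (H466.pv z) (H466.pv l) →
      ∀ (κ : Type) (S : Finset κ) (M : κ → Matrix n n k) (η : κ → n → k) (m : ℝ),
      (∀ k ∈ S, Nw σ J C m (M k)) →
      (∀ k ∈ S, Nrm (η k) ∧ hf σ J (η k) (η k) = 0 ∧ ‖M k *ᵥ η k‖ * m ≤ C₂) →
      ∀ (ρ : k), ρ ≠ 0 → ‖ρ‖ ≤ 1 → T₀ ≤ m * ‖ρ‖ →
      ∀ B : κ → Set X, (∀ k ∈ S, IsClosed (B k)) → (∀ k ∈ S, ∀ x ∈ B k, ‖M k *ᵥ s x‖ * m ≤ C₂) →
      ∀ A' : Set X, MeasurableSet A' →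
      (∀ k ∈ S, ∀ x ∈ A', Near σ J C₃ ρ (s x) (η k)) →
      (∀ k ∈ S, ∀ x ∈ A', ¬ Near σ J c₀ ρ (s x) (η k)) →
      ∀ (E W : κ → (K →L[ℂ] K)) (F : κ → Y → ℂ) (N : ℝ), 0 ≤ N →
      (∀ k ∈ S, E k * H466.pv b (B k) = E k) →
      (∀ k ∈ S, ∀ D, MeasurableSet D → E k * H466.pv n' D = H466.pv n' D * E k) → Cap S E N →
      (∀ k ∈ S, ∀ y, F k y = φ (sq (M k) *ᵥ q y)) →
      (∀ k ∈ S, Opf (H466.pv l) (F k) (W k)) →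
      (∀ k ∈ S, ∀ D, MeasurableSet D → W k * H466.pv z D = H466.pv z D * W k) →
      ∀ v, ∑ k ∈ S, ‖E k (W k (H466.pv z A' v))‖ ^ 2 ≤
        (C' * (1 + Real.log m) * N) ^ 2 * ‖H466.pv z A' v‖ ^ 2

/-- homogeneous and bounded functions of the 2-vectors -/
structure Hb (φ : (n × n → k) → ℂ) (CF : ℝ) : Prop where
  hom : ∀ (c : k) v, c ≠ 0 → φ (c • v) = φ v
  bd : ∀ v, ‖φ v‖ ≤ CF

theorem Hb.of_lcf {φ : (n × n → k) → ℂ} {δ CF : ℝ} (h : Lcf φ δ CF) : Hb φ CF := ⟨h.hom, h.bd⟩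

/-- The class estimate, as a Prop. -/
def U3Stmt [MeasurableSpace k] (K : Type) [NormedAddCommGroup K] [InnerProductSpace ℂ K]
    [CompleteSpace K] (σ : k →+* k) (J : Matrix n n k) (φ : (n × n → k) → ℂ) : Prop :=
  ∀ C C₂ C₃ c₀ : ℝ, 1 ≤ C → 1 ≤ C₂ → 1 ≤ C₃ → 0 < c₀ →
    ∃ T₀ C' : ℝ, 1 ≤ T₀ ∧ 0 ≤ C' ∧ U3At K σ J φ C C₂ C₃ c₀ T₀ C'

/-- the hypotheses of `Ka3Stmt` after the constants -/
structure KD {K : Type} [NormedAddCommGroup K] [InnerProductSpace ℂ K] [CompleteSpace K]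
    [MeasurableSpace k] (σ : k →+* k) (J : Matrix n n k) (φ : (n × n → k) → ℂ) (C₁ : ℝ)
    (Nc : ℝ → ℕ) {X Y : Type} [TopologicalSpace X]
    [CompactSpace X] [MetrizableSpace X] [MeasurableSpace X] [BorelSpace X] [TopologicalSpace Y]
    [CompactSpace Y] [MetrizableSpace Y] [MeasurableSpace Y] [BorelSpace Y] (s : X → n → k)
    (p : Y → n × n → k) (Inc : X → Y → Prop) (b z : C(X, ℂ) →⋆ₐ[ℂ] (K →L[ℂ] K))
    (l n' : C(Y, ℂ) →⋆ₐ[ℂ] (K →L[ℂ] K)) {κ : Type} (S : Finset κ)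
    (G : κ → Matrix n n k) (m : ℝ) (B : κ → Set X)
    (E W : κ → (K →L[ℂ] K)) (F : κ → Y → ℂ) (N : ℝ) : Prop where
  hs : Measurable s
  hp : Measurable p
  hsn : ∀ x, Nrm (s x)
  hsi : ∀ x, hf σ J (s x) (s x) = 0
  hpn : ∀ y, Nrm (p y)
  hpi : ∀ y, Iso2 σ J (p y)
  hInc : IsClosed {z : X × Y | Inc z.1 z.2}
  hw3 : ∀ x y, Inc x y → w3 (s x) (p y) = 0
  hbn : CI Inc (H466.pv b) (H466.pv n')
  hzn : CI Inc (H466.pv z) (H466.pv n')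
  hzl : CI Inc (H466.pv z) (H466.pv l)
  hm : 1 ≤ m
  hNW : ∀ k ∈ S, Nw σ J C₁ m (G k)
  hcap : ∀ (D : ℝ) (x : n → k), x ≠ 0 → hf σ J x x = 0 → ∀ S' ⊆ S,
    (∀ k ∈ S', m * ‖G k *ᵥ x‖ ≤ D * ‖x‖) → S'.card ≤ Nc D
  hBs : ∀ k ∈ S, IsClosed (B k)
  hBc : ∀ k ∈ S, ∀ x ∈ B k, m * ‖G k *ᵥ s x‖ ≤ C₁
  hN : 0 ≤ N
  hEB : ∀ k ∈ S, E k * H466.pv b (B k) = E k
  hEn : ∀ k ∈ S, ∀ A, MeasurableSet A → E k * H466.pv n' A = H466.pv n' A * E k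
  hE : Cap S E N
  hF : ∀ k ∈ S, ∀ y, F k y = φ (sq (G k) *ᵥ p y)
  hW : ∀ k ∈ S, Opf (H466.pv l) (F k) (W k)
  hWz : ∀ k ∈ S, ∀ A, MeasurableSet A → W k * H466.pv z A = H466.pv z A * W k

/-- **One shell.** -/
def Ka3Stmt [MeasurableSpace k] (σ : k →+* k) (J : Matrix n n k) : Prop :=
  ∀ (K : Type) [NormedAddCommGroup K] [InnerProductSpace ℂ K] [CompleteSpace K]
    {φ : (n × n → k) → ℂ} {CF : ℝ}, Hb φ CF → U3Stmt K σ J φ → ∀ C₁ : ℝ, 1 ≤ C₁ →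
    ∀ Nc : ℝ → ℕ, ∃ (C : ℝ) (e : ℕ), 0 ≤ C ∧
    ∀ (X Y : Type) [TopologicalSpace X] [CompactSpace X] [MetrizableSpace X]
      [MeasurableSpace X] [BorelSpace X] [TopologicalSpace Y] [CompactSpace Y]
      [MetrizableSpace Y] [MeasurableSpace Y] [BorelSpace Y] (s : X → n → k)
      (p : Y → n × n → k) (Inc : X → Y → Prop) (b z : C(X, ℂ) →⋆ₐ[ℂ] (K →L[ℂ] K))
      (l n' : C(Y, ℂ) →⋆ₐ[ℂ] (K →L[ℂ] K)) (κ : Type) (S : Finset κ) (G : κ → Matrix n n k) (m : ℝ)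
      (B : κ → Set X) (E W : κ → (K →L[ℂ] K)) (F : κ → Y → ℂ) (N : ℝ),
      KD σ J φ C₁ Nc s p Inc b z l n' S G m B E W F N →
        Cap S (fun k => E k * W k) (C * (1 + Real.log m) ^ e * N)

section triv

variable {K : Type} [NormedAddCommGroup K] [InnerProductSpace ℂ K] [CompleteSpace K]

theorem triv {κ : Type} {S S' : Finset κ} (hS : S' ⊆ S) {E W : κ → (K →L[ℂ] K)} {N B : ℝ}
    (hN : 0 ≤ N) (hB : 0 ≤ B) (hE : Cap S E N) (hW : ∀ k ∈ S, ∀ v, ‖W k v‖ ≤ B * ‖v‖) {n : ℕ}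
    (hn : S'.card ≤ n) (v : K) :
    ∑ k ∈ S', ‖(E k * W k) v‖ ^ 2 ≤ ((n + 1) * B * N) ^ 2 * ‖v‖ ^ 2 := by
  classical
  have h1 : ∀ k ∈ S', ‖(E k * W k) v‖ ^ 2 ≤ (B * N) ^ 2 * ‖v‖ ^ 2 := by
    intro k hk
    have h2 : ‖E k (W k v)‖ ^ 2 ≤ N ^ 2 * ‖W k v‖ ^ 2 :=
      (Finset.single_le_sum (f := fun k' => ‖E k' (W k v)‖ ^ 2) (fun _ _ => sq_nonneg _)
        (hS hk)).trans (hE (W k v))
    have h3 := hW k (hS hk) v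
    calc ‖(E k * W k) v‖ ^ 2 = ‖E k (W k v)‖ ^ 2 := rfl
      _ ≤ N ^ 2 * ‖W k v‖ ^ 2 := h2
      _ ≤ N ^ 2 * (B * ‖v‖) ^ 2 := by gcongr
      _ = _ := by ring
  refine (Finset.sum_le_sum h1).trans ?_
  rw [Finset.sum_const, nsmul_eq_mul]
  have h4 : (S'.card : ℝ) ≤ n := by exact_mod_cast hn
  have h5 : (0 : ℝ) ≤ n := Nat.cast_nonneg n
  have h6 : (n : ℝ) ≤ (n + 1) ^ 2 := by nlinarith
  calc (S'.card : ℝ) * ((B * N) ^ 2 * ‖v‖ ^ 2) ≤ (n + 1) ^ 2 * ((B * N) ^ 2 * ‖v‖ ^ 2) := by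
        gcongr
        exact h4.trans h6
    _ = _ := by ring

theorem opf_le {Y : Type} [MeasurableSpace Y] {P : Set Y → (K →L[ℂ] K)} (hP : Pv P) {F : Y → ℂ}
    {W : K →L[ℂ] K} (h : Opf P F W) {B : ℝ} (hB : 0 ≤ B) (hF : ∀ y, ‖F y‖ ≤ B) (v : K) :
    ‖W v‖ ≤ B * ‖v‖ := by
  have h1 := h.approx Set.univ MeasurableSet.univ 0 B hB (fun y _ => by rw [sub_zero]; exact hF y) v
  rw [hP.univ, zero_smul, sub_zero] at h1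
  exact h1

end triv

/-- the last level -/
theorem exists_J {m T₁ : ℝ} (hm : 1 ≤ m) (hT : 1 ≤ T₁) : ∃ J : ℕ, m * (1 / 2) ^ J ≤ T₁ ∧
    (∀ m' < J, T₁ < m * (1 / 2) ^ m') ∧ (J : ℝ) + 1 ≤ 2 * (1 + Real.log m) := by
  have h1 : ∃ J : ℕ, m * (1 / 2) ^ J ≤ T₁ := by
    obtain ⟨J, hJ⟩ := exists_pow_lt_of_lt_one (show (0 : ℝ) < 1 / m by positivity)
      (show (1 / 2 : ℝ) < 1 by norm_num)
    refine ⟨J, ?_⟩
    have : m * (1 / 2) ^ J ≤ m * (1 / m) := by gcongr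
    have e : m * (1 / m) = 1 := by field_simp
    linarith
  classical
  set J := Nat.find h1 with hJ
  have h2 : m * (1 / 2) ^ J ≤ T₁ := Nat.find_spec h1
  have h3 : ∀ m' < J, T₁ < m * (1 / 2) ^ m' := fun m' h => not_le.1 (Nat.find_min h1 h)
  refine ⟨J, h2, h3, ?_⟩
  have hl : 0 ≤ Real.log m := Real.log_nonneg hm
  rcases Nat.eq_zero_or_pos J with h0 | h0
  · rw [h0]; push_cast; linarith
  · obtain ⟨j, hj⟩ : ∃ j, J = j + 1 := ⟨J - 1, by omega⟩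
    have h4 := h3 j (by omega)
    have h5 : (2 : ℝ) ^ j ≤ m := by
      have h6 : 1 ≤ m * (1 / 2) ^ j := hT.trans h4.le
      have h7 : (2 : ℝ) ^ j * (1 / 2) ^ j = 1 := by rw [← mul_pow]; norm_num
      have h8 : (0 : ℝ) < (1 / 2) ^ j := by positivity
      nlinarith
    have h6 : j * Real.log 2 ≤ Real.log m := by
      rw [← Real.log_pow]
      exact Real.log_le_log (by positivity) h5
    have h7 : (1 : ℝ) / 2 ≤ Real.log 2 := by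
      have := Real.log_two_gt_d9
      linarith
    have h8 : (0 : ℝ) ≤ j := Nat.cast_nonneg j
    have h9 : (j : ℝ) ≤ 2 * Real.log m := by nlinarith
    rw [hj]; push_cast; linarith

section steps

variable {σ : k →+* k} {J : Matrix n n k} {β : ℝ}

variable [ProperSpace k] [MeasurableSpace k] [BorelSpace k]
  {K : Type} [NormedAddCommGroup K] [InnerProductSpace ℂ K] [CompleteSpace K]
  {φ : (n × n → k) → ℂ} {C₁ : ℝ} {Nc : ℝ → ℕ} {X Y : Type} [TopologicalSpace X]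
  [CompactSpace X] [MetrizableSpace X] [MeasurableSpace X] [BorelSpace X] [TopologicalSpace Y]
  [CompactSpace Y] [MetrizableSpace Y] [MeasurableSpace Y] [BorelSpace Y] {s : X → n → k}
  {p : Y → n × n → k} {Inc : X → Y → Prop} {b' z : C(X, ℂ) →⋆ₐ[ℂ] (K →L[ℂ] K)}
  {l n' : C(Y, ℂ) →⋆ₐ[ℂ] (K →L[ℂ] K)} {κ : Type} {S : Finset κ}
  {G : κ → Matrix n n k} {m : ℝ} {Bs : κ → Set X}
  {E W : κ → (K →L[ℂ] K)} {F : κ → Y → ℂ} {N : ℝ}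

/-- one class -/
theorem cls_step (d : KD σ J φ C₁ Nc s p Inc b' z l n' S G m Bs E W F N) {C' T₀ a b : ℝ} {τ : k}
    (hτ : 1 < ‖τ‖) (ha : 1 ≤ a) (hb : 1 ≤ b)
    (hunit : U3At K σ J φ C₁ C₁ (max (2 * a * ‖τ‖) (2 * b * ‖τ‖ ^ 2)) (1 / 4) T₀ C')
    {η : κ → n → k} {S' : Finset κ} (hS' : S' ⊆ S)
    (hη : ∀ k ∈ S', Nrm (η k) ∧ hf σ J (η k) (η k) = 0 ∧ ‖G k *ᵥ η k‖ * m ≤ C₁)
    {m' : ℕ} (hm' : T₀ * ‖τ‖ < m * (1 / 2) ^ m') {A' : Set X} (hA' : MeasurableSet A')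
    (hR : ∀ k ∈ S', ∀ x ∈ A', ‖wd (s x) (η k)‖ ≤ 2 * a * (1 / 2) ^ m' ∧
        ‖hf σ J (s x) (η k)‖ ≤ 2 * b * ((1 / 2) ^ m') ^ 2 ∧
        ¬ (‖wd (s x) (η k)‖ ≤ a * (1 / 2) ^ (m' + 1) ∧
          ‖hf σ J (s x) (η k)‖ ≤ b * ((1 / 2) ^ (m' + 1)) ^ 2)) (v : K) :
    ∑ k ∈ S', ‖(E k * W k) (H466.pv z A' v)‖ ^ 2 ≤
      (C' * (1 + Real.log m) * N) ^ 2 * ‖H466.pv z A' v‖ ^ 2 := by
  have hτ0 : 0 < ‖τ‖ := one_pos.trans hτ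
  have hm1 := d.hm
  have hp2 : (0 : ℝ) < (1 / 2) ^ m' := by positivity
  obtain ⟨ρ, hρ0, hρ1, hρ2⟩ := H835.NF.exists_scale hτ
    (show (0 : ℝ) < (1 / 2) ^ m' / ‖τ‖ by positivity)
  have hρ2' : ‖ρ‖ ≤ (1 / 2) ^ m' := by
    refine hρ2.trans (le_of_eq ?_)
    field_simp
  have hρ1' : (1 / 2) ^ m' ≤ ‖τ‖ * ‖ρ‖ := by
    rw [div_le_iff₀ hτ0] at hρ1
    rwa [mul_comm] at hρ1
  have hρle : ‖ρ‖ ≤ 1 := hρ2'.trans (pow_le_one₀ (by norm_num) (by norm_num))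
  have hTρ : T₀ ≤ m * ‖ρ‖ := by
    have h2 : T₀ * ‖τ‖ ≤ m * ‖ρ‖ * ‖τ‖ := by
      calc T₀ * ‖τ‖ ≤ m * (1 / 2) ^ m' := hm'.le
        _ ≤ m * (‖τ‖ * ‖ρ‖) := by gcongr
        _ = _ := by ring
    exact le_of_mul_le_mul_right h2 hτ0
  refine hunit X Y s p d.hsn d.hsi d.hp d.hpn d.hpi Inc d.hInc d.hw3 b' z l n' d.hbn d.hzn d.hzl κ
    S' G η m (fun κ' hκ => d.hNW κ' (hS' hκ)) hη ρ hρ0 hρle hTρ Bs
    (fun κ' hκ => d.hBs κ' (hS' hκ))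
    (fun κ' hκ x hx => ?_) A' hA' (fun κ' hκ x hx => ?_) (fun κ' hκ x hx h3 => ?_)
    E W F N d.hN (fun κ' hκ => d.hEB κ' (hS' hκ)) (fun κ' hκ => d.hEn κ' (hS' hκ))
    (d.hE.sub hS') (fun κ' hκ => d.hF κ' (hS' hκ))
    (fun κ' hκ => d.hW κ' (hS' hκ)) (fun κ' hκ => d.hWz κ' (hS' hκ)) v
  · rw [mul_comm]
    exact d.hBc κ' (hS' hκ) x hx
  · obtain ⟨h1, h2, -⟩ := hR κ' hκ x hx
    constructor
    · calc ‖wd (s x) (η κ')‖ ≤ 2 * a * (1 / 2) ^ m' := h1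
        _ ≤ 2 * a * (‖τ‖ * ‖ρ‖) := by gcongr
        _ = 2 * a * ‖τ‖ * ‖ρ‖ := by ring
        _ ≤ max (2 * a * ‖τ‖) (2 * b * ‖τ‖ ^ 2) * ‖ρ‖ :=
            mul_le_mul_of_nonneg_right (le_max_left _ _) (norm_nonneg _)
    · calc ‖hf σ J (s x) (η κ')‖ ≤ 2 * b * ((1 / 2) ^ m') ^ 2 := h2
        _ ≤ 2 * b * (‖τ‖ * ‖ρ‖) ^ 2 := by gcongr
        _ = 2 * b * ‖τ‖ ^ 2 * ‖ρ‖ ^ 2 := by ring
        _ ≤ max (2 * a * ‖τ‖) (2 * b * ‖τ‖ ^ 2) * ‖ρ‖ ^ 2 :=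
            mul_le_mul_of_nonneg_right (le_max_right _ _) (sq_nonneg _)
  · obtain ⟨-, -, h4⟩ := hR κ' hκ x hx
    refine h4 ⟨?_, ?_⟩
    · refine h3.1.trans ?_
      rw [pow_succ]
      have h5 : (1 / 4 : ℝ) * ‖ρ‖ ≤ 1 / 4 * (1 / 2) ^ m' := by gcongr
      nlinarith
    · refine h3.2.trans ?_
      have h5 : (1 / 4 : ℝ) * ‖ρ‖ ^ 2 ≤ 1 / 4 * ((1 / 2) ^ m') ^ 2 := by gcongr
      have h6 : 0 ≤ ((1 / 2 : ℝ) ^ m') ^ 2 := by positivity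
      have h7 : 1 * ((1 / 2 : ℝ) ^ m') ^ 2 ≤ b * ((1 / 2 : ℝ) ^ m') ^ 2 :=
        mul_le_mul_of_nonneg_right hb h6
      have e : b * ((1 / 2 : ℝ) ^ (m' + 1)) ^ 2 = 1 / 4 * (b * ((1 / 2 : ℝ) ^ m') ^ 2) := by
        rw [pow_succ]; ring
      rw [e]
      linarith

/-- the constant of the last level -/
noncomputable def cL (β C₁ Cz a b T₁ : ℝ) : ℝ :=
  C₁ + (C₁ * Cz + C₁ * Cz * (β * (2 * C₁ * Cz * (β * C₁)) * C₁) + 2 * C₁ * Cz * (β * C₁)) *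
    (2 * b * T₁ ^ 2 + 2 * a * T₁)

/-- the last level -/
theorem last_step (hJ : Fm σ J β) {Cz : ℝ}
    (hz : ∀ g, Nrm g → hf σ J g g = 0 → ∃ ζ, hf σ J ζ ζ = 0 ∧ hf σ J g ζ = 1 ∧ ‖ζ‖ ≤ Cz)
    (d : KD σ J φ C₁ Nc s p Inc b' z l n' S G m Bs E W F N) (hC₁ : 1 ≤ C₁)
    {B : ℝ} (hB0 : 0 ≤ B) (hWb : ∀ k ∈ S, ∀ v, ‖W k v‖ ≤ B * ‖v‖)
    {T₁ a b : ℝ} (ha : 1 ≤ a) (hb : 1 ≤ b) {η : κ → n → k} {S' : Finset κ} (hS' : S' ⊆ S)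
    (hη : ∀ k ∈ S', Nrm (η k) ∧ hf σ J (η k) (η k) = 0 ∧ ‖G k *ᵥ η k‖ * m ≤ C₁)
    {J' : ℕ} (hJ1 : m * (1 / 2) ^ J' ≤ T₁)
    {A' : Set X} (hA'ne : A'.Nonempty)
    (hR : ∀ k ∈ S', ∀ x ∈ A', ‖wd (s x) (η k)‖ ≤ 2 * a * (1 / 2) ^ J' ∧
        ‖hf σ J (s x) (η k)‖ ≤ 2 * b * ((1 / 2) ^ J') ^ 2) (v : K) :
    ∑ k ∈ S', ‖(E k * W k) v‖ ^ 2 ≤
      ((Nc (cL β C₁ Cz a b T₁) + 1) * B * N) ^ 2 * ‖v‖ ^ 2 := by
  obtain ⟨x, hx⟩ := hA'ne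
  have hsx : ‖s x‖ = 1 := nrm_one (d.hsn x)
  have hsx0 : s x ≠ 0 := fun h => by rw [h, norm_zero] at hsx; exact zero_ne_one hsx
  refine triv hS' d.hN hB0 d.hE hWb (d.hcap _ (s x) hsx0 (d.hsi x) S' hS' fun κ' hκ => ?_) v
  obtain ⟨h1, h2⟩ := hR κ' hκ x hx
  obtain ⟨h3, h4, h5⟩ := hη κ' hκ
  obtain ⟨ζ, -, hζ1, hζ2⟩ := hz _ h3 h4
  rw [hsx, mul_one]
  exact near_cap hJ (d.hNW κ' (hS' hκ)) hC₁ h5 hζ1 hζ2 h3 h4 hsx.le (by positivity)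
    (by positivity) (by positivity) hJ1 h1 h2

/-- the small elements -/
theorem small_step (d : KD σ J φ C₁ Nc s p Inc b' z l n' S G m Bs E W F N) (hC₁ : 1 ≤ C₁)
    {B : ℝ} (hB0 : 0 ≤ B) (hWb : ∀ k ∈ S, ∀ v, ‖W k v‖ ≤ B * ‖v‖) (hX : Nonempty X) {R : ℝ}
    (hsm : m ≤ R) (v : K) :
    ∑ k ∈ S, ‖(E k * W k) v‖ ^ 2 ≤ ((Nc (C₁ * R ^ 2) + 1) * B * N) ^ 2 * ‖v‖ ^ 2 := by
  obtain ⟨x⟩ := hX
  have hsx : ‖s x‖ = 1 := nrm_one (d.hsn x)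
  have hsx0 : s x ≠ 0 := fun h => by rw [h, norm_zero] at hsx; exact zero_ne_one hsx
  have hm := d.hm
  refine triv (subset_rfl : S ⊆ S) d.hN hB0 d.hE hWb
    (d.hcap (C₁ * R ^ 2) (s x) hsx0 (d.hsi x) S subset_rfl fun κ' hκ => ?_) v
  have h2 := (d.hNW κ' hκ).u1 (s x)
  rw [hsx, mul_one] at h2 ⊢
  calc m * ‖G κ' *ᵥ s x‖ ≤ m * (C₁ * m) := by gcongr
    _ = C₁ * m ^ 2 := by ring
    _ ≤ _ := by gcongr

/-- all elements whose `B` is not empty -/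
theorem large_step (cl : Cells k) (hJ : Fm σ J β) {Cz : ℝ}
    (hz : ∀ g, Nrm g → hf σ J g g = 0 → ∃ ζ, hf σ J ζ ζ = 0 ∧ hf σ J g ζ = 1 ∧ ‖ζ‖ ≤ Cz)
    (d : KD σ J φ C₁ Nc s p Inc b' z l n' S G m Bs E W F N)
    (hC₁ : 1 ≤ C₁) {B : ℝ} (hB0 : 0 ≤ B) (hWb : ∀ k ∈ S, ∀ v, ‖W k v‖ ≤ B * ‖v‖)
    {τ : k} (hτ : 1 < ‖τ‖) {a b : ℝ} {Mw : ℕ} (ha : 1 ≤ a) (hb : 1 ≤ b)
    (hcc : ∀ {X κ : Type} [MeasurableSpace X] (s : X → n → k), Measurable s →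
      (∀ x, Nrm (s x)) → (∀ x, hB σ J (s x) (s x) = 0) →
      ∀ {Pz : Set X → (K →L[ℂ] K)}, Pv Pz → ∀ (J' : ℕ) (S : Finset κ)
      (η : κ → n → k), (∀ k ∈ S, ‖η k‖ ≤ 1 ∧ (∃ j, η k j = 1) ∧ hB σ J (η k) (η k) = 0) →
      ∀ (T : κ → (K →L[ℂ] K)) (C : ℝ), 0 ≤ C →
      (∀ m < J', ∀ S' ⊆ S, S'.Nonempty → ∀ A : Set X, MeasurableSet A → A.Nonempty →
        (∀ k ∈ S', ∀ x ∈ A, ‖wd (s x) (η k)‖ ≤ 2 * a * (1 / 2) ^ m ∧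
          ‖hB σ J (s x) (η k)‖ ≤ 2 * b * ((1 / 2) ^ m) ^ 2 ∧
          ¬ (‖wd (s x) (η k)‖ ≤ a * (1 / 2) ^ (m + 1) ∧
            ‖hB σ J (s x) (η k)‖ ≤ b * ((1 / 2) ^ (m + 1)) ^ 2)) →
        ∀ v, ∑ k ∈ S', ‖T k (Pz A v)‖ ^ 2 ≤ C ^ 2 * ‖Pz A v‖ ^ 2) →
      (∀ S' ⊆ S, S'.Nonempty → ∀ A : Set X, MeasurableSet A → A.Nonempty →
        (∀ k ∈ S', ∀ x ∈ A, ‖wd (s x) (η k)‖ ≤ 2 * a * (1 / 2) ^ J' ∧
          ‖hB σ J (s x) (η k)‖ ≤ 2 * b * ((1 / 2) ^ J') ^ 2) →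
        ∀ v, ∑ k ∈ S', ‖T k (Pz A v)‖ ^ 2 ≤ C ^ 2 * ‖Pz A v‖ ^ 2) →
      ∀ v, ∑ k ∈ S, ‖T k v‖ ^ 2 ≤ (Mw * (J' + 1) * C) ^ 2 * ‖v‖ ^ 2)
    {T₀ C' D : ℝ} (hT₀ : 1 ≤ T₀) (hC' : 0 ≤ C')
    (hunit : U3At K σ J φ C₁ C₁ (max (2 * a * ‖τ‖) (2 * b * ‖τ‖ ^ 2)) (1 / 4) T₀ C')
    (hD1 : C' ≤ D) (hD2 : (Nc (cL β C₁ Cz a b (T₀ * ‖τ‖)) + 1) * B ≤ D)
    (hne : ∀ k ∈ S, (Bs k).Nonempty) (v : K) :
    ∑ k ∈ S, ‖(E k * W k) v‖ ^ 2 ≤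
      (Mw * (2 * (1 + Real.log m)) * (D * (1 + Real.log m) * N)) ^ 2 * ‖v‖ ^ 2 := by
  classical
  have hN := d.hN
  have hm1 := d.hm
  have hτ0 : 0 < ‖τ‖ := one_pos.trans hτ
  have hex : ∀ κ', ∃ η : n → k, κ' ∈ S →
      Nrm η ∧ hf σ J η η = 0 ∧ ‖G κ' *ᵥ η‖ * m ≤ C₁ := by
    intro κ'
    by_cases hκ : κ' ∈ S
    · obtain ⟨x, hx⟩ := hne κ' hκ
      exact ⟨s x, fun _ => ⟨d.hsn x, d.hsi x, by rw [mul_comm]; exact d.hBc κ' hκ x hx⟩⟩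
    · exact ⟨0, fun h => (hκ h).elim⟩
  choose η hη using hex
  obtain ⟨J', hJ1, hJ2, hJ3⟩ := exists_J hm1 (show (1 : ℝ) ≤ T₀ * ‖τ‖ by nlinarith)
  have hlogm : 0 ≤ Real.log m := Real.log_nonneg hm1
  have hD0 : 0 ≤ D := hC'.trans hD1
  have h0B : ∀ x, hf σ J x x = 0 → hB σ J x x = 0 := fun x hx => by
    funext _; exact hx
  have key := hcc s d.hs d.hsn (fun x => h0B _ (d.hsi x)) (H604.pv_Pv z) J' S η
    (fun κ' hκ => ⟨(hη κ' hκ).1.1, (hη κ' hκ).1.2, h0B _ (hη κ' hκ).2.1⟩)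
    (fun κ' => E κ' * W κ')
    (D * (1 + Real.log m) * N) (by positivity)
    (fun m' hm' S' hS' hne A' hA' hA'ne hR v => by
      refine (cls_step d hτ ha hb hunit hS' (fun κ' hκ => hη κ' (hS' hκ)) (hJ2 m' hm') hA'
        (fun κ' hκ x hx => by
          have h1 := hR κ' hκ x hx
          simp only [norm_hB] at h1
          exact h1) v).trans ?_
      have h3 : 0 ≤ C' * (1 + Real.log m) * N := by positivity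
      have h4 : C' * (1 + Real.log m) * N ≤ D * (1 + Real.log m) * N := by gcongr
      exact mul_le_mul_of_nonneg_right (pow_le_pow_left₀ h3 h4 2) (sq_nonneg _))
    (fun S' hS' hne A' hA' hA'ne hR v => by
      refine (last_step hJ hz d hC₁ hB0 hWb ha hb hS' (fun κ' hκ => hη κ' (hS' hκ)) hJ1 hA'ne
        (fun κ' hκ x hx => by
          have h1 := hR κ' hκ x hx
          simp only [norm_hB] at h1
          exact h1) _).trans ?_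
      have h4 : (Nc (cL β C₁ Cz a b (T₀ * ‖τ‖)) + 1) * B ≤ D * (1 + Real.log m) :=
        hD2.trans (le_mul_of_one_le_right hD0 (by linarith))
      have h5 := mul_le_mul_of_nonneg_right h4 hN
      have h3 : (0 : ℝ) ≤ (Nc (cL β C₁ Cz a b (T₀ * ‖τ‖)) + 1) * B * N := by positivity
      exact mul_le_mul_of_nonneg_right (pow_le_pow_left₀ h3 h5 2) (sq_nonneg _)) v
  refine key.trans ?_
  gcongr

/-- the estimate of a shell does not change if the elements with empty `B` are removed -/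
theorem ne_step (d : KD σ J φ C₁ Nc s p Inc b' z l n' S G m Bs E W F N) [DecidableEq κ]
    [DecidablePred fun k => (Bs k).Nonempty] (v : K) :
    ∑ k ∈ S, ‖(E k * W k) v‖ ^ 2 = ∑ k ∈ S.filter (fun k => (Bs k).Nonempty),
      ‖(E k * W k) v‖ ^ 2 := by
  rw [Finset.sum_filter]
  refine Finset.sum_congr rfl fun κ' hκ => ?_
  split_ifs with h
  · rfl
  · have h1 : Bs κ' = ∅ := Set.not_nonempty_iff_eq_empty.1 h
    have h2 := d.hEB κ' hκ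
    rw [h1, (H604.pv_Pv b').empty, mul_zero] at h2
    rw [← h2, zero_mul]
    simp

/-- restriction to a subset -/
theorem KD.sub (d : KD σ J φ C₁ Nc s p Inc b' z l n' S G m Bs E W F N) {S' : Finset κ}
    (h : S' ⊆ S) : KD σ J φ C₁ Nc s p Inc b' z l n' S' G m Bs E W F N :=
  { d with
    hNW := fun k hk => d.hNW k (h hk)
    hcap := fun D x hx hxx S'' hS'' => d.hcap D x hx hxx S'' (hS''.trans h)
    hBs := fun k hk => d.hBs k (h hk)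
    hBc := fun k hk => d.hBc k (h hk)
    hEB := fun k hk => d.hEB k (h hk)
    hEn := fun k hk => d.hEn k (h hk)
    hE := d.hE.sub h
    hF := fun k hk => d.hF k (h hk)
    hW := fun k hk => d.hW k (h hk)
    hWz := fun k hk => d.hWz k (h hk) }

end steps

/-- **One shell** from the class estimate. -/
theorem ka3_of [ProperSpace k] [MeasurableSpace k] [BorelSpace k] (cl : Cells k) {σ : k →+* k}
    {J : Matrix n n k} {β : ℝ} (hJ : Fm σ J β) {Cz : ℝ}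
    (hz : ∀ g, Nrm g → hf σ J g g = 0 → ∃ ζ, hf σ J ζ ζ = 0 ∧ hf σ J g ζ = 1 ∧ ‖ζ‖ ≤ Cz) :
    Ka3Stmt σ J := by
  classical
  intro K _ _ _ φ CF hφ hu C₁ hC₁ Nc
  have hB := hφ.bd
  set B := max CF 0 with hBd
  have hB0 : 0 ≤ B := le_max_right _ _
  obtain ⟨τ, hτ⟩ := NormedField.exists_one_lt_norm k
  have hτ0 : 0 < ‖τ‖ := one_pos.trans hτ
  obtain ⟨a, b, Mw, ha, hb, hcc⟩ := whitB (K := K) cl (bf_h hJ) 1 le_rfl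
  have hC₃1 : 1 ≤ max (2 * a * ‖τ‖) (2 * b * ‖τ‖ ^ 2) := by
    refine le_trans ?_ (le_max_left _ _)
    nlinarith
  obtain ⟨T₀, C', hT₀, hC', hunit⟩ := hu C₁ C₁
    (max (2 * a * ‖τ‖) (2 * b * ‖τ‖ ^ 2)) (1 / 4) hC₁ hC₁ hC₃1 (by norm_num)
  obtain ⟨n₁, hn₁⟩ : ∃ n : ℕ, n = Nc (cL β C₁ Cz a b (T₀ * ‖τ‖)) := ⟨_, rfl⟩
  obtain ⟨D, hD⟩ : ∃ D : ℝ, D = C' + (n₁ + 1) * B := ⟨_, rfl⟩
  have hn0 : (0 : ℝ) ≤ (n₁ + 1) * B := by positivity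
  have hD0 : 0 ≤ D := by rw [hD]; positivity
  refine ⟨Mw * 2 * D, 2, by positivity, ?_⟩
  intro X Y _ _ _ _ _ _ _ _ _ _ s p Inc b' z l n' κ S G m Bs E W F N d v
  have hm1 := d.hm
  have hlogm : 0 ≤ Real.log m := Real.log_nonneg hm1
  rw [ne_step d v]
  have d' := d.sub (Finset.filter_subset (fun k => (Bs k).Nonempty) S)
  have hWb : ∀ k ∈ S.filter (fun k => (Bs k).Nonempty), ∀ v, ‖W k v‖ ≤ B * ‖v‖ :=
    fun κ' hκ v => opf_le (H604.pv_Pv l) (d'.hW κ' hκ) hB0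
      (fun y => by rw [d'.hF κ' hκ]; exact (hB _).trans (le_max_left _ _)) v
  refine (large_step cl hJ hz d' hC₁ hB0 hWb hτ ha hb
      (fun s hs hsn hsi Pz hPz J S η hη T C hC h1 h2 v =>
        hcc s hs hsn hsi hPz J S η hη T C hC h1 h2 v)
      hT₀ hC' hunit (D := D) (by rw [hD]; linarith) (by rw [← hn₁, hD]; linarith)
      (fun κ' hκ => (Finset.mem_filter.1 hκ).2) v).trans ?_
  have hN := d.hN
  have e : Mw * (2 * (1 + Real.log m)) * (D * (1 + Real.log m) * N) =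
    Mw * 2 * D * (1 + Real.log m) ^ 2 * N := by ring
  rw [e]

end Vale.Agent.P092.H261.K3
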