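import Vale.Agent.P092.SP.Defs
import Vale.Agent.P092.H789.Sp.CapP
import Vale.Agent.P092.H835.NFSL

/-!
P092, TEAM P, COUNT_1 (helper261), part 1: near-1-wall elements of `Sp_4`: localisation of the
points moved off the hyperplanes of the attracting points, capacity of one shell.
-/

set_option linter.all false

open scoped LinearAlgebra.Projectivization Matrix
open Filter Topology

namespace Vale.Agent.P092.H261.C1

open Vale.Agent.P092.SP4 (S4 J4 LL on prp prp_mk mem_S4')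
open Vale.Agent.P092.SP
open Vale.Agent.P092.RC (YY GG)
open Vale.Agent.P092.H87.N (cl exists_low exists_pivn piv_eq_nmn nmn)
open Vale.Agent.P092.H820 (pj pj_surj)
open Vale.Agent.P092.H789.Sp.CapP (NW cap_pt JJ)

variable {k : Type} [NontriviallyNormedField k]

theorem sp_of (g : S4 k) : (g.1.1)ᵀ * JJ * g.1.1 = JJ := mem_S4'.1 g.2

theorem om_eq' (x y : Fin 4 → k) : SP4.om x y = H789.Sp.CapP.om x y := SP4.om_eq x y

theorem entry_le (g : S4 k) (i j : Fin 4) : ‖g.1.1 i j‖ ≤ nm g := H87.N.entry_le g.1 i j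

theorem nm_nonneg (g : S4 k) : 0 ≤ nm g := norm_nonneg _

theorem nm_le {g : S4 k} {c : ℝ} (hc : 0 ≤ c) (H : ∀ a b, ‖g.1.1 a b‖ ≤ c) : nm g ≤ c :=
  H87.N.nmn_le hc H

theorem minor_le (g : S4 k) (i i' j j' : Fin 4) :
    ‖g.1.1 i j * g.1.1 i' j' - g.1.1 i j' * g.1.1 i' j‖ ≤ m2 g := by
  have h := H337.NG.mi_le g.1.1 i i' j j'
  have e : H337.NG.mi g.1.1 i i' j j' =
      g.1.1 i j * g.1.1 i' j' - g.1.1 i j' * g.1.1 i' j := by
    unfold H337.NG.mi; ring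
  rwa [e] at h

/-- the elements of one shell are near-wall elements -/
theorem nw_shell {R s C : ℝ} {g : S4 k} (h1 : NW1 R g) (h2 : Real.exp s ≤ nm g)
    (h3 : nm g ≤ Real.exp (s + 1)) (hC : Real.exp 1 ≤ C) (hR : R ≤ C) :
    NW C (Real.exp (s + 1)) g.1.1 := by
  have hC0 : 0 < C := (Real.exp_pos 1).trans_le hC
  refine ⟨sp_of g, fun i j => (entry_le g i j).trans h3, ?_, fun i i' j j' => ?_⟩
  · obtain ⟨i, j, h, -⟩ := exists_pivn g.1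
    refine ⟨i, j, ?_⟩
    have e : ‖g.1.1 i j‖ = nm g := h
    rw [e, Real.exp_add, mul_comm]
    exact mul_le_mul hC h2 (Real.exp_pos s).le hC0.le
  · refine (minor_le g i i' j j').trans (le_trans h1 ?_)
    calc R * nm g ≤ C * nm g := mul_le_mul_of_nonneg_right hR (nm_nonneg g)
      _ ≤ C * Real.exp (s + 1) := mul_le_mul_of_nonneg_left h3 hC0.le

/-- **Localisation.** -/
theorem loc_pt [ProperSpace k] {A B : Set (YY k 3)} (hA : IsClosed A) (hB : IsClosed B)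
    (h : ∀ y ∈ A, ∀ x ∈ B, ¬ prp y x) :
    ∃ T₀ : ℝ, 0 < T₀ ∧ ∃ D : ℝ, 1 ≤ D ∧ ∀ T ≥ T₀, ∀ g : S4 k, Att1 T A g →
      ∀ (v : Fin 4 → k) (hv : v ≠ 0), g • (cl v hv : YY k 3) ∈ B →
        nm g * ‖g.1.1 *ᵥ v‖ ≤ D * ‖v‖ := by
  obtain ⟨d, hd, hd'⟩ := exists_low (k := k) (fun u x : Fin 4 → k => SP4.om u x)
    (by
      have e : (fun p : (Fin 4 → k) × (Fin 4 → k) => SP4.om p.1 p.2) = fun p =>
          p.1 0 * p.2 3 + p.1 1 * p.2 2 - p.1 2 * p.2 1 - p.1 3 * p.2 0 :=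
        funext fun p => SP4.om_eq _ _
      rw [e]
      fun_prop)
    (fun c e u x => by
      rw [SP4.om_smul_left, SP4.om_smul_right, norm_mul, norm_mul, mul_assoc])
    A B hA hB
    (fun u x hu hx h1 h2 h3 => h _ h1 _ h2 ((prp_mk hu hx).2 h3))
  -- `T₀` large
  set T₀ : ℝ := 2 + 16 / d with hT₀
  refine ⟨T₀, by positivity, max 1 (16 / d), le_max_left _ _, fun T hT g hatt v hv hvB => ?_⟩
  have hT0 : 0 < T := lt_of_lt_of_le (by positivity) hT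
  obtain ⟨u, φ, hu, huA, hφ⟩ := hatt
  obtain ⟨i, j, hij, -⟩ := exists_pivn g.1
  have hij' : ‖g.1.1 i j‖ = nm g := hij
  have hM0 : 0 ≤ nm g := nm_nonneg g
  have hφ' : ∀ i j, ‖g.1.1 i j - u i * φ j‖ ≤ nm g / T := hφ
  have hT2 : 2 ≤ T := le_trans (by have : 0 ≤ 16 / d := by positivity
                                   linarith) hT
  -- the image vector
  have hgv : g.1.1 *ᵥ v ≠ 0 := H835.NF.mulVec_ne_sl g.1 hv
  have hcl : (cl (g.1.1 *ᵥ v) hgv : YY k 3) ∈ B := hvB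
  have h1 := hd' u (g.1.1 *ᵥ v) hu hgv huA hcl
  -- the pivot column
  set c : Fin 4 → k := g.1.1 *ᵥ (Pi.single j 1) with hc
  have hcv : ∀ a, c a = g.1.1 a j := fun a => by
    rw [hc]; simp
  set e : Fin 4 → k := c - φ j • u with he
  have hen : ‖e‖ ≤ nm g / T := by
    refine (pi_norm_le_iff_of_nonneg (by positivity)).2 fun a => ?_
    rw [he, Pi.sub_apply, Pi.smul_apply, hcv, smul_eq_mul, mul_comm]
    exact hφ' a j
  have hcn : nm g ≤ ‖c‖ := by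
    rw [← hij', ← hcv i]; exact norm_le_pi_norm c i
  have hun : nm g / 2 ≤ ‖φ j‖ * ‖u‖ := by
    have h2 : ‖c‖ ≤ ‖φ j • u‖ + ‖e‖ := by
      have : c = φ j • u + e := by rw [he]; abel
      conv_lhs => rw [this]
      exact norm_add_le _ _
    rw [norm_smul] at h2
    have h3 : nm g / T ≤ nm g / 2 := div_le_div_of_nonneg_left hM0 two_pos hT2
    linarith
  have h4 : SP4.om c (g.1.1 *ᵥ v) = SP4.om (Pi.single j 1) v := SP4.om_mulVec g.2 _ _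
  have h5 : ‖SP4.om (Pi.single j 1) v‖ ≤ 4 * ‖v‖ := by
    rw [om_eq']
    refine (H789.Sp.CapP.om_le _ _).trans ?_
    have : ‖(Pi.single j 1 : Fin 4 → k)‖ ≤ 1 := by rw [Pi.norm_single, norm_one]
    have h0 := norm_nonneg v
    nlinarith
  have h6 : SP4.om c (g.1.1 *ᵥ v) = φ j * SP4.om u (g.1.1 *ᵥ v) + SP4.om e (g.1.1 *ᵥ v) := by
    rw [← SP4.om_smul_left, ← SP4.om_add_left]
    congr 1
    rw [he]; abel
  have h7 : ‖SP4.om e (g.1.1 *ᵥ v)‖ ≤ 4 * (nm g / T) * ‖g.1.1 *ᵥ v‖ := by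
    rw [om_eq']
    refine (H789.Sp.CapP.om_le _ _).trans ?_
    gcongr
  have h8 : ‖φ j‖ * ‖SP4.om u (g.1.1 *ᵥ v)‖ ≤ 4 * ‖v‖ + 4 * (nm g / T) * ‖g.1.1 *ᵥ v‖ := by
    rw [← norm_mul]
    have : φ j * SP4.om u (g.1.1 *ᵥ v) = SP4.om (Pi.single j 1) v - SP4.om e (g.1.1 *ᵥ v) := by
      rw [← h4, h6]; ring
    rw [this]
    exact (norm_sub_le _ _).trans (add_le_add h5 h7)
  have h9 : d * (nm g / 2) * ‖g.1.1 *ᵥ v‖ ≤ ‖φ j‖ * ‖SP4.om u (g.1.1 *ᵥ v)‖ := by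
    calc d * (nm g / 2) * ‖g.1.1 *ᵥ v‖ ≤ d * (‖φ j‖ * ‖u‖) * ‖g.1.1 *ᵥ v‖ := by gcongr
      _ = ‖φ j‖ * (d * (‖u‖ * ‖g.1.1 *ᵥ v‖)) := by ring
      _ ≤ _ := mul_le_mul_of_nonneg_left h1 (norm_nonneg _)
  have h10 : 4 * (nm g / T) ≤ d * nm g / 4 := by
    have h11 : 16 / d ≤ T := le_trans (by linarith) hT
    rw [div_le_iff₀ hd] at h11
    rw [mul_div_assoc', div_le_iff₀ hT0]
    nlinarith
  have h12 : d / 4 * (nm g * ‖g.1.1 *ᵥ v‖) ≤ 4 * ‖v‖ := by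
    have h13 : 4 * (nm g / T) * ‖g.1.1 *ᵥ v‖ ≤ d * nm g / 4 * ‖g.1.1 *ᵥ v‖ :=
      mul_le_mul_of_nonneg_right h10 (norm_nonneg _)
    nlinarith
  calc nm g * ‖g.1.1 *ᵥ v‖ = (4 / d) * (d / 4 * (nm g * ‖g.1.1 *ᵥ v‖)) := by
        field_simp
    _ ≤ (4 / d) * (4 * ‖v‖) := by gcongr
    _ = 16 / d * ‖v‖ := by ring
    _ ≤ _ := mul_le_mul_of_nonneg_right (le_max_right _ _) (norm_nonneg _)

/-- **Capacity.** -/
theorem cap_card {Γ : Type} {q : Γ → S4 k} (hud : UD q) (C : ℝ) (hC : 1 ≤ C) :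
    ∃ Nc : ℝ → ℕ, ∀ (M : ℝ), 0 < M → ∀ S : Finset Γ, (∀ γ ∈ S, NW C M (q γ).1.1) →
      ∀ (D : ℝ) (x : Fin 4 → k), x ≠ 0 → ∀ S' ⊆ S,
        (∀ γ ∈ S', M * ‖(q γ).1.1 *ᵥ x‖ ≤ D * ‖x‖) → S'.card ≤ Nc D := by
  choose F hF using hud
  refine ⟨fun D => F (2464 * (max C D) ^ 9), fun M hM S hS D x hx S' hS' h => ?_⟩
  refine hF _ S' (fun _ _ => Set.mem_univ _) fun γ hγ γ' hγ' => ?_
  have hCD : 1 ≤ max C D := hC.trans (le_max_left _ _)
  have mono : ∀ γ ∈ S', NW (max C D) M (q γ).1.1 := fun γ hγ => by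
    obtain ⟨a1, a2, ⟨i, j, a3⟩, a4⟩ := hS γ (hS' hγ)
    refine ⟨a1, a2, ⟨i, j, a3.trans ?_⟩, fun i i' j j' => (a4 i i' j j').trans ?_⟩
    · exact mul_le_mul_of_nonneg_right (le_max_left _ _) (norm_nonneg _)
    · exact mul_le_mul_of_nonneg_right (le_max_left _ _) hM.le
  have hx' : ∀ γ ∈ S', M * ‖(q γ).1.1 *ᵥ x‖ ≤ max C D * ‖x‖ := fun γ hγ =>
    (h γ hγ).trans (mul_le_mul_of_nonneg_right (le_max_right _ _) (norm_nonneg _))
  have hMM : M ≤ max C D * M := le_mul_of_one_le_left hM.le hCD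
  have gg : (q γ).1.1 * ((q γ).1⁻¹).1 = 1 := by
    rw [← Matrix.SpecialLinearGroup.coe_mul, mul_inv_cancel]; rfl
  have h0 : (0 : ℝ) ≤ 2464 * (max C D) ^ 9 := by positivity
  refine H87.N.nmn_le h0 fun a b => ?_
  rw [Matrix.SpecialLinearGroup.coe_mul]
  exact cap_pt hCD hM hM (mono γ hγ) (mono γ' hγ') hMM hMM hx (hx' γ hγ) (hx' γ' hγ') gg a b

end Vale.Agent.P092.H261.C1
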