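import Vale.Agent.P092.H261.C1a
import Vale.Agent.P092.H914.NJB
import Vale.Agent.P092.H217.PK1

/-!
P092, TEAM P, COUNT_1 (helper261), part 2: the estimate for the words `b · l` of a chain
`b — ν — z — l` over the near-1-wall elements of `Sp_4`, from the abstract estimate `KaStmt`.
-/

set_option linter.all false

open scoped InnerProductSpace ENNReal LinearAlgebra.Projectivization ZeroAtInfty Matrix
open Filter Topology ContinuousLinearMap MeasureTheory TopologicalSpace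

namespace Vale.Agent.P092.H261.C1

open Vale.Agent.P092.SP
open Vale.Agent.P092.SP4 (S4 LL on prp prp_mk on_mk on_closed smul_LL smul_YY val_cont LL_closed)
open Vale.Agent.P092.RC (YY GG)
open Vale.Agent.P092.H100.Gr (Gr)
open Vale.Agent.P092.H87.N (nmn cl exists_pivn)
open Vale.Agent.P092.H464 (Pv CI)
open Vale.Agent.P092.H589.K2 (Nrm Tame Opf)
open Vale.Agent.P092.H589.Mu (Cap)
open Vale.Agent.P092.H835.PlF (Alt w3 sq)
open Vale.Agent.P092.H835.PlGr (plk plk_cont plk_emb plk_smul rep_alt rep_line mem_iff lam2)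
open Vale.Agent.P092.H820 (pj wd pj_surj)
open Vale.Agent.P092.H789.Sp.CapP (NW)
open Vale.Agent.P092.H914 (SecStmt OpfStmt TD)

/-- The abstract estimate for near-1-wall elements (from helper217's unit bound). -/
def KaStmt (𝕜 : Type) [NontriviallyNormedField 𝕜] [MeasurableSpace 𝕜] : Prop :=
  ∀ (K : Type) [NormedAddCommGroup K] [InnerProductSpace ℂ K] [CompleteSpace K]
    {φ : (Fin 4 × Fin 4 → 𝕜) → ℂ}, Tame K φ → ∀ C₁ : ℝ, 1 ≤ C₁ → ∀ Nc : ℝ → ℕ,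
    ∃ (C : ℝ) (e : ℕ), 0 ≤ C ∧
    ∀ (X Y : Type) [TopologicalSpace X] [CompactSpace X] [MetrizableSpace X]
      [MeasurableSpace X] [BorelSpace X] [TopologicalSpace Y] [CompactSpace Y]
      [MetrizableSpace Y] [MeasurableSpace Y] [BorelSpace Y] (s : X → Fin 4 → 𝕜)
      (p : Y → Fin 4 × Fin 4 → 𝕜), Measurable s → Measurable p → (∀ x, Nrm (s x)) →
      (∀ y, Nrm (p y)) → (∀ y, Alt (p y)) → (∀ y, p y (0, 3) + p y (1, 2) = 0) →
      ∀ (Inc : X → Y → Prop), IsClosed {z : X × Y | Inc z.1 z.2} →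
      (∀ x y, Inc x y → w3 (s x) (p y) = 0) →
      ∀ (b z : C(X, ℂ) →⋆ₐ[ℂ] (K →L[ℂ] K)) (l n : C(Y, ℂ) →⋆ₐ[ℂ] (K →L[ℂ] K)),
      CI Inc (H466.pv b) (H466.pv n) → CI Inc (H466.pv z) (H466.pv n) →
      CI Inc (H466.pv z) (H466.pv l) →
      ∀ (κ : Type) (S : Finset κ) (G : κ → Matrix (Fin 4) (Fin 4) 𝕜) (j i : Fin 4) (M : ℝ),
        1 ≤ M → (∀ k ∈ S, NW C₁ M (G k)) →
        (∀ k ∈ S, ∀ a b, ‖G k a b‖ ≤ ‖G k j i‖) → (∀ k ∈ S, M ≤ C₁ * ‖G k j i‖) →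
        (∀ (D : ℝ) (x : Fin 4 → 𝕜), x ≠ 0 → ∀ S' ⊆ S,
          (∀ k ∈ S', M * ‖G k *ᵥ x‖ ≤ D * ‖x‖) → S'.card ≤ Nc D) →
      ∀ (B : κ → Set X), (∀ k ∈ S, IsClosed (B k)) →
        (∀ k ∈ S, ∀ x ∈ B k, M * ‖G k *ᵥ s x‖ ≤ C₁) →
      ∀ (E W : κ → (K →L[ℂ] K)) (F : κ → Y → ℂ) (N : ℝ), 0 ≤ N →
        (∀ k ∈ S, E k * H466.pv b (B k) = E k) →
        (∀ k ∈ S, ∀ A, MeasurableSet A → E k * H466.pv n A = H466.pv n A * E k) → Cap S E N →
        (∀ k ∈ S, ∀ y, F k y = φ (sq (G k) *ᵥ p y)) →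
        (∀ k ∈ S, Measurable (F k)) → (∀ k ∈ S, Opf (H466.pv l) (F k) (W k)) →
        (∀ k ∈ S, ∀ A, MeasurableSet A → W k * H466.pv z A = H466.pv z A * W k) →
        Cap S (fun k => E k * W k) (C * (1 + Real.log M) ^ e * N)

section line

variable {k : Type} [NontriviallyNormedField k]

/-- the Plücker map of the isotropic lines -/
noncomputable def pl (L : LL k) : ℙ k (Fin 4 × Fin 4 → k) := plk L.1

theorem pl_cont : Continuous (pl : LL k → ℙ k (Fin 4 × Fin 4 → k)) := plk_cont.comp val_cont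

theorem pl_emb [ProperSpace k] : IsClosedEmbedding (pl : LL k → ℙ k (Fin 4 × Fin 4 → k)) :=
  (plk_emb (k := k) (ι := Fin 4)).comp (LL_closed (k := k)).isClosedEmbedding_subtypeVal

/-- the pull back -/
noncomputable def plL : C(ℙ k (Fin 4 × Fin 4 → k), ℂ) →⋆ₐ[ℂ] C(LL k, ℂ) :=
  ContinuousMap.compStarAlgHom' ℂ ℂ ⟨pl, pl_cont⟩

theorem plL_apply (F : C(ℙ k (Fin 4 × Fin 4 → k), ℂ)) (L : LL k) : plL F L = F (pl L) := rfl

theorem plL_surj [ProperSpace k] :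
    Function.Surjective (plL : C(ℙ k (Fin 4 × Fin 4 → k), ℂ) →⋆ₐ[ℂ] C(LL k, ℂ)) := by
  intro f
  have h1 : ∀ f : C(LL k, ℝ), ∃ F : C(ℙ k (Fin 4 × Fin 4 → k), ℝ), F.comp ⟨pl, pl_cont⟩ = f :=
    fun f => ContinuousMap.exists_extension pl_emb f
  obtain ⟨F, hF⟩ := h1 ⟨fun L => (f L).re, Complex.continuous_re.comp f.continuous⟩
  obtain ⟨G, hG⟩ := h1 ⟨fun L => (f L).im, Complex.continuous_im.comp f.continuous⟩
  refine ⟨⟨fun x => (F x : ℂ) + (G x : ℂ) * Complex.I, ?_⟩, ContinuousMap.ext fun L => ?_⟩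
  · exact (Complex.continuous_ofReal.comp F.continuous).add
      ((Complex.continuous_ofReal.comp G.continuous).mul continuous_const)
  · have e1 := DFunLike.congr_fun hF L
    have e2 := DFunLike.congr_fun hG L
    simp only [ContinuousMap.comp_apply, ContinuousMap.coe_mk] at e1 e2
    rw [plL_apply]
    simp only [ContinuousMap.coe_mk, e1, e2]
    exact Complex.re_add_im (f L)

/-- the dense set of functions of lines -/
def DL (k : Type) [NontriviallyNormedField k] : Set C(LL k, ℂ) := plL '' TD k (Fin 4 × Fin 4)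

theorem dense_DL [ProperSpace k]
    (hd : closure (Submodule.span ℂ (TD k (Fin 4 × Fin 4)) :
      Set C(ℙ k (Fin 4 × Fin 4 → k), ℂ)) = Set.univ) :
    closure (Submodule.span ℂ (DL k) : Set C(LL k, ℂ)) = Set.univ := by
  have h1 : ((plL : C(ℙ k (Fin 4 × Fin 4 → k), ℂ) →⋆ₐ[ℂ] C(LL k, ℂ)) ''
      (Submodule.span ℂ (TD k (Fin 4 × Fin 4)) : Set _)) ⊆
      (Submodule.span ℂ (DL k) : Set C(LL k, ℂ)) := by
    rintro _ ⟨F, hF, rfl⟩
    have h2 := Submodule.mem_map_of_mem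
      (f := ((plL : C(ℙ k (Fin 4 × Fin 4 → k), ℂ) →⋆ₐ[ℂ] C(LL k, ℂ)) :
        C(ℙ k (Fin 4 × Fin 4 → k), ℂ) →ₗ[ℂ] C(LL k, ℂ))) hF
    rw [Submodule.map_span] at h2
    exact h2
  have hc : Continuous (plL : C(ℙ k (Fin 4 × Fin 4 → k), ℂ) →⋆ₐ[ℂ] C(LL k, ℂ)) :=
    ContinuousMap.continuous_precomp _
  refine Set.eq_univ_of_univ_subset ?_
  intro F _
  obtain ⟨F', rfl⟩ := plL_surj F
  have h3 : F' ∈ closure (Submodule.span ℂ (TD k (Fin 4 × Fin 4)) :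
      Set C(ℙ k (Fin 4 × Fin 4 → k), ℂ)) := by rw [hd]; trivial
  exact closure_mono h1 (image_closure_subset_closure_image hc ⟨F', h3, rfl⟩)

theorem rep_iso {L : LL k} {ω : Fin 4 × Fin 4 → k} {hω : ω ≠ 0}
    (h : plk L.1 = pj k (Fin 4 × Fin 4) ⟨ω, hω⟩) : ω (0, 3) + ω (1, 2) = 0 := by
  obtain ⟨v, hv⟩ := H100.Gr.sp_surj L.1
  have hx : v.1 0 ≠ 0 := v.2.ne_zero 0
  have hxL : v.1 0 ∈ L.1.1 := by rw [← hv]; exact Submodule.subset_span ⟨0, rfl⟩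
  obtain ⟨y, hyL, hy⟩ := rep_line h hx hxL
  have h2 := L.2 _ hxL _ hyL
  rw [SP4.om_eq] at h2
  rw [hy]
  simp only [wd]
  linear_combination h2

end line

section inv

variable {k : Type} [NontriviallyNormedField k]

theorem inv_entry (g : S4 k) (a b : Fin 4) : ‖((g.1)⁻¹).1 a b‖ ≤ nm g := by
  have h1 : ‖((g.1)⁻¹).1 a b‖ = ‖H789.Sp.CapP.om (H789.Sp.CapP.ee a.rev)
      (((g.1)⁻¹).1 *ᵥ H789.Sp.CapP.ee b)‖ := by
    rw [H789.Sp.CapP.norm_om_ee, Fin.rev_rev, H789.Sp.CapP.mulVec_ee]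
  have h2 := H789.Sp.CapP.om_mul (sp_of g) (H789.Sp.CapP.ee a.rev)
    (((g.1)⁻¹).1 *ᵥ H789.Sp.CapP.ee b)
  have gg : g.1.1 * ((g.1)⁻¹).1 = 1 := by
    rw [← Matrix.SpecialLinearGroup.coe_mul, mul_inv_cancel]; rfl
  rw [Matrix.mulVec_mulVec, gg, Matrix.one_mulVec] at h2
  rw [h1, ← h2, ← norm_neg, ← H789.Sp.CapP.om_swap, H789.Sp.CapP.norm_om_ee,
    H789.Sp.CapP.mulVec_ee]
  exact entry_le g _ _

/-- elements of bounded size -/
theorem ball_card {Γ : Type} {q : Γ → S4 k} (hud : UD q) (R : ℝ) :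
    ∃ N : ℕ, ∀ S : Finset Γ, (∀ γ ∈ S, nm (q γ) ≤ R) → S.card ≤ N := by
  obtain ⟨N, hN⟩ := hud (4 * (|R| * |R|))
  refine ⟨N, fun S hS => hN S (fun γ hγ => Set.mem_univ _) fun γ hγ γ' hγ' => ?_⟩
  refine H87.N.nmn_le (by positivity) fun x z => ?_
  rw [Matrix.SpecialLinearGroup.coe_mul, Matrix.mul_apply]
  refine (norm_sum_le _ _).trans ?_
  have h1 : ∀ y ∈ Finset.univ, ‖(q γ').1.1 x y * ((q γ).1⁻¹).1 y z‖ ≤ |R| * |R| := by
    intro y _
    rw [norm_mul]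
    exact mul_le_mul (((entry_le _ _ _).trans (hS γ' hγ')).trans (le_abs_self R))
      (((inv_entry _ _ _).trans (hS γ hγ)).trans (le_abs_self R)) (norm_nonneg _)
      (abs_nonneg _)
  refine (Finset.sum_le_sum h1).trans ?_
  rw [Finset.sum_const, Finset.card_univ, nsmul_eq_mul, Fintype.card_fin]
  norm_num

end inv

section act

variable {k : Type} [NontriviallyNormedField k] [ProperSpace k] {Y : Type} [TopologicalSpace Y]
  [CompactSpace Y] [MulAction (S4 k) Y] [ContinuousConstSMul (S4 k) Y]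

theorem norm_act_le (g : S4 k) (f : C(Y, ℂ)) : ‖act g f‖ ≤ ‖f‖ :=
  (ContinuousMap.norm_le _ (norm_nonneg _)).2 fun _ => f.norm_coe_le_norm _

theorem tsupport_act' (g : S4 k) (f : C(Y, ℂ)) {x : Y} (hx : x ∈ tsupport (act g⁻¹ f)) :
    g • x ∈ tsupport f := by
  have h := tsupport_comp_subset_preimage (f : Y → ℂ) (continuous_const_smul (g⁻¹)⁻¹) (a := x) hx
  rw [Set.mem_preimage, _root_.inv_inv] at h
  exact h

end act

end Vale.Agent.P092.H261.C1
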