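import Vale.Agent.P092.H261.C1b

/-!
P092, TEAM P, COUNT_1 (helper261), part 3: one shell and one pivot, then the sum over the shells.
-/

set_option linter.all false

open scoped InnerProductSpace ENNReal LinearAlgebra.Projectivization ZeroAtInfty Matrix
open Filter Topology ContinuousLinearMap MeasureTheory TopologicalSpace

namespace Vale.Agent.P092.H261.C1

open Vale.Agent.P092.SP
open Vale.Agent.P092.SP4 (S4 LL on prp prp_mk on_mk on_closed smul_LL smul_YY val_cont LL_closed)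
open Vale.Agent.P092.RC (YY GG)
open Vale.Agent.P092.H100.Gr (Gr)
open Vale.Agent.P092.H87.N (nmn cl exists_pivn)
open Vale.Agent.P092.H464 (Pv CI)
open Vale.Agent.P092.H589.K2 (Nrm Tame Opf)
open Vale.Agent.P092.H589.Mu (Cap)
open Vale.Agent.P092.H835.PlF (Alt w3 sq)
open Vale.Agent.P092.H835.PlGr (plk plk_cont plk_emb plk_smul rep_alt rep_line mem_iff lam2)
open Vale.Agent.P092.H820 (pj wd pj_surj)
open Vale.Agent.P092.H789.Sp.CapP (NW)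
open Vale.Agent.P092.H914 (SecStmt OpfStmt TD)

variable {k : Type} [NontriviallyNormedField k] [ProperSpace k]

/-- **One shell and one pivot.** -/
theorem shell [MeasurableSpace k] [BorelSpace k] (hk : KaStmt k) (hs : SecStmt k) (ho : OpfStmt)
    {Γ K : Type} [NormedAddCommGroup K] [InnerProductSpace ℂ K] [CompleteSpace K]
    (q : Γ → S4 k) (hud : UD q) (b z : C(YY k 3, ℂ) →⋆ₐ[ℂ] (K →L[ℂ] K))
    (ν l : C(LL k, ℂ) →⋆ₐ[ℂ] (K →L[ℂ] K)) (hbν : H796.PL on b ν) (hzν : H796.PL on z ν)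
    (hzl : H796.PL on z l) (R : ℝ) (A : Set (YY k 3)) (f : C(YY k 3, ℂ)) (g : C(LL k, ℂ))
    (hg : g ∈ DL k) (hfA : ∀ y ∈ closure A, ∀ x ∈ tsupport f, ¬ prp y x) :
    ∃ T > 0, ∃ (C : ℝ) (d : ℕ), 0 ≤ C ∧
      ∀ (s : ℕ) (i j : Fin 4) (S : Finset Γ),
        (∀ γ ∈ S, NW1 R (q γ) ∧ Att1 T A (q γ) ∧ Real.exp s ≤ nm (q γ) ∧
          nm (q γ) ≤ Real.exp (s + 1) ∧ ∀ a b, ‖(q γ).1.1 a b‖ ≤ ‖(q γ).1.1 i j‖) →
        ∀ ξ : K, ∑ γ ∈ S, ‖b (act (q γ)⁻¹ f) (l (act (q γ)⁻¹ g) ξ)‖ ^ 2 ≤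
          C * (1 + s) ^ d * ‖ξ‖ ^ 2 := by
  classical
  obtain ⟨G, ⟨φ, hφ, hGφ⟩, rfl⟩ := hg
  -- measurable structures
  letI m1 : MeasurableSpace (ℙ k (Fin 4 → k)) := borel _
  haveI b1 : BorelSpace (ℙ k (Fin 4 → k)) := ⟨rfl⟩
  letI m1' : MeasurableSpace (YY k 3) := borel _
  haveI b1' : BorelSpace (YY k 3) := ⟨rfl⟩
  letI m2 : MeasurableSpace (LL k) := borel _
  haveI b2 : BorelSpace (LL k) := ⟨rfl⟩
  letI m4 : MeasurableSpace (ℙ k (Fin 4 × Fin 4 → k)) := borel _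
  haveI b4 : BorelSpace (ℙ k (Fin 4 × Fin 4 → k)) := ⟨rfl⟩
  -- sections
  obtain ⟨σ, hσm, hσn, hσ⟩ := hs (Fin 4)
  obtain ⟨τ, hτm, hτn, hτ⟩ := hs (Fin 4 × Fin 4)
  set s1 : YY k 3 → Fin 4 → k := fun x => σ x with hs1
  set p2 : LL k → Fin 4 × Fin 4 → k := fun y => τ (pl y) with hp2
  have hs1m : Measurable s1 := hσm
  have hp2m : Measurable p2 := hτm.comp pl_cont.measurable
  have hs1x : ∀ x : YY k 3, ∃ h : s1 x ≠ 0, (cl (s1 x) h : YY k 3) = x := by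
    intro x
    obtain ⟨h, e⟩ := hσ x
    exact ⟨h, e⟩
  have hp2y : ∀ y : LL k, ∃ h : p2 y ≠ 0, plk y.1 = pj k (Fin 4 × Fin 4) ⟨p2 y, h⟩ := by
    intro y
    obtain ⟨h, e⟩ := hτ (pl y)
    exact ⟨h, e.symm⟩
  -- geometry
  obtain ⟨T₀, hT₀, D, hD, hloc⟩ := loc_pt (k := k) (A := closure A) isClosed_closure
    (isClosed_tsupport (f : YY k 3 → ℂ)) hfA
  set C₁ : ℝ := max (Real.exp 1) (max R (Real.exp 1 * D)) with hC₁
  have hC1 : 1 ≤ C₁ := (Real.one_le_exp zero_le_one).trans (le_max_left _ _)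
  have hCR : R ≤ C₁ := (le_max_left _ _).trans (le_max_right _ _)
  have hCD : Real.exp 1 * D ≤ C₁ := (le_max_right _ _).trans (le_max_right _ _)
  obtain ⟨Nc, hNc⟩ := cap_card hud C₁ hC1
  obtain ⟨C, e, hC, hka⟩ := hk K (hφ K) C₁ hC1 Nc
  refine ⟨T₀, hT₀, C ^ 2 * 4 ^ e * (Nc C₁ * ‖f‖ ^ 2), 2 * e, by positivity, ?_⟩
  intro s i j S hS ξ
  set M : ℝ := Real.exp (s + 1) with hM
  have hM0 : 0 < M := Real.exp_pos _
  have hM1 : 1 ≤ M := Real.one_le_exp (by positivity)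
  have hNW : ∀ γ ∈ S, NW C₁ M (q γ).1.1 := fun γ hγ => by
    obtain ⟨h1, h2, h3, h4, h5⟩ := hS γ hγ
    exact nw_shell h1 h3 h4 (le_max_left _ _) hCR
  have hatt : ∀ γ ∈ S, Att1 T₀ (closure A) (q γ) := fun γ hγ => by
    obtain ⟨u, φ, hu, h1, h2⟩ := (hS γ hγ).2.1
    exact ⟨u, φ, hu, subset_closure h1, h2⟩
  have hpiv : ∀ γ ∈ S, M ≤ C₁ * ‖(q γ).1.1 i j‖ := fun γ hγ => by
    obtain ⟨h1, h2, h3, h4, h5⟩ := hS γ hγ
    have h6 : ‖(q γ).1.1 i j‖ = nm (q γ) := H87.N.piv_eq_nmn (h := (q γ).1) h5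
    rw [h6, hM, Real.exp_add, mul_comm]
    exact mul_le_mul (le_max_left _ _) h3 (Real.exp_pos _).le (by positivity)
  have hcon : ∀ γ ∈ S, ∀ (v : Fin 4 → k) (hv : v ≠ 0), q γ • (cl v hv : YY k 3) ∈ tsupport f →
      M * ‖(q γ).1.1 *ᵥ v‖ ≤ C₁ * ‖v‖ := fun γ hγ v hv hx => by
    have h1 := hloc T₀ le_rfl (q γ) (hatt γ hγ) v hv hx
    obtain ⟨-, -, h3, -, -⟩ := hS γ hγ
    have h4 : M ≤ Real.exp 1 * nm (q γ) := by
      rw [hM, Real.exp_add, mul_comm]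
      exact mul_le_mul_of_nonneg_left h3 (Real.exp_pos _).le
    calc M * ‖(q γ).1.1 *ᵥ v‖ ≤ Real.exp 1 * nm (q γ) * ‖(q γ).1.1 *ᵥ v‖ :=
          mul_le_mul_of_nonneg_right h4 (norm_nonneg _)
      _ = Real.exp 1 * (nm (q γ) * ‖(q γ).1.1 *ᵥ v‖) := by ring
      _ ≤ Real.exp 1 * (D * ‖v‖) := mul_le_mul_of_nonneg_left h1 (Real.exp_pos _).le
      _ = Real.exp 1 * D * ‖v‖ := by ring
      _ ≤ C₁ * ‖v‖ := mul_le_mul_of_nonneg_right hCD (norm_nonneg _)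
  have hcard := hNc M hM0 S hNW
  -- the operators
  have hI1 : IsClosed {x : YY k 3 × LL k | on x.1 x.2} := on_closed
  have hCI : ∀ (x : C(YY k 3, ℂ) →⋆ₐ[ℂ] (K →L[ℂ] K)) (y : C(LL k, ℂ) →⋆ₐ[ℂ] (K →L[ℂ] K)),
      H796.PL on x y → CI on (H466.pv x) (H466.pv y) := fun x y h =>
    H604.pv_CI x y hI1 (fun f g => h.com f g) fun f g hfg => h.inc f g hfg
  have hcapS : Cap S (fun γ => b (act (q γ)⁻¹ f)) (Real.sqrt (Nc C₁ * ‖f‖ ^ 2)) := by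
    intro v
    rw [Real.sq_sqrt (by positivity)]
    refine H218.sum_sq_le b S (fun γ => act (q γ)⁻¹ f) (by positivity) (fun x => ?_) v
    have hc : (S.filter fun γ => q γ • x ∈ tsupport f).card ≤ Nc C₁ := by
      obtain ⟨⟨w, hw⟩, rfl⟩ := pj_surj x
      refine hcard C₁ w hw _ (Finset.filter_subset _ _) fun γ hγ => ?_
      obtain ⟨h1, h2⟩ := Finset.mem_filter.1 hγ
      exact hcon γ h1 w hw h2
    have hsum : ∑ γ ∈ S, ‖(act (q γ)⁻¹ f) x‖ ^ 2 ≤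
        ∑ γ ∈ S.filter (fun γ => q γ • x ∈ tsupport f), ‖f‖ ^ 2 := by
      rw [Finset.sum_filter]
      refine Finset.sum_le_sum fun γ hγ => ?_
      have e1 : (act (q γ)⁻¹ f) x = f (q γ • x) := by
        change f (((q γ)⁻¹)⁻¹ • x) = _
        rw [_root_.inv_inv]
      rw [e1]
      split_ifs with hc
      · exact pow_le_pow_left₀ (norm_nonneg _) (f.norm_coe_le_norm _) 2
      · rw [image_eq_zero_of_notMem_tsupport hc, norm_zero, zero_pow two_ne_zero]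
    refine hsum.trans ?_
    rw [Finset.sum_const, nsmul_eq_mul]
    have h5 : ((S.filter fun γ => q γ • x ∈ tsupport f).card : ℝ) ≤ Nc C₁ := by
      exact_mod_cast hc
    gcongr
  have key := hka (YY k 3) (LL k) s1 p2 hs1m hp2m (fun x => hσn _) (fun y => hτn _)
    (fun y => by
      obtain ⟨h, e⟩ := hp2y y
      exact rep_alt (hω := h) e)
    (fun y => by
      obtain ⟨h, e⟩ := hp2y y
      exact rep_iso (hω := h) e)
    on hI1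
    (fun x y hxy => by
      obtain ⟨h, e⟩ := hp2y y
      obtain ⟨h', e'⟩ := hs1x x
      refine (mem_iff (hω := h) e).1 ?_
      rw [← e'] at hxy
      exact (on_mk h').1 hxy)
    b z l ν (hCI b ν hbν) (hCI z ν hzν) (hCI z l hzl)
    Γ S (fun γ => (q γ).1.1) i j M hM1 hNW (fun γ hγ => (hS γ hγ).2.2.2.2) hpiv hcard
    (fun γ => tsupport (act (q γ)⁻¹ f)) (fun γ _ => isClosed_tsupport _)
    (fun γ hγ x hx => by
      obtain ⟨h', e'⟩ := hs1x x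
      have h2 : q γ • x ∈ tsupport f := tsupport_act' (q γ) f hx
      rw [← e'] at h2
      refine (hcon γ hγ (s1 x) h' h2).trans ?_
      have h3 : ‖s1 x‖ ≤ 1 := (hσn _).1
      exact mul_le_of_le_one_right (by positivity) h3)
    (fun γ => b (act (q γ)⁻¹ f)) (fun γ => l (act (q γ)⁻¹ (plL G)))
    (fun γ y => (act (q γ)⁻¹ (plL G)) y) (Real.sqrt (Nc C₁ * ‖f‖ ^ 2)) (Real.sqrt_nonneg _)
    (fun γ _ => H466.phi_pv_supp b (isClosed_tsupport _).measurableSet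
      fun x hx => image_eq_zero_of_notMem_tsupport hx)
    (fun γ _ A _ => H466.pv_commute ν (fun g => hbν.com _ g) A)
    hcapS
    (fun γ hγ y => by
      obtain ⟨h, e⟩ := hp2y y
      change G (pl (((q γ)⁻¹)⁻¹ • y)) = _
      rw [_root_.inv_inv]
      change G (plk ((q γ).1 • y.1)) = _
      rw [plk_smul, e]
      have h1 : (lam2 (q γ).1 • pj k (Fin 4 × Fin 4) ⟨p2 y, h⟩) =
        Projectivization.mk k (lam2 (q γ).1 • p2 y) ((smul_ne_zero_iff_ne _).2 h) := rfl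
      rw [h1, hGφ, H835.PlGr.lam2_smul])
    (fun γ _ => (ContinuousMap.continuous _).measurable)
    (fun γ _ => ho K _ l _)
    (fun γ _ A _ => H466.pv_commute z (fun g => (hzl.com g _).symm) A)
  have h1 := key ξ
  refine h1.trans ?_
  rw [mul_pow, mul_pow, Real.sq_sqrt (by positivity)]
  have h2 : 1 + Real.log M ≤ 2 * (1 + (s : ℝ)) := by
    rw [hM, Real.log_exp]
    have : (0 : ℝ) ≤ s := Nat.cast_nonneg s
    linarith
  have h3 : 0 ≤ 1 + Real.log M := by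
    have := Real.log_nonneg hM1
    linarith
  have h5 : ((1 + Real.log M) ^ e) ^ 2 ≤ 4 ^ e * (1 + (s : ℝ)) ^ (2 * e) := by
    calc ((1 + Real.log M) ^ e) ^ 2 ≤ ((2 * (1 + (s : ℝ))) ^ e) ^ 2 := by gcongr
      _ = _ := by
        rw [mul_pow, mul_pow, ← pow_mul, ← pow_mul, mul_comm e 2]
        congr 1
        rw [pow_mul]; norm_num
  calc C ^ 2 * ((1 + Real.log M) ^ e) ^ 2 * (Nc C₁ * ‖f‖ ^ 2) * ‖ξ‖ ^ 2
      ≤ C ^ 2 * (4 ^ e * (1 + (s : ℝ)) ^ (2 * e)) * (Nc C₁ * ‖f‖ ^ 2) * ‖ξ‖ ^ 2 := by gcongr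
    _ = _ := by ring

/-- **COUNT_1** from `KaStmt`. -/
theorem count1_of [MeasurableSpace k] [BorelSpace k] (hk : KaStmt k) (hs : SecStmt k)
    (ho : OpfStmt) {Γ K : Type} [NormedAddCommGroup K] [InnerProductSpace ℂ K] [CompleteSpace K]
    (q : Γ → S4 k) (hud : UD q) (b z : C(YY k 3, ℂ) →⋆ₐ[ℂ] (K →L[ℂ] K))
    (ν l : C(LL k, ℂ) →⋆ₐ[ℂ] (K →L[ℂ] K)) (hbν : H796.PL on b ν) (hzν : H796.PL on z ν)
    (hzl : H796.PL on z l) (R : ℝ) (A : Set (YY k 3)) (f : C(YY k 3, ℂ)) (g : C(LL k, ℂ))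
    (hg : g ∈ DL k) (hfA : ∀ y ∈ closure A, ∀ x ∈ tsupport f, ¬ prp y x) :
    ∃ T > 0, ∃ (C : ℝ) (d : ℕ), ∀ J : ℝ, 0 ≤ J → ∀ S : Finset Γ,
      (∀ γ ∈ S, γ ∈ NA1 q R T A ∧ Real.log (nm (q γ)) ≤ J) →
      ∀ ξ : K, ∑ γ ∈ S, ‖b (act (q γ)⁻¹ f) (l (act (q γ)⁻¹ g) ξ)‖ ^ 2 ≤
        C * (1 + J) ^ d * ‖ξ‖ ^ 2 := by
  classical
  obtain ⟨T, hT, C, d, hC, h⟩ := shell hk hs ho q hud b z ν l hbν hzν hzl R A f g hg hfA
  obtain ⟨M₀, hM₀⟩ := ball_card hud (Real.exp (0 : ℕ))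
  obtain ⟨C', hC', hsum⟩ := H914.sum_shells (fun γ => (q γ).1)
    (fun γ (ξ : K) => ‖b (act (q γ)⁻¹ f) (l (act (q γ)⁻¹ g) ξ)‖ ^ 2)
    (fun γ ξ => sq_nonneg _) (fun γ => NW1 R (q γ) ∧ Att1 T A (q γ))
    0 M₀ (B := (‖f‖ * ‖g‖) ^ 2) (sq_nonneg _)
    (by
      intro γ _ ξ
      rw [← mul_pow]
      refine pow_le_pow_left₀ (norm_nonneg _) ?_ 2
      have h1 : ‖b (act (q γ)⁻¹ f)‖ ≤ ‖f‖ :=
        (NonUnitalStarAlgHom.norm_apply_le b _).trans (norm_act_le _ _)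
      have h2 : ‖l (act (q γ)⁻¹ g)‖ ≤ ‖g‖ :=
        (NonUnitalStarAlgHom.norm_apply_le l _).trans (norm_act_le _ _)
      calc _ ≤ ‖b (act (q γ)⁻¹ f)‖ * ‖l (act (q γ)⁻¹ g) ξ‖ :=
            ContinuousLinearMap.le_opNorm _ _
        _ ≤ ‖f‖ * (‖g‖ * ‖ξ‖) := by
            refine mul_le_mul h1 ?_ (norm_nonneg _) (norm_nonneg _)
            exact (ContinuousLinearMap.le_opNorm _ _).trans
              (mul_le_mul_of_nonneg_right h2 (norm_nonneg _))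
        _ = _ := by ring)
    (fun S hS => hM₀ S fun γ hγ => (hS γ hγ).2)
    hC d
    (by
      intro s i j S hs' hS ξ
      exact h s i j S (fun γ hγ => by
        obtain ⟨⟨h1, h2⟩, h4, h5, h6⟩ := hS γ hγ
        exact ⟨h1, h2, h4, h5, h6⟩) ξ)
  refine ⟨T, hT, C', d + 1, fun J hJ S hS ξ => ?_⟩
  exact hsum J hJ S (fun γ hγ => ⟨(hS γ hγ).1, (hS γ hγ).2⟩) ξ

end Vale.Agent.P092.H261.C1
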