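import Vale.Agent.P092.H261.C1b
import Vale.Agent.P092.H217.PK5
import Vale.Agent.P092.H464.P.CCLab

/-!
P092, TEAM P, COUNT_1 (helper261), part 4: `KaStmt` from the unit bound of helper217, the normal
form of near-1-wall elements and the Carnot-Caratheodory Whitney decomposition of helper464.
-/

set_option linter.all false

open scoped InnerProductSpace ENNReal LinearAlgebra.Projectivization ZeroAtInfty Matrix
open Filter Topology ContinuousLinearMap MeasureTheory TopologicalSpace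

namespace Vale.Agent.P092.H261.C1

open Vale.Agent.P092.H464 (Pv CI)
open Vale.Agent.P092.H464.PW (Om ccwhit dec nrm_one)
open Vale.Agent.P092.H589.K2 (Nrm Tame Opf Cells)
open Vale.Agent.P092.H589.Mu (Cap)
open Vale.Agent.P092.H835.PlF (Alt w3 sq)
open Vale.Agent.P092.H820 (wd)
open Vale.Agent.P092.H789.Sp.CapP (NW)
open Vale.Agent.P092.H217.PK (om Hm Nf Hm_apply norm_ev norm_om_le om_anti)

/-- The unit bound (helper217, `unit1`) for given constants, as a Prop. -/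
def U1At {𝕜 : Type} [NontriviallyNormedField 𝕜] [MeasurableSpace 𝕜] (K : Type)
    [NormedAddCommGroup K] [InnerProductSpace ℂ K] [CompleteSpace K]
    (φ : (Fin 4 × Fin 4 → 𝕜) → ℂ) (C C₂ C₃ c₀ T₀ C' : ℝ) : Prop :=
    ∀ (X Y : Type) [TopologicalSpace X] [CompactSpace X] [MetrizableSpace X]
      [MeasurableSpace X] [BorelSpace X] [TopologicalSpace Y] [CompactSpace Y]
      [MetrizableSpace Y] [MeasurableSpace Y] [BorelSpace Y] (s : X → Fin 4 → 𝕜)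
      (q : Y → Fin 4 × Fin 4 → 𝕜), (∀ x, Nrm (s x)) → Measurable q → (∀ y, Nrm (q y)) →
      (∀ y, Alt (q y)) → (∀ y, q y (0, 3) + q y (1, 2) = 0) →
      ∀ Inc : X → Y → Prop, IsClosed {z : X × Y | Inc z.1 z.2} →
      (∀ x y, Inc x y → w3 (s x) (q y) = 0) →
      ∀ (b z : C(X, ℂ) →⋆ₐ[ℂ] (K →L[ℂ] K)) (l n : C(Y, ℂ) →⋆ₐ[ℂ] (K →L[ℂ] K)),
      CI Inc (H466.pv b) (H466.pv n) → CI Inc (H466.pv z) (H466.pv n) →
      CI Inc (H466.pv z) (H466.pv l) →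
      ∀ (κ : Type) (S : Finset κ) (p : Fin 4) (M A : κ → Matrix (Fin 4) (Fin 4) 𝕜)
      (η : κ → Fin 4 → 𝕜) (c : κ → 𝕜) (m : ℝ), 1 ≤ m →
      (∀ k ∈ S, Nf p C (M k) (η k) (c k) (A k)) → (∀ k ∈ S, m ≤ ‖c k‖ ∧ ‖c k‖ ≤ C * m) →
      ∀ (ρ : 𝕜), ρ ≠ 0 → ‖ρ‖ ≤ 1 → T₀ ≤ m * ‖ρ‖ →
      ∀ B : κ → Set X, (∀ k ∈ S, IsClosed (B k)) → (∀ k ∈ S, ∀ x ∈ B k, ‖M k *ᵥ s x‖ * m ≤ C₂) →
      ∀ A' : Set X, MeasurableSet A' →
      (∀ k ∈ S, ∀ x ∈ A', ‖wd (s x) (η k)‖ ≤ C₃ * ‖ρ‖ ∧ ‖om (s x) (η k)‖ ≤ C₃ * ‖ρ‖ ^ 2) →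
      (∀ k ∈ S, ∀ x ∈ A', ¬ (‖wd (s x) (η k)‖ ≤ c₀ * ‖ρ‖ ∧
        ‖om (s x) (η k)‖ ≤ c₀ * ‖ρ‖ ^ 2)) →
      ∀ (E W : κ → (K →L[ℂ] K)) (F : κ → Y → ℂ) (N : ℝ), 0 ≤ N →
      (∀ k ∈ S, E k * H466.pv b (B k) = E k) →
      (∀ k ∈ S, ∀ D, MeasurableSet D → E k * H466.pv n D = H466.pv n D * E k) → Cap S E N →
      (∀ k ∈ S, ∀ y, F k y = φ (sq (M k) *ᵥ q y)) → (∀ k ∈ S, Measurable (F k)) →
      (∀ k ∈ S, Opf (H466.pv l) (F k) (W k)) →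
      (∀ k ∈ S, ∀ D, MeasurableSet D → W k * H466.pv z D = H466.pv z D * W k) →
      ∀ v, ∑ k ∈ S, ‖E k (W k (H466.pv z A' v))‖ ^ 2 ≤
        (C' * (1 + Real.log m) * N) ^ 2 * ‖H466.pv z A' v‖ ^ 2

/-- The unit bound (helper217, `unit1`), as a Prop. -/
def U1Stmt (𝕜 : Type) [NontriviallyNormedField 𝕜] [MeasurableSpace 𝕜] : Prop :=
  ∀ (K : Type) [NormedAddCommGroup K] [InnerProductSpace ℂ K] [CompleteSpace K]
    {φ : (Fin 4 × Fin 4 → 𝕜) → ℂ}, Tame K φ → ∀ (C C₂ C₃ c₀ : ℝ), 1 ≤ C → 1 ≤ C₂ → 1 ≤ C₃ →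
    0 < c₀ → ∃ T₀ C' : ℝ, 1 ≤ T₀ ∧ 0 ≤ C' ∧ U1At K φ C C₂ C₃ c₀ T₀ C'

section triv

variable {K : Type} [NormedAddCommGroup K] [InnerProductSpace ℂ K] [CompleteSpace K]

theorem triv {κ : Type} {S S' : Finset κ} (hS : S' ⊆ S) {E W : κ → (K →L[ℂ] K)} {N B : ℝ}
    (hN : 0 ≤ N) (hB : 0 ≤ B) (hE : Cap S E N) (hW : ∀ k ∈ S, ∀ v, ‖W k v‖ ≤ B * ‖v‖) {n : ℕ}
    (hn : S'.card ≤ n) (v : K) :
    ∑ k ∈ S', ‖(E k * W k) v‖ ^ 2 ≤ ((n + 1) * B * N) ^ 2 * ‖v‖ ^ 2 := by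
  classical
  have h1 : ∀ k ∈ S', ‖(E k * W k) v‖ ^ 2 ≤ (B * N) ^ 2 * ‖v‖ ^ 2 := by
    intro k hk
    have h2 : ‖E k (W k v)‖ ^ 2 ≤ N ^ 2 * ‖W k v‖ ^ 2 :=
      (Finset.single_le_sum (f := fun k' => ‖E k' (W k v)‖ ^ 2) (fun _ _ => sq_nonneg _)
        (hS hk)).trans (hE (W k v))
    have h3 := hW k (hS hk) v
    calc ‖(E k * W k) v‖ ^ 2 = ‖E k (W k v)‖ ^ 2 := rfl
      _ ≤ N ^ 2 * ‖W k v‖ ^ 2 := h2
      _ ≤ N ^ 2 * (B * ‖v‖) ^ 2 := by gcongr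
      _ = _ := by ring
  refine (Finset.sum_le_sum h1).trans ?_
  rw [Finset.sum_const, nsmul_eq_mul]
  have h4 : (S'.card : ℝ) ≤ n := by exact_mod_cast hn
  have h5 : (0 : ℝ) ≤ n := Nat.cast_nonneg n
  have h6 : (n : ℝ) ≤ (n + 1) ^ 2 := by nlinarith
  calc (S'.card : ℝ) * ((B * N) ^ 2 * ‖v‖ ^ 2) ≤ (n + 1) ^ 2 * ((B * N) ^ 2 * ‖v‖ ^ 2) := by
        gcongr
        exact h4.trans h6
    _ = _ := by ring

theorem opf_le {Y : Type} [MeasurableSpace Y] {P : Set Y → (K →L[ℂ] K)} (hP : Pv P) {F : Y → ℂ}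
    {W : K →L[ℂ] K} (h : Opf P F W) {B : ℝ} (hB : 0 ≤ B) (hF : ∀ y, ‖F y‖ ≤ B) (v : K) :
    ‖W v‖ ≤ B * ‖v‖ := by
  have h1 := h.approx Set.univ MeasurableSet.univ 0 B hB (fun y _ => by rw [sub_zero]; exact hF y) v
  rw [hP.univ, zero_smul, sub_zero] at h1
  exact h1

end triv

section geo

variable {k : Type} [NontriviallyNormedField k]

/-- the symplectic form is an `Om` -/
theorem om4 [MeasurableSpace k] [BorelSpace k] [ProperSpace k] :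
    Om (fun x y : Fin 4 → k => om x y) 4 where
  one := by norm_num
  add x y z := H217.PK.om_add_left x y z
  smul c x z := H217.PK.om_smul_left c x z
  anti x y := H217.PK.om_anti x y
  self x := H217.PK.om_self x
  le x y := by rw [mul_assoc]; exact norm_om_le x y
  meas w := by
    have hc : Continuous fun x : Fin 4 → k => om x w := by
      unfold om; fun_prop
    exact hc.measurable

/-- a point which is close to the contracted point at the last scale is contracted -/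
theorem near_cap {p : Fin 4} {C : ℝ} {G A : Matrix (Fin 4) (Fin 4) k} {η : Fin 4 → k} {c : k}
    (nf : Nf p C G η c A) {m t a b T : ℝ} (hm : 0 < m) (hmc : m ≤ ‖c‖) (hcm : ‖c‖ ≤ C * m)
    (ht : 0 ≤ t) (ha : 0 ≤ a) (hb : 0 ≤ b) (hT : m * t ≤ T) {x : Fin 4 → k} (hx : ‖x‖ ≤ 1)
    (h1 : ‖wd x η‖ ≤ a * t) (h2 : ‖om x η‖ ≤ b * t ^ 2) :
    m * ‖G *ᵥ x‖ ≤ 4 * C * (a * C * T + 2 * b * C ^ 2 * T ^ 2 + 1) := by
  letI : MeasurableSpace k := ⊤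
  have hC := nf.C1
  have hT0 : 0 ≤ T := le_trans (by positivity) hT
  have e : Hm p η c x = c • (x - x p • η) + ((c ^ 2 - c) * om η x) • H217.PK.ev p + x p • η := by
    rw [Hm_apply]
    funext i
    simp only [Pi.add_apply, Pi.smul_apply, smul_eq_mul, Pi.sub_apply]; ring
  have k0 : ‖c‖ * t ≤ C * T := by
    calc ‖c‖ * t ≤ C * m * t := by gcongr
      _ = C * (m * t) := by ring
      _ ≤ C * T := by gcongr
  have k1 : ‖c • (x - x p • η)‖ ≤ a * C * T := by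
    rw [norm_smul]
    calc ‖c‖ * ‖x - x p • η‖ ≤ ‖c‖ * (a * t) := by
          gcongr; exact (dec nf.ηp).trans h1
      _ = a * (‖c‖ * t) := by ring
      _ ≤ a * (C * T) := by gcongr
      _ = _ := by ring
  have k2 : ‖((c ^ 2 - c) * om η x) • (H217.PK.ev p : Fin 4 → k)‖ ≤ 2 * b * C ^ 2 * T ^ 2 := by
    rw [norm_smul, norm_mul]
    have c1 := nf.c1
    have h3 : ‖c ^ 2 - c‖ ≤ 2 * ‖c‖ ^ 2 := by
      refine (norm_sub_le _ _).trans ?_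
      rw [norm_pow]
      nlinarith
    have h4 : ‖om η x‖ ≤ b * t ^ 2 := by rw [om_anti, norm_neg]; exact h2
    have h5 := norm_ev (k := k) p
    calc ‖c ^ 2 - c‖ * ‖om η x‖ * ‖(H217.PK.ev p : Fin 4 → k)‖
        ≤ (2 * ‖c‖ ^ 2) * (b * t ^ 2) * 1 := by gcongr
      _ = 2 * b * (‖c‖ * t) ^ 2 := by ring
      _ ≤ 2 * b * (C * T) ^ 2 := by gcongr
      _ = _ := by ring
  have k3 : ‖x p • η‖ ≤ 1 := by
    rw [norm_smul]
    have h3 := (norm_le_pi_norm x p).trans hx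
    have h4 := nf.ηn
    have h5 := norm_nonneg (x p)
    have h6 := norm_nonneg η
    nlinarith
  have k4 : ‖Hm p η c x‖ ≤ a * C * T + 2 * b * C ^ 2 * T ^ 2 + 1 := by
    rw [e]
    exact (norm_add_le _ _).trans (add_le_add ((norm_add_le _ _).trans (add_le_add k1 k2)) k3)
  calc m * ‖G *ᵥ x‖ ≤ ‖G *ᵥ x‖ * ‖c‖ := by rw [mul_comm]; gcongr
    _ ≤ 4 * C * ‖Hm p η c x‖ := nf.up x
    _ ≤ _ := by gcongr

/-- the normal form of a near-1-wall element, as a Prop -/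
def Nf1Stmt (k : Type) [NontriviallyNormedField k] : Prop :=
  ∀ R : ℝ, ∃ C : ℝ, 1 ≤ C ∧ ∀ (g : Matrix (Fin 4) (Fin 4) k) (j i : Fin 4),
    (∀ v w, om (g *ᵥ v) (g *ᵥ w) = om v w) → (∀ a b, ‖g a b‖ ≤ ‖g j i‖) →
    (∀ a a' b b', ‖g a b * g a' b' - g a b' * g a' b‖ ≤ R * ‖g j i‖) → 1 ≤ ‖g j i‖ →
    ∃ (η : Fin 4 → k) (c : k) (A : Matrix (Fin 4) (Fin 4) k), Nf (Fin.rev i) C g η c A ∧
      ‖c‖ = ‖g j i‖

end geo

end Vale.Agent.P092.H261.C1
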