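import Vale.Agent.P092.H261.C1d

/-!
P092, TEAM P, COUNT_1 (helper261), part 5: the normal form of the near-1-wall elements.
-/

set_option linter.all false

open scoped Matrix

namespace Vale.Agent.P092.H261.C1

open Vale.Agent.P092.H217.PK (om Hm HM Nf Hm_apply HM_mulVec Hm_inv' om_ev ev om_smul_right
  om_smul_left om_anti om_sub_right norm_ev)

variable {k : Type} [NontriviallyNormedField k]

/-- the vector of a linear form -/
def ro (r : Fin 4 → k) : Fin 4 → k := ![-r 3, -r 2, r 1, r 0]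

lemma om_ro (v r : Fin 4 → k) : om v (ro r) = ∑ a, r a * v a := by
  simp only [om, ro, Fin.sum_univ_four, Matrix.cons_val]
  ring

lemma ro_rev (r : Fin 4 → k) (i : Fin 4) : ∃ ε : k, ε * ε = 1 ∧ ‖ε‖ = 1 ∧
    ro r (Fin.rev i) = ε * r i ∧ (ev (Fin.rev i) : Fin 4 → k) = (-ε) • Pi.single i 1 := by
  fin_cases i
  · exact ⟨1, by ring, norm_one, by simp [ro], by funext a; fin_cases a <;> simp [ev, Fin.rev]⟩
  · exact ⟨1, by ring, norm_one, by simp [ro, Fin.rev],
      by funext a; fin_cases a <;> simp [ev, Fin.rev]⟩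
  · exact ⟨-1, by ring, by rw [norm_neg, norm_one], by simp [ro, Fin.rev],
      by funext a; fin_cases a <;> simp [ev, Fin.rev]⟩
  · exact ⟨-1, by ring, by rw [norm_neg, norm_one], by simp [ro, Fin.rev],
      by funext a; fin_cases a <;> simp [ev, Fin.rev]⟩

lemma norm_ro {r : Fin 4 → k} {c : ℝ} (hc : 0 ≤ c) (h : ∀ a, ‖r a‖ ≤ c) : ‖ro r‖ ≤ c := by
  refine (pi_norm_le_iff_of_nonneg hc).2 fun a => ?_
  fin_cases a <;> simp [ro, h]

lemma eq_of_om {u w : Fin 4 → k} (h : ∀ v, om v u = om v w) : u = w := by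
  funext a
  rw [← om_ev u a, ← om_ev w a, om_anti u, om_anti w, h]

lemma surj_of_sy {g : Matrix (Fin 4) (Fin 4) k}
    (h : ∀ v w, om (g *ᵥ v) (g *ᵥ w) = om v w) (u : Fin 4 → k) : ∃ v, g *ᵥ v = u := by
  have hi : Function.Injective g.mulVecLin := by
    rw [injective_iff_map_eq_zero]
    intro v hv
    have hv' : g *ᵥ v = 0 := hv
    funext a
    have h1 := h v (ev a)
    rw [hv'] at h1
    rw [← om_ev v a, ← h1, Pi.zero_apply]
    simp [om]
  obtain ⟨v, hv⟩ := (LinearMap.injective_iff_surjective.1 hi) u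
  exact ⟨v, hv⟩

/-- **Normal form.** -/
theorem nf1 : Nf1Stmt k := by
  intro R
  refine ⟨max R 0 + 3, by linarith [le_max_right R 0], fun g j i hg hp hm h1 => ?_⟩
  obtain ⟨ε, hε, hε1, e1, e2⟩ := ro_rev (g j) i
  set c : k := ε * g j i with hc
  have hcn : ‖c‖ = ‖g j i‖ := by rw [hc, norm_mul, hε1, one_mul]
  have hc1 : 1 ≤ ‖c‖ := by rw [hcn]; exact h1
  have hc0 : c ≠ 0 := norm_pos_iff.1 (by linarith)
  have hg0 : g j i ≠ 0 := norm_pos_iff.1 (by linarith)
  set η : Fin 4 → k := c⁻¹ • ro (g j) with hη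
  have hηp : η (Fin.rev i) = 1 := by
    rw [hη, Pi.smul_apply, e1, smul_eq_mul, inv_mul_cancel₀ hc0]
  have hηn : ‖η‖ ≤ 1 := by
    rw [hη, norm_smul, norm_inv, hcn]
    have h2 : ‖ro (g j)‖ ≤ ‖g j i‖ := norm_ro (norm_nonneg _) fun a => hp j a
    have h3 : 0 < ‖g j i‖ := by linarith
    rw [inv_mul_le_iff₀ h3, mul_one]
    exact h2
  -- `g η = c⁻¹ ev j`
  have hgη : g *ᵥ η = c⁻¹ • ev j := by
    refine eq_of_om fun u => ?_
    obtain ⟨v, rfl⟩ := surj_of_sy hg u
    rw [hg, hη, om_smul_right, om_ro, om_smul_right, om_ev]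
    rfl
  have hinv : ‖c⁻¹‖ ≤ 1 := by rw [norm_inv]; exact inv_le_one_of_one_le₀ hc1
  refine ⟨η, c, c • (g * HM (Fin.rev i) η c⁻¹), ⟨fun v => ?_, hc1, hηp, hηn, ?_, fun a b => ?_,
    hg⟩, hcn⟩
  · rw [Matrix.smul_mulVec, ← Matrix.mulVec_mulVec, HM_mulVec, Hm_inv' hηp hc0]
  · linarith [le_max_right R 0]
  · -- the columns of `A`
    have ecol : (c • (g * HM (Fin.rev i) η c⁻¹)) a b =
        (g a b * g j i - g a i * g j b) / g j i + c⁻¹ * (g j b / g j i) * g a i +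
          ((c - 1) * c⁻¹ * (Pi.single b 1 : Fin 4 → k) (Fin.rev i)) * ev j a := by
      have e3 : (c • (g * HM (Fin.rev i) η c⁻¹)) a b =
          ((c • (g * HM (Fin.rev i) η c⁻¹)) *ᵥ (Pi.single b 1)) a := by simp
      have e4 : om η (Pi.single b 1) = -(c⁻¹ * g j b) := by
        rw [om_anti, hη, om_smul_right, om_ro]
        congr 2
        simp [Pi.single_apply]
      have e5 : g *ᵥ (ev (Fin.rev i) : Fin 4 → k) = (-ε) • (g *ᵥ Pi.single i 1) := by
        rw [e2, Matrix.mulVec_smul]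
      have e6 : ε = c⁻¹ * (ε * c) := by field_simp
      have e7 : c⁻¹ * ε = (g j i)⁻¹ := by
        rw [hc]
        have hε0 : ε ≠ 0 := fun h => by rw [h, mul_zero] at hε; exact zero_ne_one hε
        field_simp
      rw [e3, Matrix.smul_mulVec, ← Matrix.mulVec_mulVec, HM_mulVec, Hm_apply, Matrix.mulVec_add,
        Matrix.mulVec_add, Matrix.mulVec_smul, Matrix.mulVec_smul, Matrix.mulVec_smul, hgη, e5, e4]
      simp only [Pi.smul_apply, Pi.add_apply, smul_eq_mul, Matrix.mulVec_single_one,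
        Matrix.col_apply]
      have e8 : c * ((c⁻¹ ^ 2 - c⁻¹) * -(c⁻¹ * g j b) * (-ε * g a i)) =
          (c⁻¹ - 1) * (c⁻¹ * ε) * g j b * g a i := by
        field_simp
        try ring
      have e9 : c * (c⁻¹ * g a b) = g a b := by field_simp
      have e10 : c * ((1 - c⁻¹) * (Pi.single b 1 : Fin 4 → k) (Fin.rev i) * (c⁻¹ * ev j a)) =
          (c - 1) * c⁻¹ * (Pi.single b 1 : Fin 4 → k) (Fin.rev i) * ev j a := by
        field_simp
      rw [mul_add, mul_add, e8, e9, e10, e7]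
      field_simp
      ring
    rw [ecol]
    have b1 : ‖(g a b * g j i - g a i * g j b) / g j i‖ ≤ max R 0 := by
      rw [norm_div, div_le_iff₀ (by linarith)]
      refine (hm a j b i).trans ?_
      exact mul_le_mul_of_nonneg_right (le_max_left _ _) (norm_nonneg _)
    have b2 : ‖c⁻¹ * (g j b / g j i) * g a i‖ ≤ 1 := by
      rw [norm_mul, norm_mul, norm_div, norm_inv, hcn]
      have h3 : 0 < ‖g j i‖ := by linarith
      have h4 := hp j b
      have h5 := hp a i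
      have h6 : ‖g j b‖ / ‖g j i‖ ≤ 1 := div_le_one_of_le₀ h4 h3.le
      calc ‖g j i‖⁻¹ * (‖g j b‖ / ‖g j i‖) * ‖g a i‖ ≤ ‖g j i‖⁻¹ * 1 * ‖g j i‖ := by gcongr
        _ = 1 := by field_simp
    have b3 : ‖((c - 1) * c⁻¹ * (Pi.single b 1 : Fin 4 → k) (Fin.rev i)) * ev j a‖ ≤ 2 := by
      rw [norm_mul, norm_mul]
      have h3 : ‖(c - 1) * c⁻¹‖ ≤ 2 := by
        have : (c - 1) * c⁻¹ = 1 - c⁻¹ := by field_simp
        rw [this]
        refine (norm_sub_le _ _).trans ?_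
        rw [norm_one]
        linarith
      have h4 : ‖(Pi.single b 1 : Fin 4 → k) (Fin.rev i)‖ ≤ 1 := by
        refine (norm_le_pi_norm _ _).trans ?_
        rw [Pi.norm_single, norm_one]
      have h5 : ‖(ev j : Fin 4 → k) a‖ ≤ 1 := (norm_le_pi_norm _ _).trans (norm_ev j)
      have h6 := norm_nonneg ((Pi.single b 1 : Fin 4 → k) (Fin.rev i))
      have h7 := norm_nonneg ((ev j : Fin 4 → k) a)
      have h8 : ‖(c - 1) * c⁻¹‖ * ‖(Pi.single b 1 : Fin 4 → k) (Fin.rev i)‖ ≤ 2 * 1 :=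
        mul_le_mul h3 h4 h6 (by norm_num)
      exact (mul_le_mul h8 h5 h7 (by norm_num)).trans (by norm_num)
    calc _ ≤ ‖(g a b * g j i - g a i * g j b) / g j i‖ + ‖c⁻¹ * (g j b / g j i) * g a i‖ +
          ‖((c - 1) * c⁻¹ * (Pi.single b 1 : Fin 4 → k) (Fin.rev i)) * ev j a‖ :=
          (norm_add_le _ _).trans (add_le_add (norm_add_le _ _) le_rfl)
      _ ≤ _ := by linarith

end Vale.Agent.P092.H261.C1
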