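import Vale.Agent.P092.H261.C1e
import Vale.Agent.P092.H261.C1c

/-!
P092, TEAM P, COUNT_1 (helper261), part 6: `KaStmt` from the unit bound.
-/

set_option linter.all false

open scoped InnerProductSpace ENNReal LinearAlgebra.Projectivization ZeroAtInfty Matrix
open Filter Topology ContinuousLinearMap MeasureTheory TopologicalSpace

namespace Vale.Agent.P092.H261.C1

open Vale.Agent.P092.H464 (Pv CI)
open Vale.Agent.P092.H464.PW (Om ccwhit dec nrm_one)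
open Vale.Agent.P092.H589.K2 (Nrm Tame Opf Cells)
open Vale.Agent.P092.H589.Mu (Cap)
open Vale.Agent.P092.H835.PlF (Alt w3 sq)
open Vale.Agent.P092.H820 (wd)
open Vale.Agent.P092.H789.Sp.CapP (NW)
open Vale.Agent.P092.H217.PK (om Hm Nf Hm_apply norm_ev norm_om_le om_anti)

variable {k : Type} [NontriviallyNormedField k] [ProperSpace k] [MeasurableSpace k] [BorelSpace k]

theorem om_of_sp {g : Matrix (Fin 4) (Fin 4) k} (h : gᵀ * H789.Sp.CapP.JJ * g = H789.Sp.CapP.JJ)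
    (v w : Fin 4 → k) : om (g *ᵥ v) (g *ᵥ w) = om v w := H789.Sp.CapP.om_mul h v w

theorem nf_mono {p : Fin 4} {C C' : ℝ} (hC : C ≤ C') {M A : Matrix (Fin 4) (Fin 4) k}
    {η : Fin 4 → k} {c : k} (h : Nf p C M η c A) : Nf p C' M η c A :=
  ⟨h.eq, h.c1, h.ηp, h.ηn, h.C1.trans hC, fun i j => (h.An i j).trans hC, h.sy⟩

/-- the last level -/
theorem exists_J {m T₁ : ℝ} (hm : 1 ≤ m) (hT : 1 ≤ T₁) : ∃ J : ℕ, m * (1 / 2) ^ J ≤ T₁ ∧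
    (∀ m' < J, T₁ < m * (1 / 2) ^ m') ∧ (J : ℝ) + 1 ≤ 2 * (1 + Real.log m) := by
  have h1 : ∃ J : ℕ, m * (1 / 2) ^ J ≤ T₁ := by
    obtain ⟨J, hJ⟩ := exists_pow_lt_of_lt_one (show (0 : ℝ) < 1 / m by positivity)
      (show (1 / 2 : ℝ) < 1 by norm_num)
    refine ⟨J, ?_⟩
    have : m * (1 / 2) ^ J ≤ m * (1 / m) := by gcongr
    have e : m * (1 / m) = 1 := by field_simp
    linarith
  classical
  set J := Nat.find h1 with hJ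
  have h2 : m * (1 / 2) ^ J ≤ T₁ := Nat.find_spec h1
  have h3 : ∀ m' < J, T₁ < m * (1 / 2) ^ m' := fun m' h => not_le.1 (Nat.find_min h1 h)
  refine ⟨J, h2, h3, ?_⟩
  have hl : 0 ≤ Real.log m := Real.log_nonneg hm
  rcases Nat.eq_zero_or_pos J with h0 | h0
  · rw [h0]; push_cast; linarith
  · obtain ⟨j, hj⟩ : ∃ j, J = j + 1 := ⟨J - 1, by omega⟩
    have h4 := h3 j (by omega)
    have h5 : (2 : ℝ) ^ j ≤ m := by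
      have h6 : 1 ≤ m * (1 / 2) ^ j := hT.trans h4.le
      have h7 : (2 : ℝ) ^ j * (1 / 2) ^ j = 1 := by rw [← mul_pow]; norm_num
      have h8 : (0 : ℝ) < (1 / 2) ^ j := by positivity
      nlinarith
    have h6 : j * Real.log 2 ≤ Real.log m := by
      rw [← Real.log_pow]
      exact Real.log_le_log (by positivity) h5
    have h7 : (1 : ℝ) / 2 ≤ Real.log 2 := by
      have := Real.log_two_gt_d9
      linarith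
    have h8 : (0 : ℝ) ≤ j := Nat.cast_nonneg j
    have h9 : (j : ℝ) ≤ 2 * Real.log m := by nlinarith
    rw [hj]; push_cast; linarith

/-- the hypotheses of `KaStmt` after the constants -/
structure KD {K : Type} [NormedAddCommGroup K] [InnerProductSpace ℂ K] [CompleteSpace K]
    (φ : (Fin 4 × Fin 4 → k) → ℂ) (C₁ : ℝ) (Nc : ℝ → ℕ) {X Y : Type} [TopologicalSpace X]
    [CompactSpace X] [MetrizableSpace X] [MeasurableSpace X] [BorelSpace X] [TopologicalSpace Y]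
    [CompactSpace Y] [MetrizableSpace Y] [MeasurableSpace Y] [BorelSpace Y] (s : X → Fin 4 → k)
    (p : Y → Fin 4 × Fin 4 → k) (Inc : X → Y → Prop) (b z : C(X, ℂ) →⋆ₐ[ℂ] (K →L[ℂ] K))
    (l n : C(Y, ℂ) →⋆ₐ[ℂ] (K →L[ℂ] K)) {κ : Type} (S : Finset κ)
    (G : κ → Matrix (Fin 4) (Fin 4) k) (j i : Fin 4) (M : ℝ) (B : κ → Set X)
    (E W : κ → (K →L[ℂ] K)) (F : κ → Y → ℂ) (N : ℝ) : Prop where
  hs : Measurable s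
  hp : Measurable p
  hsn : ∀ x, Nrm (s x)
  hpn : ∀ y, Nrm (p y)
  hpa : ∀ y, Alt (p y)
  hpi : ∀ y, p y (0, 3) + p y (1, 2) = 0
  hInc : IsClosed {z : X × Y | Inc z.1 z.2}
  hw3 : ∀ x y, Inc x y → w3 (s x) (p y) = 0
  hbn : CI Inc (H466.pv b) (H466.pv n)
  hzn : CI Inc (H466.pv z) (H466.pv n)
  hzl : CI Inc (H466.pv z) (H466.pv l)
  hM : 1 ≤ M
  hNW : ∀ k ∈ S, NW C₁ M (G k)
  hpiv : ∀ k ∈ S, ∀ a b, ‖G k a b‖ ≤ ‖G k j i‖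
  hMp : ∀ k ∈ S, M ≤ C₁ * ‖G k j i‖
  hcap : ∀ (D : ℝ) (x : Fin 4 → k), x ≠ 0 → ∀ S' ⊆ S,
    (∀ k ∈ S', M * ‖G k *ᵥ x‖ ≤ D * ‖x‖) → S'.card ≤ Nc D
  hBs : ∀ k ∈ S, IsClosed (B k)
  hBc : ∀ k ∈ S, ∀ x ∈ B k, M * ‖G k *ᵥ s x‖ ≤ C₁
  hN : 0 ≤ N
  hEB : ∀ k ∈ S, E k * H466.pv b (B k) = E k
  hEn : ∀ k ∈ S, ∀ A, MeasurableSet A → E k * H466.pv n A = H466.pv n A * E k
  hE : Cap S E N
  hF : ∀ k ∈ S, ∀ y, F k y = φ (sq (G k) *ᵥ p y)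
  hFm : ∀ k ∈ S, Measurable (F k)
  hW : ∀ k ∈ S, Opf (H466.pv l) (F k) (W k)
  hWz : ∀ k ∈ S, ∀ A, MeasurableSet A → W k * H466.pv z A = H466.pv z A * W k

section steps

variable {K : Type} [NormedAddCommGroup K] [InnerProductSpace ℂ K] [CompleteSpace K]
  {φ : (Fin 4 × Fin 4 → k) → ℂ} {C₁ : ℝ} {Nc : ℝ → ℕ} {X Y : Type} [TopologicalSpace X]
  [CompactSpace X] [MetrizableSpace X] [MeasurableSpace X] [BorelSpace X] [TopologicalSpace Y]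
  [CompactSpace Y] [MetrizableSpace Y] [MeasurableSpace Y] [BorelSpace Y] {s : X → Fin 4 → k}
  {p : Y → Fin 4 × Fin 4 → k} {Inc : X → Y → Prop} {b' z : C(X, ℂ) →⋆ₐ[ℂ] (K →L[ℂ] K)}
  {l n : C(Y, ℂ) →⋆ₐ[ℂ] (K →L[ℂ] K)} {κ : Type} {S : Finset κ}
  {G : κ → Matrix (Fin 4) (Fin 4) k} {j i : Fin 4} {M : ℝ} {Bs : κ → Set X}
  {E W : κ → (K →L[ℂ] K)} {F : κ → Y → ℂ} {N : ℝ}

/-- one class -/
theorem cls_step (d : KD φ C₁ Nc s p Inc b' z l n S G j i M Bs E W F N) {C C' T₀ a b : ℝ} {τ : k}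
    (hτ : 1 < ‖τ‖) (ha : 1 ≤ a) (hb : 1 ≤ b)
    (hunit : U1At K φ C C₁ (max (2 * a * ‖τ‖) (2 * b * ‖τ‖ ^ 2)) (1 / 4) T₀ C')
    {m : ℝ} (hm1 : 1 ≤ m) (hmM : m ≤ M) {A : κ → Matrix (Fin 4) (Fin 4) k} {η : κ → Fin 4 → k}
    {c : κ → k} {S' : Finset κ} (hS' : S' ⊆ S)
    (hA : ∀ κ' ∈ S', Nf (Fin.rev i) C (G κ') (η κ') (c κ') (A κ'))
    (hcm : ∀ κ' ∈ S', m ≤ ‖c κ'‖ ∧ ‖c κ'‖ ≤ C * m) {m' : ℕ}
    (hm' : T₀ * ‖τ‖ < m * (1 / 2) ^ m') {A' : Set X} (hA' : MeasurableSet A')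
    (hR : ∀ k ∈ S', ∀ x ∈ A', ‖wd (s x) (η k)‖ ≤ 2 * a * (1 / 2) ^ m' ∧
        ‖om (s x) (η k)‖ ≤ 2 * b * ((1 / 2) ^ m') ^ 2 ∧
        ¬ (‖wd (s x) (η k)‖ ≤ a * (1 / 2) ^ (m' + 1) ∧
          ‖om (s x) (η k)‖ ≤ b * ((1 / 2) ^ (m' + 1)) ^ 2)) (v : K) :
    ∑ k ∈ S', ‖(E k * W k) (H466.pv z A' v)‖ ^ 2 ≤
      (C' * (1 + Real.log m) * N) ^ 2 * ‖H466.pv z A' v‖ ^ 2 := by
  have hτ0 : 0 < ‖τ‖ := one_pos.trans hτ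
  have hp2 : (0 : ℝ) < (1 / 2) ^ m' := by positivity
  obtain ⟨ρ, hρ0, hρ1, hρ2⟩ := H835.NF.exists_scale hτ
    (show (0 : ℝ) < (1 / 2) ^ m' / ‖τ‖ by positivity)
  have hρ2' : ‖ρ‖ ≤ (1 / 2) ^ m' := by
    refine hρ2.trans (le_of_eq ?_)
    field_simp
  have hρ1' : (1 / 2) ^ m' ≤ ‖τ‖ * ‖ρ‖ := by
    rw [div_le_iff₀ hτ0] at hρ1
    rwa [mul_comm] at hρ1
  have hρle : ‖ρ‖ ≤ 1 := hρ2'.trans (pow_le_one₀ (by norm_num) (by norm_num))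
  have hTρ : T₀ ≤ m * ‖ρ‖ := by
    have h2 : T₀ * ‖τ‖ ≤ m * ‖ρ‖ * ‖τ‖ := by
      calc T₀ * ‖τ‖ ≤ m * (1 / 2) ^ m' := hm'.le
        _ ≤ m * (‖τ‖ * ‖ρ‖) := by gcongr
        _ = _ := by ring
    exact le_of_mul_le_mul_right h2 hτ0
  refine hunit X Y s p d.hsn d.hp d.hpn d.hpa d.hpi Inc d.hInc d.hw3 b' z l n d.hbn d.hzn d.hzl κ
    S' (Fin.rev i) G A η c m hm1 hA hcm ρ hρ0 hρle hTρ Bs (fun κ' hκ => d.hBs κ' (hS' hκ))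
    (fun κ' hκ x hx => ?_) A' hA' (fun κ' hκ x hx => ?_) (fun κ' hκ x hx h3 => ?_)
    E W F N d.hN (fun κ' hκ => d.hEB κ' (hS' hκ)) (fun κ' hκ => d.hEn κ' (hS' hκ))
    (d.hE.sub hS') (fun κ' hκ => d.hF κ' (hS' hκ)) (fun κ' hκ => d.hFm κ' (hS' hκ))
    (fun κ' hκ => d.hW κ' (hS' hκ)) (fun κ' hκ => d.hWz κ' (hS' hκ)) v
  · refine le_trans ?_ (d.hBc κ' (hS' hκ) x hx)
    rw [mul_comm]
    exact mul_le_mul_of_nonneg_right hmM (norm_nonneg _)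
  · obtain ⟨h1, h2, -⟩ := hR κ' hκ x hx
    constructor
    · calc ‖wd (s x) (η κ')‖ ≤ 2 * a * (1 / 2) ^ m' := h1
        _ ≤ 2 * a * (‖τ‖ * ‖ρ‖) := by gcongr
        _ = 2 * a * ‖τ‖ * ‖ρ‖ := by ring
        _ ≤ max (2 * a * ‖τ‖) (2 * b * ‖τ‖ ^ 2) * ‖ρ‖ :=
            mul_le_mul_of_nonneg_right (le_max_left _ _) (norm_nonneg _)
    · calc ‖om (s x) (η κ')‖ ≤ 2 * b * ((1 / 2) ^ m') ^ 2 := h2
        _ ≤ 2 * b * (‖τ‖ * ‖ρ‖) ^ 2 := by gcongr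
        _ = 2 * b * ‖τ‖ ^ 2 * ‖ρ‖ ^ 2 := by ring
        _ ≤ max (2 * a * ‖τ‖) (2 * b * ‖τ‖ ^ 2) * ‖ρ‖ ^ 2 :=
            mul_le_mul_of_nonneg_right (le_max_right _ _) (sq_nonneg _)
  · obtain ⟨-, -, h4⟩ := hR κ' hκ x hx
    refine h4 ⟨?_, ?_⟩
    · refine h3.1.trans ?_
      rw [pow_succ]
      have h5 : (1 / 4 : ℝ) * ‖ρ‖ ≤ 1 / 4 * (1 / 2) ^ m' := by gcongr
      nlinarith
    · refine h3.2.trans ?_
      have h5 : (1 / 4 : ℝ) * ‖ρ‖ ^ 2 ≤ 1 / 4 * ((1 / 2) ^ m') ^ 2 := by gcongr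
      have h6 : 0 ≤ ((1 / 2 : ℝ) ^ m') ^ 2 := by positivity
      have h7 : 1 * ((1 / 2 : ℝ) ^ m') ^ 2 ≤ b * ((1 / 2 : ℝ) ^ m') ^ 2 :=
        mul_le_mul_of_nonneg_right hb h6
      have e : b * ((1 / 2 : ℝ) ^ (m' + 1)) ^ 2 = 1 / 4 * (b * ((1 / 2 : ℝ) ^ m') ^ 2) := by
        rw [pow_succ]; ring
      rw [e]
      linarith

/-- the last level -/
theorem last_step (d : KD φ C₁ Nc s p Inc b' z l n S G j i M Bs E W F N) (hC₁ : 1 ≤ C₁)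
    {B : ℝ} (hB0 : 0 ≤ B) (hWb : ∀ k ∈ S, ∀ v, ‖W k v‖ ≤ B * ‖v‖)
    {C T₁ a b : ℝ} (hC : 1 ≤ C) (ha : 1 ≤ a) (hb : 1 ≤ b)
    {m : ℝ} (hm1 : 1 ≤ m) (hMm : M = C₁ * m) {A : κ → Matrix (Fin 4) (Fin 4) k}
    {η : κ → Fin 4 → k} {c : κ → k} {S' : Finset κ} (hS' : S' ⊆ S)
    (hA : ∀ κ' ∈ S', Nf (Fin.rev i) C (G κ') (η κ') (c κ') (A κ'))
    (hcm : ∀ κ' ∈ S', m ≤ ‖c κ'‖ ∧ ‖c κ'‖ ≤ C * m) {J : ℕ} (hJ1 : m * (1 / 2) ^ J ≤ T₁)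
    {A' : Set X} (hA'ne : A'.Nonempty)
    (hR : ∀ k ∈ S', ∀ x ∈ A', ‖wd (s x) (η k)‖ ≤ 2 * a * (1 / 2) ^ J ∧
        ‖om (s x) (η k)‖ ≤ 2 * b * ((1 / 2) ^ J) ^ 2) (v : K) :
    ∑ k ∈ S', ‖(E k * W k) v‖ ^ 2 ≤
      ((Nc (C₁ * (4 * C * (2 * a * C * T₁ + 2 * (2 * b) * C ^ 2 * T₁ ^ 2 + 1))) + 1) * B * N) ^ 2 *
        ‖v‖ ^ 2 := by
  obtain ⟨x, hx⟩ := hA'ne
  have hsx : ‖s x‖ = 1 := nrm_one (d.hsn x)
  have hsx0 : s x ≠ 0 := fun h => by rw [h, norm_zero] at hsx; exact zero_ne_one hsx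
  refine triv hS' d.hN hB0 d.hE hWb (d.hcap _ (s x) hsx0 S' hS' fun κ' hκ => ?_) v
  obtain ⟨h1, h2⟩ := hR κ' hκ x hx
  have h3 := near_cap (hA κ' hκ) (by linarith : 0 < m) (hcm κ' hκ).1
    (hcm κ' hκ).2 (by positivity : (0 : ℝ) ≤ (1 / 2) ^ J)
    (by positivity : (0 : ℝ) ≤ 2 * a) (by positivity : (0 : ℝ) ≤ 2 * b) hJ1 hsx.le h1 h2
  rw [hsx, mul_one, hMm, mul_assoc]
  exact mul_le_mul_of_nonneg_left h3 (by linarith)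

/-- the small elements -/
theorem small_step (d : KD φ C₁ Nc s p Inc b' z l n S G j i M Bs E W F N) (hC₁ : 1 ≤ C₁)
    {B : ℝ} (hB0 : 0 ≤ B) (hWb : ∀ k ∈ S, ∀ v, ‖W k v‖ ≤ B * ‖v‖) (hsm : M < C₁) (v : K) :
    ∑ k ∈ S, ‖(E k * W k) v‖ ^ 2 ≤ ((Nc (4 * C₁ ^ 2) + 1) * B * N) ^ 2 * ‖v‖ ^ 2 := by
  have h1 : (Pi.single 0 1 : Fin 4 → k) ≠ 0 := by
    intro h
    have := congrFun h 0
    simp at this
  have hM := d.hM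
  refine triv (subset_rfl : S ⊆ S) d.hN hB0 d.hE hWb
    (d.hcap (4 * C₁ ^ 2) (Pi.single 0 1) h1 S subset_rfl fun κ' hκ => ?_) v
  have h2 := H789.Sp.CapP.mulVec_le (by linarith : (0 : ℝ) ≤ M) (d.hNW κ' hκ).up
    (Pi.single 0 1 : Fin 4 → k)
  calc M * ‖G κ' *ᵥ Pi.single 0 1‖ ≤ M * (4 * M * ‖(Pi.single 0 1 : Fin 4 → k)‖) := by gcongr
    _ = 4 * M ^ 2 * ‖(Pi.single 0 1 : Fin 4 → k)‖ := by ring
    _ ≤ _ := by gcongr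

/-- the large elements -/
theorem large_step (cl : Cells k) (d : KD φ C₁ Nc s p Inc b' z l n S G j i M Bs E W F N)
    (hC₁ : 1 ≤ C₁) {B : ℝ} (hB0 : 0 ≤ B) (hWb : ∀ k ∈ S, ∀ v, ‖W k v‖ ≤ B * ‖v‖)
    (hlg : C₁ ≤ M) {Cn : ℝ} (hCn1 : 1 ≤ Cn)
    (hnf : ∀ (g : Matrix (Fin 4) (Fin 4) k) (j i : Fin 4),
      (∀ v w, om (g *ᵥ v) (g *ᵥ w) = om v w) → (∀ a b, ‖g a b‖ ≤ ‖g j i‖) →
      (∀ a a' b b', ‖g a b * g a' b' - g a b' * g a' b‖ ≤ C₁ ^ 2 * ‖g j i‖) → 1 ≤ ‖g j i‖ →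
      ∃ (η : Fin 4 → k) (c : k) (A : Matrix (Fin 4) (Fin 4) k), Nf (Fin.rev i) Cn g η c A ∧
        ‖c‖ = ‖g j i‖) {τ : k} (hτ : 1 < ‖τ‖) {a b : ℝ} {Mw : ℕ} (ha : 1 ≤ a) (hb : 1 ≤ b)
    (hcc : ∀ {X κ : Type} [MeasurableSpace X] (s : X → Fin 4 → k), Measurable s →
      (∀ x, Nrm (s x)) → ∀ {Pz : Set X → (K →L[ℂ] K)}, Pv Pz → ∀ (J : ℕ) (S : Finset κ)
      (η : κ → Fin 4 → k), (∀ k ∈ S, ‖η k‖ ≤ 1 ∧ ∃ j, η k j = 1) →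
      ∀ (T : κ → (K →L[ℂ] K)) (C : ℝ), 0 ≤ C →
      (∀ m < J, ∀ S' ⊆ S, S'.Nonempty → ∀ A : Set X, MeasurableSet A → A.Nonempty →
        (∀ k ∈ S', ∀ x ∈ A, ‖wd (s x) (η k)‖ ≤ 2 * a * (1 / 2) ^ m ∧
          ‖om (s x) (η k)‖ ≤ 2 * b * ((1 / 2) ^ m) ^ 2 ∧
          ¬ (‖wd (s x) (η k)‖ ≤ a * (1 / 2) ^ (m + 1) ∧
            ‖om (s x) (η k)‖ ≤ b * ((1 / 2) ^ (m + 1)) ^ 2)) →
        ∀ v, ∑ k ∈ S', ‖T k (Pz A v)‖ ^ 2 ≤ C ^ 2 * ‖Pz A v‖ ^ 2) →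
      (∀ S' ⊆ S, S'.Nonempty → ∀ A : Set X, MeasurableSet A → A.Nonempty →
        (∀ k ∈ S', ∀ x ∈ A, ‖wd (s x) (η k)‖ ≤ 2 * a * (1 / 2) ^ J ∧
          ‖om (s x) (η k)‖ ≤ 2 * b * ((1 / 2) ^ J) ^ 2) →
        ∀ v, ∑ k ∈ S', ‖T k (Pz A v)‖ ^ 2 ≤ C ^ 2 * ‖Pz A v‖ ^ 2) →
      ∀ v, ∑ k ∈ S, ‖T k v‖ ^ 2 ≤ (Mw * (J + 1) * C) ^ 2 * ‖v‖ ^ 2)
    {T₀ C' D : ℝ} (hT₀ : 1 ≤ T₀) (hC' : 0 ≤ C')
    (hunit : U1At K φ (max Cn C₁) C₁ (max (2 * a * ‖τ‖) (2 * b * ‖τ‖ ^ 2)) (1 / 4) T₀ C')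
    (hD1 : C' ≤ D)
    (hD2 : (Nc (C₁ * (4 * max Cn C₁ * (2 * a * max Cn C₁ * (T₀ * ‖τ‖) +
      2 * (2 * b) * (max Cn C₁) ^ 2 * (T₀ * ‖τ‖) ^ 2 + 1))) + 1) * B ≤ D) (v : K) :
    ∑ k ∈ S, ‖(E k * W k) v‖ ^ 2 ≤
      (Mw * (2 * (1 + Real.log M)) * (D * (1 + Real.log M) * N)) ^ 2 * ‖v‖ ^ 2 := by
  classical
  have hN := d.hN
  have hτ0 : 0 < ‖τ‖ := one_pos.trans hτ
  have hC₁0 : 0 < C₁ := by linarith
  set C : ℝ := max Cn C₁ with hC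
  have hCn : Cn ≤ C := le_max_left _ _
  have hCC : C₁ ≤ C := le_max_right _ _
  have hC1 : 1 ≤ C := hC₁.trans hCC
  set m : ℝ := M / C₁ with hm
  have hm1 : 1 ≤ m := by rw [hm, le_div_iff₀ hC₁0]; linarith
  have hmM : m ≤ M := by rw [hm]; exact div_le_self (by linarith) hC₁
  have hMm : M = C₁ * m := by rw [hm]; field_simp
  have hgji : ∀ κ' ∈ S, m ≤ ‖G κ' j i‖ := fun κ' hκ => by
    rw [hm, div_le_iff₀ hC₁0, mul_comm]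
    exact d.hMp κ' hκ
  have hex : ∀ κ', ∃ (η : Fin 4 → k) (c : k) (A : Matrix (Fin 4) (Fin 4) k), κ' ∈ S →
      Nf (Fin.rev i) C (G κ') η c A ∧ ‖c‖ = ‖G κ' j i‖ := by
    intro κ'
    by_cases hκ : κ' ∈ S
    · obtain ⟨η, c, A, h1, h2⟩ := hnf (G κ') j i (om_of_sp (d.hNW κ' hκ).sp) (d.hpiv κ' hκ)
        (fun x x' y y' => ((d.hNW κ' hκ).mn x x' y y').trans (by
          have := d.hMp κ' hκ
          nlinarith)) (hm1.trans (hgji κ' hκ))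
      exact ⟨η, c, A, fun _ => ⟨nf_mono hCn h1, h2⟩⟩
    · exact ⟨0, 0, 0, fun h => (hκ h).elim⟩
  choose η c A hA using hex
  have hcm : ∀ κ' ∈ S, m ≤ ‖c κ'‖ ∧ ‖c κ'‖ ≤ C * m := fun κ' hκ => by
    rw [(hA κ' hκ).2]
    refine ⟨hgji κ' hκ, ((d.hNW κ' hκ).up j i).trans ?_⟩
    rw [hMm]
    exact mul_le_mul_of_nonneg_right hCC (by linarith)
  obtain ⟨J, hJ1, hJ2, hJ3⟩ := exists_J hm1 (show (1 : ℝ) ≤ T₀ * ‖τ‖ by nlinarith)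
  have hlogm : 0 ≤ Real.log m := Real.log_nonneg hm1
  have hlogmM : Real.log m ≤ Real.log M := Real.log_le_log (by linarith) hmM
  have hD0 : 0 ≤ D := hC'.trans hD1
  have key := hcc s d.hs d.hsn (H604.pv_Pv z) J S η
    (fun κ' hκ => ⟨(hA κ' hκ).1.ηn, Fin.rev i, (hA κ' hκ).1.ηp⟩) (fun κ' => E κ' * W κ')
    (D * (1 + Real.log m) * N) (by positivity)
    (fun m' hm' S' hS' hne A' hA' hA'ne hR v => by
      refine (cls_step d hτ ha hb hunit hm1 hmM hS' (fun κ' hκ => (hA κ' (hS' hκ)).1)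
        (fun κ' hκ => hcm κ' (hS' hκ)) (hJ2 m' hm') hA' hR v).trans ?_
      have h3 : 0 ≤ C' * (1 + Real.log m) * N := by positivity
      have h4 : C' * (1 + Real.log m) * N ≤ D * (1 + Real.log m) * N := by gcongr
      exact mul_le_mul_of_nonneg_right (pow_le_pow_left₀ h3 h4 2) (sq_nonneg _))
    (fun S' hS' hne A' hA' hA'ne hR v => by
      refine (last_step d hC₁ hB0 hWb hC1 ha hb hm1 hMm hS' (fun κ' hκ => (hA κ' (hS' hκ)).1)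
        (fun κ' hκ => hcm κ' (hS' hκ)) hJ1 hA'ne hR _).trans ?_
      have h4 : (Nc (C₁ * (4 * C * (2 * a * C * (T₀ * ‖τ‖) +
          2 * (2 * b) * C ^ 2 * (T₀ * ‖τ‖) ^ 2 + 1))) + 1) * B ≤ D * (1 + Real.log m) :=
        hD2.trans (le_mul_of_one_le_right hD0 (by linarith))
      have h5 := mul_le_mul_of_nonneg_right h4 hN
      have h3 : (0 : ℝ) ≤ (Nc (C₁ * (4 * C * (2 * a * C * (T₀ * ‖τ‖) +
          2 * (2 * b) * C ^ 2 * (T₀ * ‖τ‖) ^ 2 + 1))) + 1) * B * N := by positivity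
      exact mul_le_mul_of_nonneg_right (pow_le_pow_left₀ h3 h5 2) (sq_nonneg _)) v
  refine key.trans ?_
  have hlogM : 0 ≤ Real.log M := hlogm.trans hlogmM
  have h2 : (J : ℝ) + 1 ≤ 2 * (1 + Real.log M) := hJ3.trans (by linarith)
  gcongr

end steps

/-- **`KaStmt`** from the unit bound. -/
theorem ka_of (cl : Cells k) (hu : U1Stmt k) : KaStmt k := by
  intro K _ _ _ φ hφ C₁ hC₁ Nc
  obtain ⟨B, hB0, hB⟩ := hφ.2.1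
  obtain ⟨Cn, hCn1, hnf⟩ := nf1 (k := k) (C₁ ^ 2)
  obtain ⟨τ, hτ⟩ := NormedField.exists_one_lt_norm k
  have hτ0 : 0 < ‖τ‖ := one_pos.trans hτ
  obtain ⟨a, b, Mw, ha, hb, hcc⟩ := ccwhit (K := K) cl (om4 (k := k)) 1 le_rfl
  have hC₃1 : 1 ≤ max (2 * a * ‖τ‖) (2 * b * ‖τ‖ ^ 2) := by
    refine le_trans ?_ (le_max_left _ _)
    nlinarith
  obtain ⟨T₀, C', hT₀, hC', hunit⟩ := hu K hφ (max Cn C₁) C₁
    (max (2 * a * ‖τ‖) (2 * b * ‖τ‖ ^ 2)) (1 / 4) (hC₁.trans (le_max_right _ _)) hC₁ hC₃1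
    (by norm_num)
  obtain ⟨n₁, hn₁⟩ : ∃ n : ℕ, n = Nc (C₁ * (4 * max Cn C₁ * (2 * a * max Cn C₁ * (T₀ * ‖τ‖) +
      2 * (2 * b) * (max Cn C₁) ^ 2 * (T₀ * ‖τ‖) ^ 2 + 1))) := ⟨_, rfl⟩
  obtain ⟨D, hD⟩ : ∃ D : ℝ, D = C' + (n₁ + 1) * B := ⟨_, rfl⟩
  have hn0 : (0 : ℝ) ≤ (n₁ + 1) * B := by positivity
  have hD0 : 0 ≤ D := by rw [hD]; positivity
  refine ⟨Mw * 2 * D + (Nc (4 * C₁ ^ 2) + 1) * B, 2, by positivity, ?_⟩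
  intro X Y _ _ _ _ _ _ _ _ _ _ s p hs hp hsn hpn hpa hpi Inc hInc hw3 b' z l n hbn hzn hzl κ S G
    j i M hM hNW hpiv hMp hcap Bs hBs hBc E W F N hN hEB hEn hE hF hFm hW hWz v
  have d : KD φ C₁ Nc s p Inc b' z l n S G j i M Bs E W F N :=
    ⟨hs, hp, hsn, hpn, hpa, hpi, hInc, hw3, hbn, hzn, hzl, hM, hNW, hpiv, hMp, hcap, hBs, hBc, hN,
      hEB, hEn, hE, hF, hFm, hW, hWz⟩
  have hWb : ∀ k ∈ S, ∀ v, ‖W k v‖ ≤ B * ‖v‖ := fun κ' hκ v =>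
    opf_le (H604.pv_Pv l) (hW κ' hκ) hB0 (fun y => by rw [hF κ' hκ]; exact hB _) v
  have hlogM : 0 ≤ Real.log M := Real.log_nonneg hM
  have h3 : 1 ≤ (1 + Real.log M) ^ 2 := one_le_pow₀ (by linarith)
  have h7 : (0 : ℝ) ≤ Mw * 2 * D := by positivity
  have h8 : (0 : ℝ) ≤ (Nc (4 * C₁ ^ 2) + 1) * B := by positivity
  rcases lt_or_ge M C₁ with hsm | hlg
  · refine (small_step d hC₁ hB0 hWb hsm v).trans ?_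
    have h5 : (Nc (4 * C₁ ^ 2) + 1) * B ≤
        (Mw * 2 * D + (Nc (4 * C₁ ^ 2) + 1) * B) * (1 + Real.log M) ^ 2 :=
      (by linarith : (Nc (4 * C₁ ^ 2) + 1) * B ≤ (Mw * 2 * D + (Nc (4 * C₁ ^ 2) + 1) * B)).trans
        (le_mul_of_one_le_right (by positivity) h3)
    have h6 := mul_le_mul_of_nonneg_right h5 hN
    have h9 : (0 : ℝ) ≤ (Nc (4 * C₁ ^ 2) + 1) * B * N := by positivity
    gcongr
  · refine (large_step cl d hC₁ hB0 hWb hlg hCn1 hnf hτ ha hb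
      (fun s hs hsn Pz hPz J S η hη T C hC h1 h2 v => hcc s hs hsn hPz J S η hη T C hC h1 h2 v)
      hT₀ hC' hunit (D := D) (by rw [hD]; linarith) (by rw [← hn₁, hD]; linarith) v).trans ?_
    have h5 : Mw * (2 * (1 + Real.log M)) * (D * (1 + Real.log M) * N) ≤
        (Mw * 2 * D + (Nc (4 * C₁ ^ 2) + 1) * B) * (1 + Real.log M) ^ 2 * N := by
      have h6 : 0 ≤ (Nc (4 * C₁ ^ 2) + 1) * B * (1 + Real.log M) ^ 2 * N := by positivity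
      have e : Mw * (2 * (1 + Real.log M)) * (D * (1 + Real.log M) * N) =
        Mw * 2 * D * (1 + Real.log M) ^ 2 * N := by ring
      rw [e]
      linarith [h6, add_mul (Mw * 2 * D) ((Nc (4 * C₁ ^ 2) + 1) * B) ((1 + Real.log M) ^ 2 * N)]
    have h9 : (0 : ℝ) ≤ Mw * (2 * (1 + Real.log M)) * (D * (1 + Real.log M) * N) := by positivity
    gcongr

end Vale.Agent.P092.H261.C1
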