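import Vale.Agent.P092.H261.C1f
import Vale.Agent.P092.H99.P.Key
import Vale.Agent.P092.H914.Fin0
import Vale.Agent.P092.H370.Sp4b

/-!
P092, TEAM P, COUNT_1 (helper261), part 7: `H99.P.Count1Stmt` for every local field from the unit
bound.
-/

set_option linter.all false

open scoped InnerProductSpace ENNReal LinearAlgebra.Projectivization ZeroAtInfty Matrix
open Filter Topology ContinuousLinearMap MeasureTheory TopologicalSpace

namespace Vale.Agent.P092.H261.C1

open Vale.Agent.P092.SP
open Vale.Agent.P092.SP4 (S4 LL on prp)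
open Vale.Agent.P092.H589.K2 (Cells)

variable {k : Type} [NontriviallyNormedField k] [ProperSpace k]

/-- **COUNT_1**, for every local field, from the unit bound -/
theorem count1Stmt (hk : H933.LocK k)
    (hu : ∀ [MeasurableSpace k] [BorelSpace k], Cells k → U1Stmt k) : H99.P.Count1Stmt k := by
  letI : MeasurableSpace k := borel k
  haveI : BorelSpace k := ⟨rfl⟩
  obtain ⟨cl⟩ := H914.exists_cells (H914.loc_or hk)
  refine ⟨DL k, dense_DL (H914.td_dense (H914.loc_or hk) _), ?_⟩
  intro Γ K _ _ _ q hud E B L L' hEL hBL hBL' R A h f hf hop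
  refine count1_of (ka_of cl (hu cl)) (H914.secStmt k) H914.opfStmt q hud E B L L' hEL hBL hBL' R A
    h f hf fun y hy x hx hp => ?_
  by_cases hne : y = x
  · subst hne
    obtain ⟨l, -, -, hl, -⟩ := SP4.exists_two_ln y
    exact hop y hy y hx l hl hl
  · obtain ⟨l, h1, h2⟩ := SP4.exists_ln hne hp
    exact hop y hy x hx l h1 h2

end Vale.Agent.P092.H261.C1
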