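import Vale.Agent.P092.H261.C1g
import Vale.Agent.P092.H217.PK6

/-!
P092, TEAM P, COUNT_1 (helper261, with helper217's unit bound), part 8: `Count1Stmt` for every
local field.
-/

set_option linter.all false

open scoped InnerProductSpace ENNReal LinearAlgebra.Projectivization ZeroAtInfty Matrix
open Filter Topology ContinuousLinearMap MeasureTheory TopologicalSpace

namespace Vale.Agent.P092.H261.C1

open Vale.Agent.P092.H589.K2 (Cells)

variable {k : Type} [NontriviallyNormedField k] [ProperSpace k]

theorem u1Stmt [MeasurableSpace k] [BorelSpace k] (cl : Cells k) : U1Stmt k := by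
  intro K _ _ _ φ hφ C C₂ C₃ c₀ hC h₂ h₃ h0
  exact H217.PK.unit1 cl hφ C C₂ C₃ c₀ hC h₂ h₃ h0

/-- **COUNT_1**, for every local field -/
theorem count1 (hk : H933.LocK k) : H99.P.Count1Stmt k :=
  count1Stmt hk fun cl => u1Stmt cl

end Vale.Agent.P092.H261.C1
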