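import Vale.Agent.P092.H261.K3w
import Vale.Agent.P092.H217.FD
import Vale.Agent.P092.H217.F1
import Vale.Agent.P092.H604.Kp

/-!
P092 (helper261), COUNT_1 FOR FORMS, outer half, part 1: the form as a `Bf`; contraction estimate of
a near-1-wall isometry (`up1`, `near_cap`).
-/

set_option linter.all false

open scoped Matrix
open Filter Topology MeasureTheory

namespace Vale.Agent.P092.H261.K3

open Vale.Agent.P092.H820 (wd)
open Vale.Agent.P092.H714.Cl (hf hf_add_left hf_smul_left hf_add_right hf_smul_right)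
open Vale.Agent.P092.H835.PlF (w3 Alt sq sq_wd alt_wd)
open Vale.Agent.P092.H589.K2 (Nrm Cells)
open Vale.Agent.P092.H464.PW (dec wd_le wd_sub nrm_one)
open Vale.Agent.P092.H217.F (Fm An Nw Near Lcf Iso2)

variable {k : Type} [NontriviallyNormedField k] {n : Type} [Fintype n] [DecidableEq n]
  {σ : k →+* k} {J : Matrix n n k} {β : ℝ}

theorem hf_sub_left (x y z : n → k) : hf σ J (x - y) z = hf σ J x z - hf σ J y z := by
  have e := hf_add_left σ J (x - y) y z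
  rw [sub_add_cancel] at e
  rw [e]; ring

/-- the form with values in `Unit → k` -/
def hB (σ : k →+* k) (J : Matrix n n k) (x y : n → k) : Unit → k := fun _ => hf σ J x y

theorem norm_hB (x y : n → k) : ‖hB σ J x y‖ = ‖hf σ J x y‖ := pi_norm_const _

/-- the form is a `Bf` -/
theorem bf_h [MeasurableSpace k] [BorelSpace k] [ProperSpace k] (h : Fm σ J β) :
    Bf (fun a => σ a) (hB σ J) β where
  one := h.b1
  nσ := h.iso
  add x y z := by funext _; exact hf_add_left σ J x y z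
  add' x y z := by funext _; exact hf_add_right σ J z x y
  smul c x z := by funext _; exact hf_smul_left σ J c x z
  smul' c x z := by funext _; exact hf_smul_right σ J c z x
  symm x y := by rw [norm_hB, norm_hB]; exact h.sym x y
  le x y := by rw [norm_hB, mul_assoc]; exact h.bd x y
  meas w := by
    refine measurable_pi_iff.2 fun _ => ?_
    have hc : Continuous fun x : n → k => hf σ J x w := by
      unfold hf dotProduct
      exact continuous_finsetSum _ fun i _ => (continuous_apply i).mul continuous_const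
    exact hc.measurable

/-- **expansion of a near-1-wall isometry**: `‖M v‖ ≤ C' (m |h(v, η)| + ‖v‖)`, `η` contracted -/
theorem up1 (hJ : Fm σ J β) {C m C₂ Cz : ℝ} {M : Matrix n n k} (hM : Nw σ J C m M)
    {η ζ : n → k} (hC₂ : 1 ≤ C₂) (hη : ‖M *ᵥ η‖ * m ≤ C₂) (hζ : hf σ J η ζ = 1) (hz : ‖ζ‖ ≤ Cz)
    (v : n → k) : ‖M *ᵥ v‖ ≤
      (C * Cz + C * Cz * (β * (2 * C * Cz * (β * C₂)) * C₂) + 2 * C * Cz * (β * C₂)) *
        (m * ‖hf σ J v η‖ + ‖v‖) := by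
  letI : MeasurableSpace k := ⊤
  have hC := hM.C1
  have hm := hM.m1
  have hβ := hJ.b1
  have hm0 : 0 < m := by linarith
  have hCz : 0 ≤ Cz := (norm_nonneg _).trans hz
  -- the expanded vector
  have e1 : (1 : ℝ) ≤ β * (‖M *ᵥ η‖ * ‖M *ᵥ ζ‖) := by
    have h1 := hJ.bd (M *ᵥ η) (M *ᵥ ζ)
    rwa [hM.iso, hζ, norm_one] at h1
  have e2 : m ≤ β * C₂ * ‖M *ᵥ ζ‖ := by
    calc m = m * 1 := (mul_one m).symm
      _ ≤ m * (β * (‖M *ᵥ η‖ * ‖M *ᵥ ζ‖)) := by gcongr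
      _ = β * (‖M *ᵥ η‖ * m) * ‖M *ᵥ ζ‖ := by ring
      _ ≤ β * C₂ * ‖M *ᵥ ζ‖ := by gcongr
  have hζ0 : 0 < ‖M *ᵥ ζ‖ := by
    by_contra hc
    have h0 : ‖M *ᵥ ζ‖ = 0 := le_antisymm (not_lt.1 hc) (norm_nonneg _)
    rw [h0, mul_zero] at e2
    linarith
  obtain ⟨b, hb⟩ : ∃ b, ‖M *ᵥ ζ‖ ≤ ‖(M *ᵥ ζ) b‖ := by
    haveI : Nonempty n := by
      by_contra hc
      haveI := not_nonempty_iff.1 hc
      have : M *ᵥ ζ = 0 := Subsingleton.elim _ _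
      rw [this, norm_zero] at hζ0
      exact lt_irrefl _ hζ0
    obtain ⟨b, -, hb⟩ := Finset.exists_max_image Finset.univ (fun i => ‖(M *ᵥ ζ) i‖)
      Finset.univ_nonempty
    exact ⟨b, (pi_norm_le_iff_of_nonneg (norm_nonneg _)).2 fun i => hb i (Finset.mem_univ i)⟩
  have hb0 : (M *ᵥ ζ) b ≠ 0 := fun h => by rw [h, norm_zero] at hb; linarith
  -- decomposition of the image
  set α : k := (M *ᵥ v) b / (M *ᵥ ζ) b with hα
  set e : n → k := M *ᵥ v - α • (M *ᵥ ζ) with he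
  have e3 : ‖e‖ * ‖M *ᵥ ζ‖ ≤ 2 * C * Cz * m * ‖v‖ := by
    have h1 : ‖(M *ᵥ ζ) b‖ * ‖e‖ ≤ ‖wd (M *ᵥ v) (M *ᵥ ζ)‖ := by
      rw [← norm_smul]
      refine (pi_norm_le_iff_of_nonneg (norm_nonneg _)).2 fun i => ?_
      have h2 := norm_le_pi_norm (wd (M *ᵥ v) (M *ᵥ ζ)) (i, b)
      have h3 : wd (M *ᵥ v) (M *ᵥ ζ) (i, b) = ((M *ᵥ ζ) b • e) i := by
        simp only [wd, he, hα, Pi.smul_apply, Pi.sub_apply, smul_eq_mul]
        field_simp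
      rwa [h3] at h2
    have h4 : ‖wd (M *ᵥ v) (M *ᵥ ζ)‖ ≤ C * m * (2 * (‖v‖ * ‖ζ‖)) := by
      rw [← sq_wd]
      refine (hM.u2 _ (alt_wd v ζ)).trans ?_
      exact mul_le_mul_of_nonneg_left (wd_le v ζ) (by positivity)
    calc ‖e‖ * ‖M *ᵥ ζ‖ ≤ ‖e‖ * ‖(M *ᵥ ζ) b‖ := by gcongr
      _ = ‖(M *ᵥ ζ) b‖ * ‖e‖ := mul_comm _ _
      _ ≤ C * m * (2 * (‖v‖ * ‖ζ‖)) := h1.trans h4
      _ ≤ C * m * (2 * (‖v‖ * Cz)) := by gcongr
      _ = _ := by ring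
  have e4 : ‖e‖ ≤ 2 * C * Cz * (β * C₂) * ‖v‖ := by
    have h1 : ‖e‖ * m ≤ 2 * C * Cz * (β * C₂) * ‖v‖ * m := by
      calc ‖e‖ * m ≤ ‖e‖ * (β * C₂ * ‖M *ᵥ ζ‖) := by gcongr
        _ = β * C₂ * (‖e‖ * ‖M *ᵥ ζ‖) := by ring
        _ ≤ β * C₂ * (2 * C * Cz * m * ‖v‖) := by gcongr
        _ = _ := by ring
    exact le_of_mul_le_mul_right h1 hm0
  set D := 2 * C * Cz * (β * C₂) with hD
  have hD0 : 0 ≤ D := by positivity
  have e5 : ‖α‖ ≤ ‖hf σ J v η‖ + β * (D * ‖v‖) * ‖M *ᵥ η‖ := by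
    have h1 : hf σ J v η = α * hf σ J ζ η + hf σ J e (M *ᵥ η) := by
      rw [← hM.iso v η, ← hM.iso ζ η, ← hf_smul_left, ← hf_add_left]
      congr 1
      rw [he]; abel
    have h2 : ‖hf σ J ζ η‖ = 1 := by rw [hJ.sym, hζ, norm_one]
    have h3 : ‖α‖ = ‖hf σ J v η - hf σ J e (M *ᵥ η)‖ := by
      rw [h1, add_sub_cancel_right, norm_mul, h2, mul_one]
    rw [h3]
    refine (norm_sub_le _ _).trans (add_le_add le_rfl ?_)
    refine (hJ.bd _ _).trans ?_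
    calc β * (‖e‖ * ‖M *ᵥ η‖) ≤ β * (D * ‖v‖ * ‖M *ᵥ η‖) := by gcongr
      _ = _ := by ring
  have e6 : ‖M *ᵥ ζ‖ ≤ C * m * Cz := (hM.u1 ζ).trans (by gcongr)
  have e7 : ‖M *ᵥ v‖ ≤ ‖α‖ * ‖M *ᵥ ζ‖ + ‖e‖ := by
    have h1 : M *ᵥ v = α • (M *ᵥ ζ) + e := by rw [he]; abel
    conv_lhs => rw [h1]
    exact (norm_add_le _ _).trans (by rw [norm_smul])
  have hv := norm_nonneg v
  have hh := norm_nonneg (hf σ J v η)
  calc ‖M *ᵥ v‖ ≤ ‖α‖ * ‖M *ᵥ ζ‖ + ‖e‖ := e7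
    _ ≤ (‖hf σ J v η‖ + β * (D * ‖v‖) * ‖M *ᵥ η‖) * (C * m * Cz) + D * ‖v‖ := by
        gcongr
    _ = C * Cz * (m * ‖hf σ J v η‖) + C * Cz * (β * D * (‖M *ᵥ η‖ * m)) * ‖v‖ + D * ‖v‖ := by ring
    _ ≤ C * Cz * (m * ‖hf σ J v η‖) + C * Cz * (β * D * C₂) * ‖v‖ + D * ‖v‖ := by gcongr
    _ ≤ _ := by
        have a1 : 0 ≤ m * ‖hf σ J v η‖ := by positivity
        have a2 : 0 ≤ C * Cz := by positivity
        have a3 : 0 ≤ C * Cz * (β * D * C₂) := by positivity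
        nlinarith [mul_nonneg a2 hv, mul_nonneg a3 a1, mul_nonneg hD0 a1]

/-- a point which is close to the contracted point at the last scale is contracted -/
theorem near_cap (hJ : Fm σ J β) {C m C₂ Cz : ℝ} {M : Matrix n n k} (hM : Nw σ J C m M)
    {η ζ : n → k} (hC₂ : 1 ≤ C₂) (hη : ‖M *ᵥ η‖ * m ≤ C₂) (hζ : hf σ J η ζ = 1) (hz : ‖ζ‖ ≤ Cz)
    (hηN : Nrm η) (hηη : hf σ J η η = 0) {x : n → k} (hx : ‖x‖ ≤ 1) {a' b' t T : ℝ}
    (ha : 0 ≤ a') (hb : 0 ≤ b') (ht : 0 ≤ t) (hT : m * t ≤ T)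
    (h1 : ‖wd x η‖ ≤ a' * t) (h2 : ‖hf σ J x η‖ ≤ b' * t ^ 2) :
    m * ‖M *ᵥ x‖ ≤ C₂ + (C * Cz + C * Cz * (β * (2 * C * Cz * (β * C₂)) * C₂) +
      2 * C * Cz * (β * C₂)) * (b' * T ^ 2 + a' * T) := by
  letI : MeasurableSpace k := ⊤
  have hC := hM.C1
  have hm := hM.m1
  have hβ := hJ.b1
  have hCz : 0 ≤ Cz := (norm_nonneg _).trans hz
  have hT0 : 0 ≤ T := le_trans (by positivity) hT
  obtain ⟨b, hb1⟩ := hηN.2
  set e : n → k := x - x b • η with he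
  have e1 : ‖e‖ ≤ a' * t := (dec hb1).trans h1
  have e2 : hf σ J e η = hf σ J x η := by
    rw [he, hf_sub_left, hf_smul_left, hηη, mul_zero, sub_zero]
  have e3 := up1 hJ hM hC₂ hη hζ hz e
  rw [e2] at e3
  set Q := C * Cz + C * Cz * (β * (2 * C * Cz * (β * C₂)) * C₂) + 2 * C * Cz * (β * C₂) with hQ
  have hQ0 : 0 ≤ Q := by positivity
  have hxb : ‖x b‖ ≤ 1 := (norm_le_pi_norm x b).trans hx
  have e4 : ‖M *ᵥ x‖ ≤ ‖x b‖ * ‖M *ᵥ η‖ + ‖M *ᵥ e‖ := by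
    have h3 : M *ᵥ x = x b • (M *ᵥ η) + M *ᵥ e := by
      rw [← Matrix.mulVec_smul, ← Matrix.mulVec_add, he]
      congr 1; abel
    rw [h3]
    exact (norm_add_le _ _).trans (by rw [norm_smul])
  calc m * ‖M *ᵥ x‖ ≤ m * (1 * ‖M *ᵥ η‖ + Q * (m * (b' * t ^ 2) + a' * t)) := by
        have h5 : ‖M *ᵥ e‖ ≤ Q * (m * (b' * t ^ 2) + a' * t) := e3.trans (by gcongr)
        have h6 : ‖x b‖ * ‖M *ᵥ η‖ ≤ 1 * ‖M *ᵥ η‖ := by gcongr
        gcongr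
        linarith
    _ = ‖M *ᵥ η‖ * m + Q * (b' * (m * t) ^ 2 + a' * (m * t)) := by ring
    _ ≤ C₂ + Q * (b' * T ^ 2 + a' * T) := by gcongr

end Vale.Agent.P092.H261.K3
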