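import Vale.Agent.P092.H261.K3b
import Vale.Agent.P092.H914.NJB
import Vale.Agent.P092.CL.Defs

/-!
P092 (helper261), COUNT_1 FOR FORMS, outer half, part 3: from one shell to the polynomial count, in
the letters of `CL/Defs` (any `Lt` with a model `Mdl` in terms of matrices).
-/

set_option linter.all false

open scoped InnerProductSpace ENNReal LinearAlgebra.Projectivization ZeroAtInfty Matrix
open Filter Topology ContinuousLinearMap MeasureTheory TopologicalSpace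

namespace Vale.Agent.P092.H261.K3

open Vale.Agent.P092.CL (Lt)
open Vale.Agent.P092.H464 (Pv CI)
open Vale.Agent.P092.H464.PW (dec nrm_one)
open Vale.Agent.P092.H589.K2 (Nrm Opf Cells)
open Vale.Agent.P092.H589.Mu (Cap)
open Vale.Agent.P092.H835.PlF (Alt w3 sq)
open Vale.Agent.P092.H820 (wd)
open Vale.Agent.P092.H714.Cl (hf)
open Vale.Agent.P092.H217.F (Fm An Nw Near Lcf Iso2)
open Vale.Agent.P092.H914 (OpfStmt)

variable {k : Type} [NontriviallyNormedField k] {n : Type} [Fintype n] [DecidableEq n]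
  {S P M V₁ V₂ : Type} [Group S] [MeasurableSpace V₁] [MeasurableSpace V₂]

/-- A model of the letters by matrices: `ta g` = the matrix of `g`, `s x` = a vector of the point
`x`, `p y` = the 2-vector of the line `y`. -/
structure Mdl [MeasurableSpace k] [MulAction S P] [TopologicalSpace P] [MeasurableSpace P]
    [MulAction S M] [TopologicalSpace M] [MeasurableSpace M]
    (L : Lt S P M V₁ V₂) (σ : k →+* k) (J : Matrix n n k) (ta : S → Matrix n n k) (s : P → n → k)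
    (p : M → n × n → k) : Prop where
  hs : Measurable s
  hp : Measurable p
  hsn : ∀ x, Nrm (s x)
  hsi : ∀ x, hf σ J (s x) (s x) = 0
  hpn : ∀ y, Nrm (p y)
  hpi : ∀ y, Iso2 σ J (p y)
  hI : IsClosed {z : P × M | L.In z.1 z.2}
  hw3 : ∀ x y, L.In x y → w3 (s x) (p y) = 0
  ax : ∀ g x, ∃ c : k, c ≠ 0 ∧ s (g • x) = c • (ta g *ᵥ s x)
  ay : ∀ g y, ∃ c : k, c ≠ 0 ∧ p (g • y) = c • (sq (ta g) *ᵥ p y)
  /-- near-wall elements -/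
  nw : ∀ R : ℝ, ∃ C, 1 ≤ C ∧ ∀ (T : ℝ) (A : Set P) (g : S) (m : ℝ), g ∈ L.NA1 R T A → 1 ≤ m →
    L.nm g ≤ m → m ≤ Real.exp 1 * L.nm g → Nw σ J C m (ta g)
  /-- capacity -/
  cap : ∀ {Γ : Type} (q : Γ → S), L.UD q → ∀ R : ℝ, ∃ Nc : ℝ → ℕ, ∀ (T : ℝ) (A : Set P) (m : ℝ),
    1 ≤ m → ∀ Sf : Finset Γ, (∀ γ ∈ Sf, q γ ∈ L.NA1 R T A ∧ L.nm (q γ) ≤ m ∧
      m ≤ Real.exp 1 * L.nm (q γ)) → ∀ (D : ℝ) (x : n → k), x ≠ 0 → hf σ J x x = 0 →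
      (∀ γ ∈ Sf, m * ‖ta (q γ) *ᵥ x‖ ≤ D * ‖x‖) → Sf.card ≤ Nc D
  /-- elements of bounded size -/
  ball : ∀ {Γ : Type} (q : Γ → S), L.UD q → ∀ R : ℝ, ∃ N : ℕ, ∀ Sf : Finset Γ,
    (∀ γ ∈ Sf, L.nm (q γ) ≤ R) → Sf.card ≤ N
  /-- localisation -/
  loc : ∀ (R : ℝ) (A B : Set P), IsClosed A → IsClosed B →
    (∀ x ∈ A, ∀ x' ∈ B, ∀ y, L.In x y → ¬ L.In x' y) → ∃ T > 0, ∃ D : ℝ, 1 ≤ D ∧
    ∀ g ∈ L.NA1 R T A, ∀ x, g • x ∈ B → L.nm g * ‖ta g *ᵥ s x‖ ≤ D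
  /-- more attracting points -/
  mono : ∀ (R T : ℝ) (A A' : Set P), A ⊆ A' → L.NA1 R T A ⊆ L.NA1 R T A'

variable [MulAction S P] [TopologicalSpace P] [CompactSpace P] [MetrizableSpace P]
  [ContinuousConstSMul S P] [MeasurableSpace P] [BorelSpace P]
  [MulAction S M] [TopologicalSpace M] [CompactSpace M] [MetrizableSpace M]
  [ContinuousConstSMul S M] [MeasurableSpace M] [BorelSpace M] {L : Lt S P M V₁ V₂}
  {σ : k →+* k} {J : Matrix n n k} {ta : S → Matrix n n k} {s : P → n → k} {p : M → n × n → k}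

theorem norm_act_le (g : S) (f : C(P, ℂ)) : ‖CL.act g f‖ ≤ ‖f‖ :=
  (ContinuousMap.norm_le _ (norm_nonneg _)).2 fun _ => f.norm_coe_le_norm _

theorem tsupport_act' (g : S) (f : C(P, ℂ)) {x : P} (hx : x ∈ tsupport (CL.act g⁻¹ f)) :
    g • x ∈ tsupport f := by
  have h := tsupport_comp_subset_preimage (f : P → ℂ) (continuous_const_smul (g⁻¹)⁻¹) (a := x) hx
  rw [Set.mem_preimage, _root_.inv_inv] at h
  exact h

theorem sum_biU_le {α β : Type*} [DecidableEq β] (I : Finset α) (t : α → Finset β) (a : β → ℝ)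
    (ha : ∀ x, 0 ≤ a x) : ∑ x ∈ I.biUnion t, a x ≤ ∑ i ∈ I, ∑ x ∈ t i, a x := by
  classical
  induction I using Finset.induction_on with
  | empty => simp
  | insert i I hi ih =>
    rw [Finset.biUnion_insert, Finset.sum_insert hi]
    have h1 := Finset.sum_union_inter (s₁ := t i) (s₂ := I.biUnion t) (f := a)
    have h2 : 0 ≤ ∑ x ∈ t i ∩ I.biUnion t, a x := Finset.sum_nonneg fun _ _ => ha _
    linarith

/-- **One shell.** -/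
theorem shell [MeasurableSpace k] [BorelSpace k] [ProperSpace k]
    (hd : Mdl L σ J ta s p) (hk : Ka3Stmt σ J)
    (ho : OpfStmt) {Γ K : Type} [NormedAddCommGroup K] [InnerProductSpace ℂ K] [CompleteSpace K]
    {φ : (n × n → k) → ℂ} {CF : ℝ} (hφ : Hb φ CF) (hu : U3Stmt K σ J φ)
    (q : Γ → S) (hud : L.UD q) (b z : C(P, ℂ) →⋆ₐ[ℂ] (K →L[ℂ] K))
    (ν l : C(M, ℂ) →⋆ₐ[ℂ] (K →L[ℂ] K)) (hbν : H796.PL L.In b ν) (hzν : H796.PL L.In z ν)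
    (hzl : H796.PL L.In z l) (R : ℝ) (A : Set P) (f : C(P, ℂ)) (G : C(M, ℂ))
    (hG : ∀ y, G y = φ (p y))
    (hfA : ∀ x ∈ closure A, ∀ x' ∈ tsupport f, ∀ y, L.In x y → ¬ L.In x' y) :
    ∃ T > 0, ∃ (C : ℝ) (d : ℕ), 0 ≤ C ∧
      ∀ (i : ℕ) (Sf : Finset Γ), (∀ γ ∈ Sf, q γ ∈ L.NA1 R T A ∧ Real.exp i ≤ L.nm (q γ) ∧
          L.nm (q γ) ≤ Real.exp (i + 1)) →
        ∀ ξ : K, ∑ γ ∈ Sf, ‖b (CL.act (q γ)⁻¹ f) (l (CL.act (q γ)⁻¹ G) ξ)‖ ^ 2 ≤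
          C * (1 + i) ^ d * ‖ξ‖ ^ 2 := by
  classical
  obtain ⟨T₀, hT₀, D, hD, hloc⟩ := hd.loc R (closure A) (tsupport (f : P → ℂ)) isClosed_closure
    (isClosed_tsupport _) hfA
  obtain ⟨Cn, hCn, hnw⟩ := hd.nw R
  obtain ⟨Nc, hNc⟩ := hd.cap q hud R
  set C₁ : ℝ := max Cn (Real.exp 1 * D) with hC₁
  have hC1 : 1 ≤ C₁ := hCn.trans (le_max_left _ _)
  have hCD : Real.exp 1 * D ≤ C₁ := le_max_right _ _
  obtain ⟨C, e, hC, hka⟩ := hk K hφ hu C₁ hC1 Nc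
  refine ⟨T₀, hT₀, C ^ 2 * 4 ^ e * (Nc C₁ * ‖f‖ ^ 2), 2 * e, by positivity, ?_⟩
  intro i Sf hS ξ
  set m : ℝ := Real.exp (i + 1) with hm
  have hm0 : 0 < m := Real.exp_pos _
  have hm1 : 1 ≤ m := Real.one_le_exp (by positivity)
  have hme : ∀ γ ∈ Sf, m ≤ Real.exp 1 * L.nm (q γ) := fun γ hγ => by
    obtain ⟨h1, h2, h3⟩ := hS γ hγ
    rw [hm, Real.exp_add, mul_comm]
    exact mul_le_mul_of_nonneg_left h2 (Real.exp_pos _).le
  have hnW : ∀ γ ∈ Sf, Nw σ J C₁ m (ta (q γ)) := fun γ hγ => by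
    obtain ⟨h1, h2, h3⟩ := hS γ hγ
    have h := hnw T₀ A (q γ) m h1 hm1 h3 (hme γ hγ)
    have hle : Cn ≤ C₁ := le_max_left _ _
    exact ⟨hC1, hm1, h.iso, fun v => (h.u1 v).trans (by gcongr),
      fun Q hQ => (h.u2 Q hQ).trans (by gcongr)⟩
  have hcon : ∀ γ ∈ Sf, ∀ x, q γ • x ∈ tsupport f → m * ‖ta (q γ) *ᵥ s x‖ ≤ C₁ :=
    fun γ hγ x hx => by
    obtain ⟨h1, h2, h3⟩ := hS γ hγ
    have h4 := hloc (q γ) (hd.mono _ _ _ _ subset_closure h1) x hx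
    calc m * ‖ta (q γ) *ᵥ s x‖ ≤ Real.exp 1 * L.nm (q γ) * ‖ta (q γ) *ᵥ s x‖ :=
          mul_le_mul_of_nonneg_right (hme γ hγ) (norm_nonneg _)
      _ = Real.exp 1 * (L.nm (q γ) * ‖ta (q γ) *ᵥ s x‖) := by ring
      _ ≤ Real.exp 1 * D := mul_le_mul_of_nonneg_left h4 (Real.exp_pos _).le
      _ ≤ C₁ := hCD
  have hcard : ∀ (D : ℝ) (x : n → k), x ≠ 0 → hf σ J x x = 0 → ∀ S' ⊆ Sf,
      (∀ γ ∈ S', m * ‖ta (q γ) *ᵥ x‖ ≤ D * ‖x‖) → S'.card ≤ Nc D :=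
    fun D x hx hxx S' hS' h => hNc T₀ A m hm1 S' (fun γ hγ =>
      ⟨(hS γ (hS' hγ)).1, (hS γ (hS' hγ)).2.2, hme γ (hS' hγ)⟩) D x hx hxx h
  -- the operators
  have hCI : ∀ (x : C(P, ℂ) →⋆ₐ[ℂ] (K →L[ℂ] K)) (y : C(M, ℂ) →⋆ₐ[ℂ] (K →L[ℂ] K)),
      H796.PL L.In x y → CI L.In (H466.pv x) (H466.pv y) := fun x y h =>
    H604.pv_CI x y hd.hI (fun f g => h.com f g) fun f g hfg => h.inc f g hfg
  have hs1 : ∀ x, ‖s x‖ = 1 := fun x => nrm_one (hd.hsn x)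
  have hs0 : ∀ x, s x ≠ 0 := fun x h => by
    have := hs1 x
    rw [h, norm_zero] at this
    exact zero_ne_one this
  have hcapS : Cap Sf (fun γ => b (CL.act (q γ)⁻¹ f)) (Real.sqrt (Nc C₁ * ‖f‖ ^ 2)) := by
    intro v
    rw [Real.sq_sqrt (by positivity)]
    refine H218.sum_sq_le b Sf (fun γ => CL.act (q γ)⁻¹ f) (by positivity) (fun x => ?_) v
    have hc : (Sf.filter fun γ => q γ • x ∈ tsupport f).card ≤ Nc C₁ := by
      refine hcard C₁ (s x) (hs0 x) (hd.hsi x) _ (Finset.filter_subset _ _) fun γ hγ => ?_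
      obtain ⟨h1, h2⟩ := Finset.mem_filter.1 hγ
      rw [hs1, mul_one]
      exact hcon γ h1 x h2
    have hsum : ∑ γ ∈ Sf, ‖(CL.act (q γ)⁻¹ f) x‖ ^ 2 ≤
        ∑ γ ∈ Sf.filter (fun γ => q γ • x ∈ tsupport f), ‖f‖ ^ 2 := by
      rw [Finset.sum_filter]
      refine Finset.sum_le_sum fun γ hγ => ?_
      have e1 : (CL.act (q γ)⁻¹ f) x = f (q γ • x) := by
        change f (((q γ)⁻¹)⁻¹ • x) = _
        rw [_root_.inv_inv]
      rw [e1]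
      split_ifs with hc
      · exact pow_le_pow_left₀ (norm_nonneg _) (f.norm_coe_le_norm _) 2
      · rw [image_eq_zero_of_notMem_tsupport hc, norm_zero, zero_pow two_ne_zero]
    refine hsum.trans ?_
    rw [Finset.sum_const, nsmul_eq_mul]
    have h5 : ((Sf.filter fun γ => q γ • x ∈ tsupport f).card : ℝ) ≤ Nc C₁ := by
      exact_mod_cast hc
    gcongr
  have d : KD σ J φ C₁ Nc s p L.In b z l ν Sf (fun γ => ta (q γ)) m
      (fun γ => tsupport (CL.act (q γ)⁻¹ f)) (fun γ => b (CL.act (q γ)⁻¹ f))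
      (fun γ => l (CL.act (q γ)⁻¹ G)) (fun γ y => (CL.act (q γ)⁻¹ G) y)
      (Real.sqrt (Nc C₁ * ‖f‖ ^ 2)) :=
    { hs := hd.hs
      hp := hd.hp
      hsn := hd.hsn
      hsi := hd.hsi
      hpn := hd.hpn
      hpi := hd.hpi
      hInc := hd.hI
      hw3 := hd.hw3
      hbn := hCI b ν hbν
      hzn := hCI z ν hzν
      hzl := hCI z l hzl
      hm := hm1
      hNW := hnW
      hcap := hcard
      hBs := fun γ _ => isClosed_tsupport _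
      hBc := fun γ hγ x hx => hcon γ hγ x (tsupport_act' (q γ) f hx)
      hN := Real.sqrt_nonneg _
      hEB := fun γ _ => H466.phi_pv_supp b (isClosed_tsupport _).measurableSet
        fun x hx => image_eq_zero_of_notMem_tsupport hx
      hEn := fun γ _ A _ => H466.pv_commute ν (fun g => hbν.com _ g) A
      hE := hcapS
      hF := fun γ hγ y => by
        change G (((q γ)⁻¹)⁻¹ • y) = _
        rw [_root_.inv_inv, hG]
        obtain ⟨c, hc, h⟩ := hd.ay (q γ) y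
        rw [h, hφ.hom c _ hc]
      hW := fun γ _ => ho K _ l _
      hWz := fun γ _ A _ => H466.pv_commute z (fun g => (hzl.com g _).symm) A }
  have h1 := hka P M s p L.In b z l ν Γ Sf (fun γ => ta (q γ)) m
    (fun γ => tsupport (CL.act (q γ)⁻¹ f)) (fun γ => b (CL.act (q γ)⁻¹ f))
    (fun γ => l (CL.act (q γ)⁻¹ G)) (fun γ y => (CL.act (q γ)⁻¹ G) y)
    (Real.sqrt (Nc C₁ * ‖f‖ ^ 2)) d ξ
  refine h1.trans ?_
  rw [mul_pow, mul_pow, Real.sq_sqrt (by positivity)]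
  have h2 : 1 + Real.log m ≤ 2 * (1 + (i : ℝ)) := by
    rw [hm, Real.log_exp]
    have : (0 : ℝ) ≤ i := Nat.cast_nonneg i
    linarith
  have h3 : 0 ≤ 1 + Real.log m := by
    have := Real.log_nonneg hm1
    linarith
  have h5 : ((1 + Real.log m) ^ e) ^ 2 ≤ 4 ^ e * (1 + (i : ℝ)) ^ (2 * e) := by
    calc ((1 + Real.log m) ^ e) ^ 2 ≤ ((2 * (1 + (i : ℝ))) ^ e) ^ 2 := by gcongr
      _ = _ := by
        rw [mul_pow, mul_pow, ← pow_mul, ← pow_mul, mul_comm e 2]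
        congr 1
        rw [pow_mul]; norm_num
  calc C ^ 2 * ((1 + Real.log m) ^ e) ^ 2 * (Nc C₁ * ‖f‖ ^ 2) * ‖ξ‖ ^ 2
      ≤ C ^ 2 * (4 ^ e * (1 + (i : ℝ)) ^ (2 * e)) * (Nc C₁ * ‖f‖ ^ 2) * ‖ξ‖ ^ 2 := by gcongr
    _ = _ := by ring

/-- **COUNT_1** for a model. -/
theorem count1_of [MeasurableSpace k] [BorelSpace k] [ProperSpace k]
    (hd : Mdl L σ J ta s p) (hk : Ka3Stmt σ J)
    (ho : OpfStmt) {Γ K : Type} [NormedAddCommGroup K] [InnerProductSpace ℂ K] [CompleteSpace K]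
    {φ : (n × n → k) → ℂ} {CF : ℝ} (hφ : Hb φ CF) (hu : U3Stmt K σ J φ)
    (q : Γ → S) (hud : L.UD q) (b z : C(P, ℂ) →⋆ₐ[ℂ] (K →L[ℂ] K))
    (ν l : C(M, ℂ) →⋆ₐ[ℂ] (K →L[ℂ] K)) (hbν : H796.PL L.In b ν) (hzν : H796.PL L.In z ν)
    (hzl : H796.PL L.In z l) (R : ℝ) (A : Set P) (f : C(P, ℂ)) (G : C(M, ℂ))
    (hG : ∀ y, G y = φ (p y))
    (hfA : ∀ x ∈ closure A, ∀ x' ∈ tsupport f, ∀ y, L.In x y → ¬ L.In x' y) :
    ∃ T > 0, ∃ (C : ℝ) (d : ℕ), ∀ J' : ℝ, 0 ≤ J' → ∀ Sf : Finset Γ,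
      (∀ γ ∈ Sf, q γ ∈ L.NA1 R T A ∧ Real.log (L.nm (q γ)) ≤ J') →
      ∀ ξ : K, ∑ γ ∈ Sf, ‖b (CL.act (q γ)⁻¹ f) (l (CL.act (q γ)⁻¹ G) ξ)‖ ^ 2 ≤
        C * (1 + J') ^ d * ‖ξ‖ ^ 2 := by
  classical
  obtain ⟨T, hT, C, d, hC, h⟩ := shell hd hk ho hφ hu q hud b z ν l hbν hzν hzl R A f G hG hfA
  obtain ⟨N₀, hN₀⟩ := hd.ball q hud 1
  refine ⟨T, hT, 2 * C + N₀ * (‖f‖ * ‖G‖) ^ 2, d + 1, fun J' hJ' Sf hS ξ => ?_⟩
  set a : Γ → ℝ := fun γ => ‖b (CL.act (q γ)⁻¹ f) (l (CL.act (q γ)⁻¹ G) ξ)‖ ^ 2 with ha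
  have ha0 : ∀ γ, 0 ≤ a γ := fun γ => sq_nonneg _
  -- the shell of an element
  set S₀ := Sf.filter fun γ => L.nm (q γ) ≤ 1 with hS₀
  set Si : ℕ → Finset Γ := fun i => Sf.filter fun γ => Real.exp i ≤ L.nm (q γ) ∧
    L.nm (q γ) ≤ Real.exp (i + 1) with hSi
  set I := ⌊J'⌋₊ + 1 with hI
  have hcov : Sf ⊆ S₀ ∪ (Finset.range I).biUnion Si := by
    intro γ hγ
    rw [Finset.mem_union]
    by_cases h1 : L.nm (q γ) ≤ 1
    · exact Or.inl (Finset.mem_filter.2 ⟨hγ, h1⟩)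
    · right
      push Not at h1
      have h0 : 0 < L.nm (q γ) := by linarith
      have hl : 0 ≤ Real.log (L.nm (q γ)) := Real.log_nonneg h1.le
      rw [Finset.mem_biUnion]
      refine ⟨⌊Real.log (L.nm (q γ))⌋₊, ?_, Finset.mem_filter.2 ⟨hγ, ?_, ?_⟩⟩
      · rw [Finset.mem_range, hI, Nat.lt_succ_iff]
        exact Nat.floor_le_floor (hS γ hγ).2
      · rw [← Real.le_log_iff_exp_le h0]
        exact Nat.floor_le hl
      · rw [← Real.log_le_iff_le_exp h0]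
        exact (Nat.lt_floor_add_one _).le
  have h0 : ∑ γ ∈ S₀, a γ ≤ N₀ * (‖f‖ * ‖G‖) ^ 2 * ‖ξ‖ ^ 2 := by
    have h1 : ∀ γ ∈ S₀, a γ ≤ (‖f‖ * ‖G‖) ^ 2 * ‖ξ‖ ^ 2 := by
      intro γ _
      rw [← mul_pow]
      refine pow_le_pow_left₀ (norm_nonneg _) ?_ 2
      have h1 : ‖b (CL.act (q γ)⁻¹ f)‖ ≤ ‖f‖ :=
        (NonUnitalStarAlgHom.norm_apply_le b _).trans (norm_act_le _ _)
      have h2 : ‖l (CL.act (q γ)⁻¹ G)‖ ≤ ‖G‖ :=
        (NonUnitalStarAlgHom.norm_apply_le l _).trans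
          ((ContinuousMap.norm_le _ (norm_nonneg _)).2 fun _ => G.norm_coe_le_norm _)
      calc _ ≤ ‖b (CL.act (q γ)⁻¹ f)‖ * ‖l (CL.act (q γ)⁻¹ G) ξ‖ :=
            ContinuousLinearMap.le_opNorm _ _
        _ ≤ ‖f‖ * (‖G‖ * ‖ξ‖) := by
            refine mul_le_mul h1 ?_ (norm_nonneg _) (norm_nonneg _)
            exact (ContinuousLinearMap.le_opNorm _ _).trans
              (mul_le_mul_of_nonneg_right h2 (norm_nonneg _))
        _ = _ := by ring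
    refine (Finset.sum_le_sum h1).trans ?_
    rw [Finset.sum_const, nsmul_eq_mul, ← mul_assoc]
    have h2 : (S₀.card : ℝ) ≤ N₀ := by
      exact_mod_cast hN₀ S₀ fun γ hγ => (Finset.mem_filter.1 hγ).2
    gcongr
  have hi : ∀ i ∈ Finset.range I, ∑ γ ∈ Si i, a γ ≤ C * (1 + J') ^ d * ‖ξ‖ ^ 2 := by
    intro i hi
    have h1 := h i (Si i) (fun γ hγ => ⟨(hS γ (Finset.mem_filter.1 hγ).1).1,
      (Finset.mem_filter.1 hγ).2⟩) ξ
    refine h1.trans ?_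
    have h2 : (i : ℝ) ≤ J' := by
      have h3 : i ≤ ⌊J'⌋₊ := Nat.lt_succ_iff.1 (Finset.mem_range.1 hi)
      exact (Nat.cast_le.2 h3).trans (Nat.floor_le hJ')
    gcongr
  calc ∑ γ ∈ Sf, a γ ≤ ∑ γ ∈ S₀ ∪ (Finset.range I).biUnion Si, a γ :=
        Finset.sum_le_sum_of_subset_of_nonneg hcov fun _ _ _ => ha0 _
    _ ≤ ∑ γ ∈ S₀, a γ + ∑ γ ∈ (Finset.range I).biUnion Si, a γ := by
        rw [← Finset.sum_union_inter]
        have : 0 ≤ ∑ γ ∈ S₀ ∩ (Finset.range I).biUnion Si, a γ :=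
          Finset.sum_nonneg fun _ _ => ha0 _
        linarith
    _ ≤ N₀ * (‖f‖ * ‖G‖) ^ 2 * ‖ξ‖ ^ 2 + ∑ i ∈ Finset.range I, ∑ γ ∈ Si i, a γ :=
        add_le_add h0 (sum_biU_le _ _ _ ha0)
    _ ≤ N₀ * (‖f‖ * ‖G‖) ^ 2 * ‖ξ‖ ^ 2 + ∑ _i ∈ Finset.range I, C * (1 + J') ^ d * ‖ξ‖ ^ 2 :=
        add_le_add le_rfl (Finset.sum_le_sum hi)
    _ = N₀ * (‖f‖ * ‖G‖) ^ 2 * ‖ξ‖ ^ 2 + I * (C * (1 + J') ^ d * ‖ξ‖ ^ 2) := by
        rw [Finset.sum_const, Finset.card_range, nsmul_eq_mul]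
    _ ≤ N₀ * (‖f‖ * ‖G‖) ^ 2 * ‖ξ‖ ^ 2 * (1 + J') ^ (d + 1) +
          (2 * (1 + J')) * (C * (1 + J') ^ d * ‖ξ‖ ^ 2) := by
        have h1 : (1 : ℝ) ≤ (1 + J') ^ (d + 1) := one_le_pow₀ (by linarith)
        have h2 : (I : ℝ) ≤ 2 * (1 + J') := by
          rw [hI]; push_cast
          have := Nat.floor_le hJ'
          linarith
        have h3 : 0 ≤ N₀ * (‖f‖ * ‖G‖) ^ 2 * ‖ξ‖ ^ 2 := by positivity
        have h4 : 0 ≤ C * (1 + J') ^ d * ‖ξ‖ ^ 2 := by positivity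
        exact add_le_add (le_mul_of_one_le_right h3 h1) (mul_le_mul_of_nonneg_right h2 h4)
    _ = _ := by ring

end Vale.Agent.P092.H261.K3
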