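import Vale.Agent.P092.H261.K3c
import Vale.Agent.P092.H416.CLinc
import Vale.Agent.P092.H315P.G4
import Vale.Agent.P092.H914.Fin0
import Vale.Agent.P092.CL.Lt

/-!
P092 (helper261), COUNT_1 FOR FORMS, outer half, part 4: sections of the points and of the lines of
a form, elementary facts about `ta g`, near-wall elements, capacity, localisation.
-/

set_option linter.all false

open scoped InnerProductSpace ENNReal LinearAlgebra.Projectivization ZeroAtInfty Matrix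
open Filter Topology ContinuousLinearMap MeasureTheory TopologicalSpace Module Matrix

namespace Vale.Agent.P092.H261.K3

open Vale.Agent.P092.CL (Lt ta nmM NW1 AttS)
open Vale.Agent.P092.H589.K2 (Nrm Opf Cells)
open Vale.Agent.P092.H835.PlF (Alt w3 sq)
open Vale.Agent.P092.H835.PlGr (plk mem_iff rep_line rep_alt plk_of_mem plk_cont plk_inj)
open Vale.Agent.P092.H820 (wd pj pj_eq pj_surj)
open Vale.Agent.P092.H714.Cl (hf Frm)
open Vale.Agent.P092.H217.F (Fm An Nw Near Lcf Iso2)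
open Vale.Agent.P092.H303 (FormGroup)
open Vale.Agent.P092.H370.Po (SGr Inc Col Sing Ort)
open Vale.Agent.P092.H416.CL (pt pt_eq pt_cont exists_vec mem_of_span roc cor roc_cor roc_smul)

section sec

variable {n : Type} [Fintype n] [DecidableEq n] {k : Type} [NontriviallyNormedField k]
  [ProperSpace k] [MeasurableSpace k] [BorelSpace k] {σ : k →+* k} {J : Matrix n n k}

/-- a Borel section of the points -/
theorem exists_s [Nonempty n] [MeasurableSpace (SGr σ J 1)] [BorelSpace (SGr σ J 1)] :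
    ∃ s : SGr σ J 1 → n → k, Measurable s ∧ (∀ x, Nrm (s x)) ∧ ∀ x, s x ∈ x.S := by
  classical
  have hc : Fintype.card n = Fintype.card n - 1 + 1 := by
    have := Fintype.card_pos (α := n)
    omega
  set N := Fintype.card n - 1 with hN
  let e : n ≃ Fin (N + 1) := Fintype.equivFinOfCardEq hc
  letI : MeasurableSpace (ℙ k (Fin (N + 1) → k)) := borel _
  haveI : BorelSpace (ℙ k (Fin (N + 1) → k)) := ⟨rfl⟩
  obtain ⟨s', hs', hn, hm⟩ := H914.secStmt k (Fin (N + 1))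
  refine ⟨fun X => roc e (s' (pt e X)), ?_, fun X => ⟨?_, ?_⟩, fun X => ?_⟩
  · exact measurable_pi_iff.2 fun i =>
      (measurable_pi_apply (e i)).comp (hs'.comp (pt_cont e).measurable)
  · refine (pi_norm_le_iff_of_nonneg zero_le_one).2 fun i => ?_
    exact (norm_le_pi_norm (s' (pt e X)) (e i)).trans (hn (pt e X)).1
  · obtain ⟨a, ha⟩ := (hn (pt e X)).2
    refine ⟨e.symm a, ?_⟩
    change s' (pt e X) (e (e.symm a)) = 1
    rw [e.apply_symm_apply, ha]
  · obtain ⟨x, hx, hX⟩ := exists_vec X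
    obtain ⟨h, hh⟩ := hm (pt e X)
    have h1 : pj k (Fin (N + 1)) ⟨s' (pt e X), h⟩ = pj k (Fin (N + 1)) ⟨cor e x, _⟩ :=
      hh.trans (pt_eq e hx (mem_of_span hX))
    obtain ⟨c, hc⟩ := (pj_eq _ _).1 h1
    have h2 : (c : k) • x = roc e (s' (pt e X)) := by
      have h3 := congrArg (roc e) hc
      change roc e ((c : k) • cor e x) = roc e (s' (pt e X)) at h3
      rwa [roc_smul, roc_cor] at h3
    change roc e (s' (pt e X)) ∈ X.S
    rw [← h2]
    exact X.S.smul_mem _ (mem_of_span hX)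

/-- a Borel section of the lines -/
theorem exists_p [MeasurableSpace (SGr σ J 2)] [BorelSpace (SGr σ J 2)] :
    ∃ p : SGr σ J 2 → n × n → k, Measurable p ∧ (∀ y, Nrm (p y)) ∧
      ∀ y, ∃ h, plk y.1 = pj k (n × n) ⟨p y, h⟩ := by
  classical
  letI : MeasurableSpace (ℙ k (n × n → k)) := borel _
  haveI : BorelSpace (ℙ k (n × n → k)) := ⟨rfl⟩
  obtain ⟨s', hs', hn, hm⟩ := H914.secStmt k (n × n)
  refine ⟨fun Y => s' (plk Y.1), ?_, fun Y => hn _, fun Y => ?_⟩
  · exact hs'.comp ((plk_cont.comp SGr.val_cont).measurable)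
  · obtain ⟨h, hh⟩ := hm (plk Y.1)
    exact ⟨h, hh.symm⟩

end sec

section ta

variable {n : Type} [Fintype n] [DecidableEq n] {k : Type} [NontriviallyNormedField k]
  {σ : k →+* k} {ε : k} {J : Matrix n n k}

theorem ta_mul (g h : SpecialLinearGroup n k) : ta (g * h) = ta g * ta h := by
  change ((g * h)⁻¹).1ᵀ = (g⁻¹).1ᵀ * (h⁻¹).1ᵀ
  rw [_root_.mul_inv_rev]
  change ((h⁻¹).1 * (g⁻¹).1)ᵀ = _
  rw [Matrix.transpose_mul]

theorem ta_one : ta (1 : SpecialLinearGroup n k) = 1 := by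
  change ((1 : SpecialLinearGroup n k)⁻¹).1ᵀ = 1
  rw [inv_one]
  change (1 : Matrix n n k)ᵀ = 1
  exact Matrix.transpose_one

theorem ta_inv_mul (g : SpecialLinearGroup n k) : ta g⁻¹ * ta g = 1 := by
  rw [← ta_mul, inv_mul_cancel, ta_one]

theorem ta_mul_inv (g : SpecialLinearGroup n k) : ta g * ta g⁻¹ = 1 := by
  rw [← ta_mul, mul_inv_cancel, ta_one]

theorem ta_mulVec (g : SpecialLinearGroup n k) (x : n → k) : ta g *ᵥ x = x ᵥ* (g⁻¹).1 :=
  Matrix.mulVec_transpose _ _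

theorem ta_mem {j : ℕ} (g : FormGroup σ J) {X : SGr σ J j} {x : n → k} (hx : x ∈ X.S) :
    ta g.1 *ᵥ x ∈ (g • X).S := by
  rw [ta_mulVec, H370.Po.smul_S]
  exact H370.Po.vecMul_mem_act hx

theorem ta_iso (g : FormGroup σ J) (v w : n → k) :
    hf σ J (ta g.1 *ᵥ v) (ta g.1 *ᵥ w) = hf σ J v w := by
  rw [ta_mulVec, ta_mulVec]
  exact (H714.Cl.mem_formGroup.1 (inv_mem g.2)) _ _

theorem ta_ne (g : SpecialLinearGroup n k) {x : n → k} (hx : x ≠ 0) : ta g *ᵥ x ≠ 0 := by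
  intro h
  apply hx
  have := congrArg (fun y => ta g⁻¹ *ᵥ y) h
  simp only [Matrix.mulVec_mulVec, ta_inv_mul, Matrix.one_mulVec, Matrix.mulVec_zero] at this
  exact this

theorem sq_ta_ne (g : SpecialLinearGroup n k) {ω : n × n → k} (hω : ω ≠ 0) :
    sq (ta g) *ᵥ ω ≠ 0 := by
  intro h
  apply hω
  have h1 : H835.PlF.sq (ta g⁻¹) * H835.PlF.sq (ta g) = 1 := by
    rw [← Matrix.mul_kronecker_mul, ta_inv_mul, Matrix.one_kronecker_one]
  have := congrArg (fun y => H835.PlF.sq (ta g⁻¹) *ᵥ y) h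
  simp only [Matrix.mulVec_mulVec, h1, Matrix.one_mulVec, Matrix.mulVec_zero] at this
  exact this

theorem nrm_ne {α : Type} [Fintype α] {v : α → k} (h : Nrm v) : v ≠ 0 := by
  obtain ⟨-, a, ha⟩ := h
  intro h0
  rw [h0] at ha
  exact zero_ne_one ha

/-- two nonzero vectors of a point -/
theorem vec_smul {X : SGr σ J 1} {x y : n → k} (hx : x ∈ X.S) (hy : y ∈ X.S) (hx0 : x ≠ 0)
    (hy0 : y ≠ 0) : ∃ c : k, c ≠ 0 ∧ y = c • x := by
  obtain ⟨z, hz, hX⟩ := exists_vec X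
  rw [hX] at hx hy
  obtain ⟨a, rfl⟩ := Submodule.mem_span_singleton.1 hx
  obtain ⟨b, rfl⟩ := Submodule.mem_span_singleton.1 hy
  have ha : a ≠ 0 := fun h => hx0 (by rw [h, zero_smul])
  have hb : b ≠ 0 := fun h => hy0 (by rw [h, zero_smul])
  refine ⟨b * a⁻¹, mul_ne_zero hb (inv_ne_zero ha), ?_⟩
  rw [smul_smul, mul_assoc, inv_mul_cancel₀ ha, mul_one]

theorem pi_iso2 {Y : SGr σ J 2} {ω : n × n → k} {h : ω ≠ 0} (hY : plk Y.1 = pj k (n × n) ⟨ω, h⟩) :
    ∃ x ∈ Y.S, ∃ y ∈ Y.S, ω = wd x y := by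
  obtain ⟨x, hx, hx0⟩ := Y.S.exists_mem_ne_zero_of_ne_bot (by
    intro h0
    have := Y.dim
    rw [h0, finrank_bot] at this
    exact absurd this (by norm_num))
  obtain ⟨y, hy, e⟩ := rep_line hY hx0 hx
  exact ⟨x, hx, y, hy, e⟩

end ta

section est

variable {n : Type} [Fintype n] [DecidableEq n] {k : Type} [NontriviallyNormedField k]

theorem entry_le (A : Matrix n n k) (i j : n) : ‖A i j‖ ≤ nmM A :=
  (norm_le_pi_norm (A i) j).trans (norm_le_pi_norm (fun i j => A i j : n → n → k) i)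

theorem nmM_nonneg (A : Matrix n n k) : 0 ≤ nmM A := norm_nonneg _

theorem nmM_le {A : Matrix n n k} {C : ℝ} (hC : 0 ≤ C) (h : ∀ i j, ‖A i j‖ ≤ C) : nmM A ≤ C :=
  (pi_norm_le_iff_of_nonneg hC).2 fun i => (pi_norm_le_iff_of_nonneg hC).2 fun j => h i j

theorem mulVec_le (A : Matrix n n k) (v : n → k) :
    ‖A *ᵥ v‖ ≤ Fintype.card n * nmM A * ‖v‖ := by
  have hA := nmM_nonneg A
  refine (pi_norm_le_iff_of_nonneg (by positivity)).2 fun i => ?_
  calc ‖(A *ᵥ v) i‖ = ‖∑ j, A i j * v j‖ := rfl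
    _ ≤ ∑ _j : n, nmM A * ‖v‖ := by
        refine norm_sum_le_of_le _ fun j _ => ?_
        rw [norm_mul]
        exact mul_le_mul (entry_le A i j) (norm_le_pi_norm v j) (norm_nonneg _) hA
    _ = _ := by simp; ring

/-- the norm is attained by a column -/
theorem exists_col [Nonempty n] (A : Matrix n n k) :
    ∃ j : n, nmM A ≤ ‖A *ᵥ (Pi.single j 1 : n → k)‖ := by
  obtain ⟨j, -, hj⟩ := Finset.exists_max_image (Finset.univ : Finset n)
    (fun j => ‖A *ᵥ (Pi.single j 1 : n → k)‖) Finset.univ_nonempty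
  refine ⟨j, nmM_le (norm_nonneg _) fun i l => ?_⟩
  calc ‖A i l‖ = ‖(A *ᵥ (Pi.single l 1 : n → k)) i‖ := by rw [Matrix.mulVec_single_one]; rfl
    _ ≤ ‖A *ᵥ (Pi.single l 1 : n → k)‖ := norm_le_pi_norm _ i
    _ ≤ _ := hj l (Finset.mem_univ _)

/-- **the minors of an alternating tensor** -/
theorem sq_le_of_nw1 {A : Matrix n n k} {R : ℝ} (h : NW1 R A) {P : n × n → k} (hP : Alt P) :
    ‖sq A *ᵥ P‖ ≤ (Fintype.card n : ℝ) * (Fintype.card n * ((|R| * nmM A) * ‖P‖)) := by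
  classical
  have hA := nmM_nonneg A
  have hR := abs_nonneg R
  refine (pi_norm_le_iff_of_nonneg (by positivity)).2 fun ab => ?_
  obtain ⟨a, b⟩ := ab
  let e := Fintype.equivFin n
  have e1 : (sq A *ᵥ P) (a, b) = ∑ c, ∑ d, A a c * A b d * P (c, d) := H835.PlF.sq_apply A P a b
  have e2 : ∑ c, ∑ d, A a c * A b d * P (c, d) =
      ∑ c, ∑ d, (if e c < e d then A a c * A b d * P (c, d) else 0) +
        ∑ c, ∑ d, (if e d < e c then A a c * A b d * P (c, d) else 0) := by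
    rw [← Finset.sum_add_distrib]
    refine Finset.sum_congr rfl fun c _ => ?_
    rw [← Finset.sum_add_distrib]
    refine Finset.sum_congr rfl fun d _ => ?_
    rcases lt_trichotomy (e c) (e d) with h1 | h1 | h1
    · rw [if_pos h1, if_neg (not_lt.2 h1.le), add_zero]
    · have h2 : c = d := e.injective h1
      subst h2
      rw [if_neg (lt_irrefl _), hP.diag, mul_zero, add_zero]
    · rw [if_pos h1, if_neg (not_lt.2 h1.le), zero_add]
  have e3 : ∑ c, ∑ d, (if e d < e c then A a c * A b d * P (c, d) else 0) =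
      ∑ c, ∑ d, (if e c < e d then A a d * A b c * P (d, c) else 0) := Finset.sum_comm
  have e4 : (sq A *ᵥ P) (a, b) =
      ∑ c, ∑ d, (if e c < e d then (A a c * A b d - A b c * A a d) * P (c, d) else 0) := by
    rw [e1, e2, e3, ← Finset.sum_add_distrib]
    refine Finset.sum_congr rfl fun c _ => ?_
    rw [← Finset.sum_add_distrib]
    refine Finset.sum_congr rfl fun d _ => ?_
    split_ifs
    · rw [hP.anti d c]; ring
    · rw [add_zero]
  rw [e4]
  have h3 : ∀ c d, ‖(if e c < e d then (A a c * A b d - A b c * A a d) * P (c, d) else 0)‖ ≤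
      (|R| * nmM A) * ‖P‖ := by
    intro c d
    split_ifs
    · rw [norm_mul]
      refine mul_le_mul ((h a b c d).trans ?_) (norm_le_pi_norm P (c, d)) (norm_nonneg _)
        (by positivity)
      exact mul_le_mul_of_nonneg_right (le_abs_self R) hA
    · rw [norm_zero]; positivity
  calc _ ≤ ∑ _c : n, ∑ _d : n, (|R| * nmM A) * ‖P‖ :=
        norm_sum_le_of_le _ fun c _ => norm_sum_le_of_le _ fun d _ => h3 c d
    _ = _ := by
        rw [Finset.sum_const, Finset.sum_const, Finset.card_univ, nsmul_eq_mul, nsmul_eq_mul]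

end est

section geo

variable {n : Type} [Fintype n] [DecidableEq n] {k : Type} [NontriviallyNormedField k]
  {σ : k →+* k} {ε : k} {J : Matrix n n k}

/-- near-wall isometries in the letters of helper217 -/
theorem nw_of (g : FormGroup σ J) {R m : ℝ} (h : NW1 R (ta g.1)) (hm : 1 ≤ m)
    (h1 : nmM (ta g.1) ≤ m) :
    Nw σ J (1 + Fintype.card n + Fintype.card n * (Fintype.card n * |R|)) m (ta g.1) := by
  have hc : (0 : ℝ) ≤ Fintype.card n := Nat.cast_nonneg _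
  have hR := abs_nonneg R
  have hq : 0 ≤ (Fintype.card n : ℝ) * (Fintype.card n * |R|) := by positivity
  have hm0 : 0 < m := by linarith
  refine ⟨by linarith, hm, fun v w => ta_iso g v w, fun v => ?_, fun P hP => ?_⟩
  · refine (mulVec_le _ v).trans ?_
    have h2 : (Fintype.card n : ℝ) * nmM (ta g.1) ≤ Fintype.card n * m :=
      mul_le_mul_of_nonneg_left h1 hc
    have h3 : (Fintype.card n : ℝ) * m ≤
        (1 + Fintype.card n + Fintype.card n * (Fintype.card n * |R|)) * m :=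
      mul_le_mul_of_nonneg_right (by linarith) hm0.le
    exact mul_le_mul_of_nonneg_right (h2.trans h3) (norm_nonneg _)
  · refine (sq_le_of_nw1 h hP).trans ?_
    have h2 : (Fintype.card n : ℝ) * (Fintype.card n * ((|R| * nmM (ta g.1)) * ‖P‖)) =
        (Fintype.card n * (Fintype.card n * |R|)) * nmM (ta g.1) * ‖P‖ := by ring
    rw [h2]
    have h3 : (Fintype.card n : ℝ) * (Fintype.card n * |R|) * nmM (ta g.1) ≤
        (1 + Fintype.card n + Fintype.card n * (Fintype.card n * |R|)) * m :=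
      mul_le_mul (by linarith) h1 (nmM_nonneg _) (by positivity)
    exact mul_le_mul_of_nonneg_right h3 (norm_nonneg _)

/-- **capacity of points**, pairs -/
theorem cap_pair {β : ℝ} (hB : H789.S2.Bd σ J β) {g h : FormGroup σ J} {R m D : ℝ} (hm : 1 ≤ m)
    (hg : NW1 R (ta g.1)) (hh : NW1 R (ta h.1)) (g1 : nmM (ta g.1) ≤ m) (h1 : nmM (ta h.1) ≤ m)
    {x : n → k} (hx : x ≠ 0) (gx : m * ‖ta g.1 *ᵥ x‖ ≤ D * ‖x‖)
    (hx' : m * ‖ta h.1 *ᵥ x‖ ≤ D * ‖x‖) :
    nmM (ta (h * g⁻¹).1) ≤ 6 * β ^ 8 * (1 + |R| + |D|) ^ 4 := by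
  have hm0 : 0 < m := by linarith
  have hR := abs_nonneg R
  have hD := abs_nonneg D
  have hC : 1 ≤ 1 + |R| + |D| := by linarith
  have hβ := hB.one_le
  have hnw : ∀ g : FormGroup σ J, NW1 R (ta g.1) → nmM (ta g.1) ≤ m →
      H789.S2.NW σ J (1 + |R| + |D|) m (ta g.1) := by
    intro g hg g1
    refine ⟨H315P.G.iso_of fun x y => ta_iso g x y, fun i j => (entry_le _ i j).trans g1,
      fun i i' j j' => ?_⟩
    have e : ta g.1 i j * ta g.1 i' j' - ta g.1 i j' * ta g.1 i' j =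
        ta g.1 i j * ta g.1 i' j' - ta g.1 i' j * ta g.1 i j' := by ring
    rw [e]
    refine (hg i i' j j').trans ?_
    calc R * nmM (ta g.1) ≤ |R| * nmM (ta g.1) :=
          mul_le_mul_of_nonneg_right (le_abs_self R) (nmM_nonneg _)
      _ ≤ (1 + |R| + |D|) * m := mul_le_mul (by linarith) g1 (nmM_nonneg _) (by positivity)
  have hDx : D * ‖x‖ ≤ (1 + |R| + |D|) * ‖x‖ := by
    refine mul_le_mul_of_nonneg_right ?_ (norm_nonneg _)
    have := le_abs_self D
    linarith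
  have hmm : m ≤ (1 + |R| + |D|) * m := le_mul_of_one_le_left hm0.le hC
  refine nmM_le (by positivity) fun i j => ?_
  have e : ta (h * g⁻¹).1 = ta h.1 * ta (g.1)⁻¹ := ta_mul _ _
  rw [e]
  exact H789.S2.cap_pt hB hC hm0 hm0 (hnw g hg g1) (hnw h hh h1) hmm hmm hx (gx.trans hDx)
    (hx'.trans hDx) (ta_mul_inv g.1) (ta_mul_inv h.1) i j

/-- the inverse -/
theorem nmM_inv {β : ℝ} (hJ : Fm σ J β) (g : FormGroup σ J) :
    nmM (ta (g⁻¹).1) ≤ β ^ 2 * (Fintype.card n * nmM (ta g.1)) := by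
  have hβ := hJ.b1
  have hβ0 : 0 < β := by linarith
  have hA := nmM_nonneg (ta g.1)
  refine nmM_le (by positivity) fun i l => ?_
  have e0 : ‖ta (g⁻¹).1 i l‖ ≤ ‖ta (g⁻¹).1 *ᵥ (Pi.single l 1 : n → k)‖ := by
    calc ‖ta (g⁻¹).1 i l‖ = ‖(ta (g⁻¹).1 *ᵥ (Pi.single l 1 : n → k)) i‖ := by
          rw [Matrix.mulVec_single_one]; rfl
      _ ≤ _ := norm_le_pi_norm _ i
  obtain ⟨j, hj⟩ := hJ.nd (ta (g⁻¹).1 *ᵥ (Pi.single l 1 : n → k))
  have e1 : hf σ J (ta (g⁻¹).1 *ᵥ (Pi.single l 1 : n → k)) (Pi.single j 1) =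
      hf σ J (Pi.single l 1) (ta g.1 *ᵥ Pi.single j 1) := by
    rw [← ta_iso g (ta (g⁻¹).1 *ᵥ (Pi.single l 1 : n → k)), Matrix.mulVec_mulVec]
    have : ta g.1 * ta (g⁻¹).1 = 1 := ta_mul_inv g.1
    rw [this, Matrix.one_mulVec]
  have e2 : ∀ a : n, ‖(Pi.single a 1 : n → k)‖ ≤ 1 := fun a => H789.S2.norm_ee a
  have e3 : ‖hf σ J (Pi.single l 1) (ta g.1 *ᵥ Pi.single j 1)‖ ≤
      β * (1 * (Fintype.card n * nmM (ta g.1) * 1)) := by
    refine (hJ.bd _ _).trans (mul_le_mul_of_nonneg_left ?_ hβ0.le)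
    refine mul_le_mul (e2 l) ?_ (norm_nonneg _) zero_le_one
    exact (mulVec_le _ _).trans (mul_le_mul_of_nonneg_left (e2 j) (by positivity))
  rw [e1] at hj
  calc _ ≤ _ := e0
    _ ≤ _ := hj
    _ ≤ β * (β * (1 * (Fintype.card n * nmM (ta g.1) * 1))) :=
        mul_le_mul_of_nonneg_left e3 hβ0.le
    _ = _ := by ring

/-- products -/
theorem nmM_mul (A B : Matrix n n k) : nmM (A * B) ≤ Fintype.card n * nmM A * nmM B := by
  have hA := nmM_nonneg A
  have hB := nmM_nonneg B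
  refine nmM_le (by positivity) fun i l => ?_
  rw [Matrix.mul_apply]
  calc ‖∑ j, A i j * B j l‖ ≤ ∑ _j : n, nmM A * nmM B := by
        refine norm_sum_le_of_le _ fun j _ => ?_
        rw [norm_mul]
        exact mul_le_mul (entry_le A i j) (entry_le B j l) (norm_nonneg _) hA
    _ = _ := by simp; ring

/-- isometries are not small -/
theorem nmM_pos [Nonempty n] (g : SpecialLinearGroup n k) : 0 < nmM (ta g) := by
  refine lt_of_le_of_ne (nmM_nonneg _) fun h => ?_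
  obtain ⟨i⟩ := (inferInstance : Nonempty n)
  have h1 : ta g = 0 := by
    ext a b
    have := entry_le (ta g) a b
    rw [← h] at this
    exact norm_le_zero_iff.1 this
  have h2 := congrFun (congrFun (ta_mul_inv g) i) i
  rw [h1, Matrix.zero_mul, Matrix.one_apply_eq] at h2
  exact zero_ne_one h2

/-- **localisation** -/
theorem loc_of [ProperSpace k] [Nonempty n] (hσ : ∀ x, ‖σ x‖ = ‖x‖) {r₀ : ℕ} {D₀ : ℝ}
    (hD : H315P.G.Fb σ ε J r₀ D₀) {r : ℕ}
    (hmax : ∀ X Y : SGr σ J 1, Col X Y → ∃ l : SGr σ J r, Inc X l ∧ Inc Y l)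
    {s : SGr σ J 1 → n → k} (hs : ∀ x, s x ∈ x.S) (hsn : ∀ x, Nrm (s x))
    (A B : Set (SGr σ J 1)) (hA : IsClosed A) (hB : IsClosed B)
    (hAB : ∀ x ∈ A, ∀ x' ∈ B, ∀ y : SGr σ J r, Inc x y → ¬ Inc x' y) :
    ∃ T > 0, ∃ D : ℝ, 1 ≤ D ∧ ∀ g : FormGroup σ J, AttS T A (ta g.1) → ∀ x, g • x ∈ B →
      nmM (ta g.1) * ‖ta g.1 *ᵥ s x‖ ≤ D := by
  have hσc : Continuous σ := (AddMonoidHomClass.isometry_of_norm σ hσ).continuous
  obtain ⟨T, hT, C, hC, h⟩ := H315P.G.loc_gr hD (H315P.G.val_closed hσc hA)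
    (H315P.G.val_closed hσc hB) (by
      rintro - ⟨X, hX, rfl⟩ - ⟨Y, hY, rfl⟩
      intro x hx hxy
      by_contra hx0
      have hcol : Col X Y := by
        intro a ha b hb
        obtain ⟨c, -, rfl⟩ | h0 : (∃ c : k, c ≠ 0 ∧ a = c • x) ∨ a = 0 := by
          by_cases ha0 : a = 0
          · exact Or.inr ha0
          · exact Or.inl (vec_smul hx ha hx0 ha0)
        · rw [H714.Cl.hf_smul_left, hxy b hb, mul_zero]
        · rw [h0, H714.Cl.hf_zero_left]
      obtain ⟨l, h1, h2⟩ := hmax X Y hcol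
      exact hAB X hX Y hY l h1 h2) 1
  refine ⟨T, hT, C, hC, fun g hg x hx => ?_⟩
  obtain ⟨X, hX, M, hM1, hM2⟩ := hg
  obtain ⟨j, hj⟩ := exists_col (ta g.1)
  have h1 := h (ta g.1) (nmM (ta g.1)) (nmM_pos g.1) (fun x y => ta_iso g x y)
    ⟨Submodule.span k {(Pi.single j 1 : n → k)}, finrank_span_singleton (by
      intro h0
      have := congrFun h0 j
      rw [Pi.single_eq_same] at this
      exact one_ne_zero this), fun u hu => by
        obtain ⟨c, rfl⟩ := Submodule.mem_span_singleton.1 hu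
        rw [Matrix.mulVec_smul, norm_smul, norm_smul, one_mul]
        have e2 : ‖(Pi.single j 1 : n → k)‖ ≤ 1 := H789.S2.norm_ee j
        calc nmM (ta g.1) * (‖c‖ * ‖(Pi.single j 1 : n → k)‖)
            ≤ nmM (ta g.1) * (‖c‖ * 1) := by gcongr; exact nmM_nonneg _
          _ = ‖c‖ * nmM (ta g.1) := by ring
          _ ≤ ‖c‖ * ‖ta g.1 *ᵥ (Pi.single j 1 : n → k)‖ := by gcongr⟩
    ⟨X.1, ⟨X, hX, rfl⟩, M, hM1, hM2⟩ (g • x).1 ⟨g • x, hx, rfl⟩ (s x) (ta_mem g (hs x))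
  have h2 : ‖s x‖ ≤ 1 := (hsn x).1
  refine h1.trans ?_
  have h3 : 0 ≤ C := by linarith
  nlinarith

end geo

end Vale.Agent.P092.H261.K3
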