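import Vale.Agent.P092.H464.P.CCLab

/-!
P092 (helper261), COUNTS FOR FORMS (after helper464's `CCLab`): labels whose cells are small for the
Carnot-Caratheodory distance `max (|x ∧ y|) (|B(x, y)|^(1/2))` of the isotropic vectors of a bounded
sesquilinear form `B` (values in a coordinate space: `B = h` for points, `B (P, Q) = P J σ(Q)ᵀ` for
lines), and the Whitney decomposition for them.
-/

set_option linter.all false

namespace Vale.Agent.P092.H261.K3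

open Finset
open Vale.Agent.P092.H464 (Pv)
open Vale.Agent.P092.H589.K2 (Cells code Nrm code_count code_count_ball code_small code_nest
  measurable_code)
open Vale.Agent.P092.H820 (wd)
open Vale.Agent.P092.H464.PW (dec wd_le wd_sub nrm_one half_sq rep rep_spec whit)

section om

variable {𝕜 : Type} [NormedField 𝕜] [MeasurableSpace 𝕜] {ι θ : Type} [Fintype ι] [Fintype θ]

/-- a bounded sesquilinear form -/
structure Bf (σ : 𝕜 → 𝕜) (B : (ι → 𝕜) → (ι → 𝕜) → (θ → 𝕜)) (C₀ : ℝ) : Prop where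
  one : 1 ≤ C₀
  nσ : ∀ c, ‖σ c‖ = ‖c‖
  add : ∀ x y z, B (x + y) z = B x z + B y z
  add' : ∀ x y z, B z (x + y) = B z x + B z y
  smul : ∀ (c : 𝕜) x z, B (c • x) z = c • B x z
  smul' : ∀ (c : 𝕜) x z, B z (c • x) = σ c • B z x
  symm : ∀ x y, ‖B x y‖ = ‖B y x‖
  le : ∀ x y, ‖B x y‖ ≤ C₀ * ‖x‖ * ‖y‖
  meas : ∀ w, Measurable fun x => B x w

namespace Bf

variable {σ : 𝕜 → 𝕜} {B : (ι → 𝕜) → (ι → 𝕜) → (θ → 𝕜)} {C₀ : ℝ} (h : Bf σ B C₀)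
include h

lemma sub (x y z : ι → 𝕜) : B (x - y) z = B x z - B y z := by
  have e : x = (x - y) + y := by abel
  have := h.add (x - y) y z
  rw [← e] at this
  rw [this]; abel

lemma sub' (x y z : ι → 𝕜) : B z (x - y) = B z x - B z y := by
  have e : x = (x - y) + y := by abel
  have := h.add' (x - y) y z
  rw [← e] at this
  rw [this]; abel

lemma le' {x y : ι → 𝕜} {a b : ℝ} (hx : ‖x‖ ≤ a) (hy : ‖y‖ ≤ b) : ‖B x y‖ ≤ C₀ * a * b := by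
  have h0 := h.one
  have ha : 0 ≤ a := (norm_nonneg _).trans hx
  calc ‖B x y‖ ≤ C₀ * ‖x‖ * ‖y‖ := h.le x y
    _ ≤ C₀ * a * b := by gcongr

end Bf

variable {σ : 𝕜 → 𝕜} {B : (ι → 𝕜) → (ι → 𝕜) → (θ → 𝕜)} {C₀ : ℝ}

/-- two points close to the third one -/
lemma om_two (h : Bf σ B C₀) {x y η : ι → 𝕜} {b : ι} (hb : η b = 1) (hη : B η η = 0)
    (hx : ‖x‖ ≤ 1) (hy : ‖y‖ ≤ 1)
    {a' b' ρ : ℝ} (ha : 0 ≤ a') (hρ : 0 ≤ ρ) (h1 : ‖wd x η‖ ≤ a' * ρ) (h2 : ‖wd y η‖ ≤ a' * ρ)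
    (h3 : ‖B x η‖ ≤ b' * ρ ^ 2) (h4 : ‖B y η‖ ≤ b' * ρ ^ 2) :
    ‖B x y‖ ≤ (2 * b' + C₀ * a' ^ 2) * ρ ^ 2 := by
  set e := x - x b • η with he
  set f := y - y b • η with hf
  have e1 : ‖e‖ ≤ a' * ρ := (dec hb).trans h1
  have f1 : ‖f‖ ≤ a' * ρ := (dec hb).trans h2
  have hxb : ‖x b‖ ≤ 1 := (norm_le_pi_norm x b).trans hx
  have hyb : ‖y b‖ ≤ 1 := (norm_le_pi_norm y b).trans hy
  have key : B x y = σ (y b) • B x η + x b • B η y + B e f := by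
    have c1 : B x y = B x (y b • η + f) := by rw [hf]; congr 1; abel
    have c2 : B x f = B (x b • η + e) f := by rw [he]; congr 1; abel
    have c3 : B η f = B η y := by
      rw [hf, h.sub', h.smul', hη, smul_zero, sub_zero]
    rw [c1, h.add', h.smul', c2, h.add, h.smul, c3]; abel
  rw [key]
  have k1 : ‖σ (y b) • B x η‖ ≤ b' * ρ ^ 2 := by
    rw [norm_smul, h.nσ]
    calc ‖y b‖ * ‖B x η‖ ≤ 1 * (b' * ρ ^ 2) :=
          mul_le_mul hyb h3 (norm_nonneg _) zero_le_one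
      _ = _ := one_mul _
  have k2 : ‖x b • B η y‖ ≤ b' * ρ ^ 2 := by
    rw [norm_smul, h.symm]
    calc ‖x b‖ * ‖B y η‖ ≤ 1 * (b' * ρ ^ 2) :=
          mul_le_mul hxb h4 (norm_nonneg _) zero_le_one
      _ = _ := one_mul _
  have k3 : ‖B e f‖ ≤ C₀ * (a' * ρ) * (a' * ρ) := h.le' e1 f1
  calc _ ≤ ‖σ (y b) • B x η + x b • B η y‖ + ‖B e f‖ := norm_add_le _ _
    _ ≤ (‖σ (y b) • B x η‖ + ‖x b • B η y‖) + ‖B e f‖ := by gcongr; exact norm_add_le _ _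
    _ ≤ _ := by nlinarith

/-- the constant of `om_diff` -/
def c3 (C₀ C₁ a c₂ : ℝ) : ℝ := 2 * C₁ * (c₂ + C₀ * a) + 8 * C₀ * C₁ * a ^ 2

/-- change of `B(·, η)` in a cell -/
lemma om_diff (h : Bf σ B C₀) {x x' η : ι → 𝕜} {b : ι} (hb : η b = 1) {C₁ : ℝ} (hC₁ : 1 ≤ C₁)
    (hη : ‖η‖ ≤ C₁) (hx : ‖x‖ = 1) (hx' : ‖x'‖ = 1) (hxx' : B x' x' = 0) {a c₂ ρ : ℝ}
    (ha : 1 ≤ a) (hρ : 0 ≤ ρ)
    (hc₂ : 0 ≤ c₂) (h1 : ‖x - x'‖ ≤ ρ) (h2 : ‖B x x'‖ ≤ c₂ * ρ ^ 2) (h3 : ‖wd x' η‖ ≤ a * ρ) :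
    ‖B (x - x') η‖ ≤ c3 C₀ C₁ a c₂ * ρ ^ 2 := by
  have h0 := h.one
  set e := x' - x' b • η with he
  have e1 : ‖e‖ ≤ a * ρ := (dec hb).trans h3
  by_cases hr : a * ρ ≤ 1 / 2
  · have k1 : ‖x'‖ ≤ ‖x' b‖ * C₁ + a * ρ := by
      have : x' = x' b • η + e := by rw [he]; abel
      calc ‖x'‖ = ‖x' b • η + e‖ := by rw [← this]
        _ ≤ ‖x' b • η‖ + ‖e‖ := norm_add_le _ _
        _ ≤ ‖x' b‖ * C₁ + a * ρ := by
            rw [norm_smul]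
            gcongr
    have k2 : 1 ≤ 2 * C₁ * ‖x' b‖ := by rw [hx'] at k1; nlinarith
    have k3 : σ (x' b) • B (x - x') η = B x x' - B (x - x') e := by
      have c1 : B (x - x') x' = B (x - x') (x' b • η + e) := by rw [he]; congr 1; abel
      have c2 : B (x - x') x' = B x x' := by rw [h.sub, hxx', sub_zero]
      rw [h.add', h.smul', c2] at c1
      rw [c1]; abel
    have k4 : ‖x' b‖ * ‖B (x - x') η‖ ≤ (c₂ + C₀ * a) * ρ ^ 2 := by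
      rw [← h.nσ, ← norm_smul, k3]
      refine (norm_sub_le _ _).trans ?_
      have := h.le' h1 e1
      nlinarith
    have k5 : 0 ≤ ‖B (x - x') η‖ := norm_nonneg _
    have k6 : 0 ≤ 8 * C₀ * C₁ * a ^ 2 * ρ ^ 2 := by positivity
    calc ‖B (x - x') η‖ = 1 * ‖B (x - x') η‖ := (one_mul _).symm
      _ ≤ (2 * C₁ * ‖x' b‖) * ‖B (x - x') η‖ := by gcongr
      _ = 2 * C₁ * (‖x' b‖ * ‖B (x - x') η‖) := by ring
      _ ≤ 2 * C₁ * ((c₂ + C₀ * a) * ρ ^ 2) := by gcongr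
      _ ≤ _ := by rw [c3]; nlinarith
  · push Not at hr
    have k1 : ‖x - x'‖ ≤ 2 := (norm_sub_le _ _).trans (by rw [hx, hx']; norm_num)
    have k2 := h.le' k1 hη
    have k3 : 1 ≤ (2 * (a * ρ)) ^ 2 := by nlinarith
    have k4 : 0 ≤ 2 * C₁ * (c₂ + C₀ * a) * ρ ^ 2 := by positivity
    calc ‖B (x - x') η‖ ≤ C₀ * 2 * C₁ * 1 := by linarith
      _ ≤ C₀ * 2 * C₁ * (2 * (a * ρ)) ^ 2 := by gcongr
      _ ≤ _ := by rw [c3]; nlinarith

end om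

section lab

variable {𝕜 : Type} [NormedField 𝕜] [MeasurableSpace 𝕜] (cl : Cells 𝕜) {ι θ : Type} [Fintype ι]
  [Fintype θ] (B : (ι → 𝕜) → (ι → 𝕜) → (θ → 𝕜)) {X : Type} (s : X → ι → 𝕜)

/-- the label: the code, and the cell of level `2 m` of `B(x, w)`, `w` a fixed point of the cell -/
noncomputable def lbB (m : ℕ) (x : X) : (ι → cl.T) × (θ → cl.T) :=
  (code cl m (s x), code cl (2 * m) (B (s x) (rep cl s m (code cl m (s x)))))

variable {cl B s} {σ : 𝕜 → 𝕜} {C₀ : ℝ} (h : Bf σ B C₀)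
include h

lemma lbB_small (hiso : ∀ x, B (s x) (s x) = 0) {m : ℕ} {x x' : X}
    (he : lbB cl B s m x = lbB cl B s m x') :
    ‖s x - s x'‖ ≤ (1 / 2) ^ m ∧ ‖B (s x) (s x')‖ ≤ (1 + C₀) * ((1 / 2) ^ m) ^ 2 := by
  have e1 : code cl m (s x) = code cl m (s x') := congrArg Prod.fst he
  have e2 := congrArg Prod.snd he
  simp only [lbB] at e2
  rw [e1] at e2
  obtain ⟨x₀, h1, h2⟩ := rep_spec (cl := cl) (s := s) m x'
  rw [h2] at e2
  have k1 := code_small e1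
  have k2 := code_small e2
  have k3 := code_small (h1.symm)
  rw [half_sq] at k2
  have key : B (s x) (s x') = (B (s x) (s x₀) - B (s x') (s x₀)) +
      B (s x - s x') (s x' - s x₀) := by
    rw [h.sub', h.sub, h.sub, hiso x']; abel
  refine ⟨k1, ?_⟩
  rw [key]
  have k4 := h.le' k1 k3
  refine (norm_add_le _ _).trans ?_
  nlinarith

lemma lbB_fin (hn : ∀ x, Nrm (s x)) (m : ℕ) :
    ∃ F : Finset ((ι → cl.T) × (θ → cl.T)), ∀ x, lbB cl B s m x ∈ F := by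
  classical
  obtain ⟨M, hM⟩ := code_count_ball (c := cl) (ι := ι) (2 ^ m)
  obtain ⟨F₁, _, hF₁⟩ := hM m 0
  obtain ⟨M', hM'⟩ := code_count_ball (c := cl) (ι := θ) (C₀ * 2 ^ (2 * m))
  obtain ⟨F₂, _, hF₂⟩ := hM' (2 * m) 0
  refine ⟨F₁ ×ˢ F₂, fun x => mem_product.2 ⟨hF₁ _ ?_, hF₂ _ ?_⟩⟩
  · rw [sub_zero, ← mul_pow]
    norm_num
    exact (hn x).1
  · obtain ⟨x₀, h1, h2⟩ := rep_spec (cl := cl) (s := s) m x
    rw [h2, sub_zero, mul_assoc, ← mul_pow]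
    norm_num
    have := h.le' (hn x).1 (hn x₀).1
    linarith

lemma lbB_meas [MeasurableSpace X] (hs : Measurable s) (m : ℕ)
    (t : (ι → cl.T) × (θ → cl.T)) :
    MeasurableSet {x | lbB cl B s m x = t} := by
  have e : {x | lbB cl B s m x = t} = {x | code cl m (s x) = t.1} ∩
      {x | code cl (2 * m) (B (s x) (rep cl s m t.1)) = t.2} := by
    ext x
    constructor
    · intro hx
      have h1 : code cl m (s x) = t.1 := congrArg Prod.fst hx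
      have h2 := congrArg Prod.snd hx
      simp only [lbB] at h2
      rw [h1] at h2
      exact ⟨h1, h2⟩
    · rintro ⟨h1, h2⟩
      refine Prod.ext h1 ?_
      simp only [lbB]
      rw [(h1 : code cl m (s x) = t.1)]
      exact h2
  rw [e]
  exact (measurable_code hs m t.1).inter (measurable_code ((h.meas _).comp hs) (2 * m) t.2)

/-- number of labels close to a point -/
lemma lbB_count (C₁ a' b' : ℝ) (ha : 0 ≤ a') : ∃ M : ℕ, ∀ {X : Type} (s : X → ι → 𝕜),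
    (∀ x, Nrm (s x)) → (∀ x, B (s x) (s x) = 0) →
    ∀ (m : ℕ) (η : ι → 𝕜), ‖η‖ ≤ C₁ → (∃ b, η b = 1) → B η η = 0 →
    ∃ F : Finset ((ι → cl.T) × (θ → cl.T)), F.card ≤ M ∧
      ∀ x : X, ‖wd (s x) η‖ ≤ a' * (1 / 2) ^ m →
      ‖B (s x) η‖ ≤ b' * ((1 / 2) ^ m) ^ 2 → lbB cl B s m x ∈ F := by
  classical
  obtain ⟨M₁, hM₁⟩ := code_count (c := cl) (ι := ι) a' C₁
  obtain ⟨M₂, hM₂⟩ := code_count_ball (c := cl) (ι := θ) (2 * b' + C₀ * a' ^ 2 + C₀)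
  refine ⟨M₁ * M₂, fun {X} s hn hiso m η hη hb hηη => ?_⟩
  obtain ⟨F₁, hc₁, hF₁⟩ := hM₁ m η hη hb
  obtain ⟨b, hb⟩ := hb
  have hex : ∀ c : ι → cl.T, ∃ F : Finset (θ → cl.T), F.card ≤ M₂ ∧
      ∀ x : X, code cl m (s x) = c →
      ‖wd (s x) η‖ ≤ a' * (1 / 2) ^ m → ‖B (s x) η‖ ≤ b' * ((1 / 2) ^ m) ^ 2 →
      code cl (2 * m) (B (s x) (rep cl s m c)) ∈ F := by
    intro c
    by_cases hc : ∃ x : X, code cl m (s x) = c ∧ ‖wd (s x) η‖ ≤ a' * (1 / 2) ^ m ∧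
      ‖B (s x) η‖ ≤ b' * ((1 / 2) ^ m) ^ 2
    · obtain ⟨x₁, g1, g2, g3⟩ := hc
      obtain ⟨F, hF, hF'⟩ := hM₂ (2 * m) (B (s x₁) (rep cl s m c))
      refine ⟨F, hF, fun x k1 k2 k3 => hF' _ ?_⟩
      obtain ⟨x₀, l1, l2⟩ := rep_spec (cl := cl) (s := s) m x₁
      rw [g1] at l1 l2
      have m1 : ‖s x - s x₁‖ ≤ (1 / 2) ^ m := code_small (k1.trans g1.symm)
      have m2 : ‖s x₀ - s x₁‖ ≤ (1 / 2) ^ m := code_small (l1.trans g1.symm)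
      have m3 := om_two h hb hηη (hn x).1 (hn x₁).1 ha (by positivity) k2 g2 k3 g3
      have key : B (s x) (s x₀) - B (s x₁) (s x₀) = B (s x) (s x₁) +
          B (s x - s x₁) (s x₀ - s x₁) := by
        rw [h.sub', h.sub, h.sub, hiso x₁]; abel
      rw [l2, key, half_sq]
      have m4 := h.le' m1 m2
      refine (norm_add_le _ _).trans ?_
      nlinarith
    · exact ⟨∅, by simp, fun x k1 k2 k3 => absurd ⟨x, k1, k2, k3⟩ hc⟩
  choose G hG1 hG2 using hex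
  refine ⟨F₁.biUnion fun c => {c} ×ˢ G c, ?_, fun x k2 k3 => ?_⟩
  · refine card_biUnion_le.trans ?_
    calc ∑ c ∈ F₁, (({c} : Finset (ι → cl.T)) ×ˢ G c).card ≤ ∑ _c ∈ F₁, M₂ := by
          refine sum_le_sum fun c _ => ?_
          rw [card_product, card_singleton, one_mul]
          exact hG1 c
      _ = F₁.card * M₂ := by rw [sum_const, smul_eq_mul]
      _ ≤ _ := Nat.mul_le_mul_right _ hc₁
  · rw [mem_biUnion]
    refine ⟨code cl m (s x), hF₁ _ (hn x) (fun p q => ?_), ?_⟩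
    · have e : η p * s x q - s x p * η q = wd (s x) η (q, p) := by simp only [wd]; ring
      rw [e]
      exact (norm_le_pi_norm _ _).trans k2
    · rw [mem_product]
      exact ⟨mem_singleton_self _, hG2 _ x rfl k2 k3⟩

end lab

section main

variable {K : Type} [NormedAddCommGroup K] [InnerProductSpace ℂ K] [CompleteSpace K]
variable {𝕜 : Type} [NormedField 𝕜] [MeasurableSpace 𝕜] {ι θ : Type} [Fintype ι] [Fintype θ]

/-- **Whitney decomposition for the Carnot-Caratheodory distance of isotropic vectors.** -/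
theorem whitB (cl : Cells 𝕜) {σ : 𝕜 → 𝕜} {B : (ι → 𝕜) → (ι → 𝕜) → (θ → 𝕜)} {C₀ : ℝ}
    (h : Bf σ B C₀) (C₁ : ℝ)
    (hC₁ : 1 ≤ C₁) : ∃ (a b : ℝ) (M : ℕ), 1 ≤ a ∧ 1 ≤ b ∧
    ∀ {X κ : Type} [MeasurableSpace X] (s : X → ι → 𝕜), Measurable s → (∀ x, Nrm (s x)) →
    (∀ x, B (s x) (s x) = 0) →
    ∀ {Pz : Set X → (K →L[ℂ] K)}, Pv Pz → ∀ (J : ℕ) (S : Finset κ) (η : κ → ι → 𝕜),
    (∀ k ∈ S, ‖η k‖ ≤ C₁ ∧ (∃ j, η k j = 1) ∧ B (η k) (η k) = 0) →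
    ∀ (T : κ → (K →L[ℂ] K)) (C : ℝ), 0 ≤ C →
    (∀ m < J, ∀ S' ⊆ S, S'.Nonempty → ∀ A : Set X, MeasurableSet A → A.Nonempty →
      (∀ k ∈ S', ∀ x ∈ A, ‖wd (s x) (η k)‖ ≤ 2 * a * (1 / 2) ^ m ∧
        ‖B (s x) (η k)‖ ≤ 2 * b * ((1 / 2) ^ m) ^ 2 ∧
        ¬ (‖wd (s x) (η k)‖ ≤ a * (1 / 2) ^ (m + 1) ∧
          ‖B (s x) (η k)‖ ≤ b * ((1 / 2) ^ (m + 1)) ^ 2)) →
      ∀ v, ∑ k ∈ S', ‖T k (Pz A v)‖ ^ 2 ≤ C ^ 2 * ‖Pz A v‖ ^ 2) →
    (∀ S' ⊆ S, S'.Nonempty → ∀ A : Set X, MeasurableSet A → A.Nonempty →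
      (∀ k ∈ S', ∀ x ∈ A, ‖wd (s x) (η k)‖ ≤ 2 * a * (1 / 2) ^ J ∧
        ‖B (s x) (η k)‖ ≤ 2 * b * ((1 / 2) ^ J) ^ 2) →
      ∀ v, ∑ k ∈ S', ‖T k (Pz A v)‖ ^ 2 ≤ C ^ 2 * ‖Pz A v‖ ^ 2) →
    ∀ v, ∑ k ∈ S, ‖T k v‖ ^ 2 ≤ (M * (J + 1) * C) ^ 2 * ‖v‖ ^ 2 := by
  classical
  have h0 := h.one
  set a : ℝ := 2 * C₁ with ha
  set c : ℝ := c3 C₀ C₁ a (1 + C₀) with hc
  have hc0 : 0 ≤ c := by rw [hc, c3, ha]; positivity
  set b : ℝ := c + C₀ * C₁ with hb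
  have hb1 : 1 ≤ b := by nlinarith
  have ha1 : 1 ≤ a := by linarith
  obtain ⟨M₁, hM₁⟩ := lbB_count (cl := cl) h C₁ (2 * a) (2 * b) (by linarith)
  obtain ⟨M₂, hM₂⟩ := lbB_count (cl := cl) h C₁ (4 * a) (8 * b) (by linarith)
  refine ⟨a, b, max M₁ M₂, ha1, hb1, ?_⟩
  intro X κ _ s hs hn hiso Pz hPz J S η hη T C hC hun hlast v
  set Nr : κ → ℕ → X → Prop := fun k m x => ‖wd (s x) (η k)‖ ≤ a * (1 / 2) ^ m ∧
    ‖B (s x) (η k)‖ ≤ b * ((1 / 2) ^ m) ^ 2 with hNr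
  set R : κ → ℕ → X → Prop := fun k m x => ∃ x', lbB cl B s m x' = lbB cl B s m x ∧ Nr k m x'
    with hR
  have near : ∀ k ∈ S, ∀ m x, R k m x → ‖wd (s x) (η k)‖ ≤ 2 * a * (1 / 2) ^ m ∧
      ‖B (s x) (η k)‖ ≤ 2 * b * ((1 / 2) ^ m) ^ 2 := by
    intro k hk m x hx
    obtain ⟨x', h1, h2, h3⟩ := hx
    obtain ⟨h4, h5⟩ := lbB_small h hiso h1.symm
    obtain ⟨hη1, ⟨j, hj⟩, _⟩ := hη k hk
    have hp : (0 : ℝ) < (1 / 2) ^ m := by positivity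
    have k1 : ‖wd (s x - s x') (η k)‖ ≤ a * (1 / 2) ^ m := by
      refine (wd_le _ _).trans ?_
      calc 2 * (‖s x - s x'‖ * ‖η k‖) ≤ 2 * ((1 / 2) ^ m * C₁) := by gcongr
        _ = _ := by rw [ha]; ring
    have k2 := om_diff h hj hC₁ hη1 (nrm_one (hn x)) (nrm_one (hn x')) (hiso x') ha1 hp.le
      (by linarith : 0 ≤ 1 + C₀) h4 h5 h2
    constructor
    · have e : wd (s x) (η k) = wd (s x') (η k) + wd (s x - s x') (η k) := by
        rw [wd_sub]; abel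
      rw [e]
      refine (norm_add_le _ _).trans ?_
      linarith
    · have e : B (s x) (η k) = B (s x') (η k) + B (s x - s x') (η k) := by
        rw [h.sub]; abel
      rw [e]
      refine (norm_add_le _ _).trans ?_
      have : c ≤ b := by rw [hb]; nlinarith
      have : c * ((1 / 2) ^ m) ^ 2 ≤ b * ((1 / 2) ^ m) ^ 2 := by gcongr
      linarith
  have hmono' : ∀ k ∈ S, ∀ m x, R k (m + 1) x → Nr k m x := by
    intro k hk m x hx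
    obtain ⟨h1, h2⟩ := near k hk (m + 1) x hx
    have hp : (0 : ℝ) < (1 / 2) ^ m := by positivity
    have e : ((1 : ℝ) / 2) ^ (m + 1) = (1 / 2) ^ m * (1 / 2) := pow_succ _ _
    rw [e] at h1 h2
    constructor
    · refine h1.trans (le_of_eq ?_)
      ring
    · refine h2.trans ?_
      nlinarith [sq_nonneg ((1 / 2 : ℝ) ^ m)]
  refine whit hPz J (lbB cl B s) (lbB_fin h hn) (lbB_meas h hs) S R ?_ ?_ ?_ (max M₁ M₂) ?_ ?_
    T C hC ?_ ?_ v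
  · rintro k _ m x x' hxx ⟨x₀, h1, h2⟩
    exact ⟨x₀, h1.trans hxx, h2⟩
  · intro k hk m x hx
    exact ⟨x, rfl, hmono' k hk m x hx⟩
  · intro k hk x
    obtain ⟨hη1, _, _⟩ := hη k hk
    refine ⟨x, rfl, ?_, ?_⟩
    · refine (wd_le _ _).trans ?_
      rw [nrm_one (hn x), pow_zero, mul_one, one_mul, ha]
      linarith
    · have := h.le' (nrm_one (hn x)).le hη1
      rw [pow_zero, one_pow, mul_one]
      linarith
  · intro k hk m
    obtain ⟨hη1, hj, hη2⟩ := hη k hk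
    obtain ⟨F, hF1, hF2⟩ := hM₁ s hn hiso m (η k) hη1 hj hη2
    refine ⟨F, hF1.trans (le_max_left _ _), fun x hx => ?_⟩
    obtain ⟨h1, h2⟩ := near k hk m x hx
    exact hF2 x h1 h2
  · intro k hk m
    obtain ⟨hη1, hj, hη2⟩ := hη k hk
    obtain ⟨F, hF1, hF2⟩ := hM₂ s hn hiso (m + 1) (η k) hη1 hj hη2
    refine ⟨F, hF1.trans (le_max_right _ _), fun x hx => ?_⟩
    obtain ⟨h1, h2⟩ := near k hk m x hx
    have e : ((1 : ℝ) / 2) ^ (m + 1) = (1 / 2) ^ m * (1 / 2) := pow_succ _ _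
    refine hF2 x (h1.trans (le_of_eq ?_)) (h2.trans (le_of_eq ?_))
    · rw [e]; ring
    · rw [e]; ring
  · intro m hm S' hS' hne A hA hAne hRA w
    refine hun m hm S' hS' hne A hA hAne (fun k hk x hx => ?_) w
    obtain ⟨h1, h2⟩ := hRA k hk x hx
    obtain ⟨h3, h4⟩ := near k (hS' hk) m x h1
    exact ⟨h3, h4, fun h5 => h2 ⟨x, rfl, h5⟩⟩
  · intro S' hS' hne A hA hAne hRA w
    exact hlast S' hS' hne A hA hAne (fun k hk x hx => near k (hS' hk) J x (hRA k hk x hx)) w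

end main

end Vale.Agent.P092.H261.K3
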