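import Mathlib

set_option linter.all false

/-!
# Team P, row (S): synthesis on the incidence relation for two non-commuting ucp maps

`s1` : if `∑ u_r(y) v_r(z)` vanishes on the incidence relation, then `∑ E(u_r) F(v_r) = 0`.
-/

open scoped InnerProductSpace
open ContinuousLinearMap Finset

namespace Vale.Agent.P092.H261.PS

variable {K : Type*} [NormedAddCommGroup K] [InnerProductSpace ℂ K] [CompleteSpace K]
  {Y Z : Type*}

section defs

variable [TopologicalSpace Y] [TopologicalSpace Z]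

/-- What is used of a ucp map on `C(Y)`: it respects adjoints and the Kadison inequality. -/
structure Ucp (E : C(Y, ℂ) →ₗ[ℂ] (K →L[ℂ] K)) : Prop where
  adj : ∀ f, adjoint (E f) = E (star f)
  kad : ∀ {α : Type} (s : Finset α) (g : α → C(Y, ℂ)) (C : ℝ), 0 ≤ C →
    (∀ y, ∑ a ∈ s, ‖g a y‖ ^ 2 ≤ C) → ∀ ξ, ∑ a ∈ s, ‖E (g a) ξ‖ ^ 2 ≤ C * ‖ξ‖ ^ 2

/-- The supports are not incident. -/
def Off (I : Y → Z → Prop) (f : C(Y, ℂ)) (g : C(Z, ℂ)) : Prop :=
  ∀ y ∈ tsupport f, ∀ z ∈ tsupport g, ¬ I y z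

end defs

/-- Lipschitz functions. -/
def Lp {Y : Type*} [PseudoMetricSpace Y] (f : Y → ℂ) : Prop :=
  ∃ C : ℝ, 0 ≤ C ∧ ∀ x y, ‖f x - f y‖ ≤ C * dist x y

/-- Cells of lines of size `ε`, every point is close to at most `N` of them. -/
structure Cells [PseudoMetricSpace Y] [PseudoMetricSpace Z] (I : Y → Z → Prop) (ε N : ℝ)
    (A : Type) [Fintype A] (ψ : A → C(Z, ℂ)) (θ : A → C(Y, ℂ)) (l : A → Z) : Prop where
  one : ∀ z, ∑ a, ψ a z = 1
  sq : ∀ z, ∑ a, ‖ψ a z‖ ^ 2 ≤ 1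
  diam : ∀ a, ∀ z, ψ a z ≠ 0 → dist z (l a) ≤ ε
  off : ∀ a, ∀ y ∈ tsupport (1 - θ a : C(Y, ℂ)), ∀ z ∈ tsupport (ψ a), ¬ I y z
  near : ∀ a y, θ a y ≠ 0 → ∃ y' z', I y' z' ∧ dist y y' ≤ ε ∧ dist z' (l a) ≤ ε
  cnt : ∀ y, ∑ a, ‖θ a y‖ ^ 2 ≤ N

/-- Arbitrarily fine cells with a number of neighbours which is `o(ε⁻²)`. -/
def Fine [PseudoMetricSpace Y] [PseudoMetricSpace Z] (I : Y → Z → Prop) : Prop :=
  ∀ δ : ℝ, 0 < δ → ∃ (ε N : ℝ) (n : ℕ) (ψ : Fin n → C(Z, ℂ)) (θ : Fin n → C(Y, ℂ))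
    (l : Fin n → Z), 0 < ε ∧ 0 ≤ N ∧ ε ^ 2 * N ≤ δ ∧ Cells I ε N (Fin n) ψ θ l

section basic

variable [TopologicalSpace Y] {E : C(Y, ℂ) →ₗ[ℂ] (K →L[ℂ] K)}

theorem Ucp.bd (h : Ucp E) (f : C(Y, ℂ)) {C : ℝ} (hC : 0 ≤ C) (hf : ∀ y, ‖f y‖ ≤ C) :
    ‖E f‖ ≤ C := by
  refine ContinuousLinearMap.opNorm_le_bound _ hC fun ξ => ?_
  have h1 := h.kad ({0} : Finset ℕ) (fun _ => f) (C ^ 2) (by positivity) (by
    intro y; simp only [sum_singleton]
    exact pow_le_pow_left₀ (norm_nonneg _) (hf y) 2) ξ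
  simp only [sum_singleton] at h1
  have h2 : ‖E f ξ‖ ^ 2 ≤ (C * ‖ξ‖) ^ 2 := by rw [mul_pow]; exact h1
  exact (abs_le_of_sq_le_sq' h2 (by positivity)).2

/-- The bilinear estimate. -/
theorem bil [TopologicalSpace Z] (hE : Ucp E) {F : C(Z, ℂ) →ₗ[ℂ] (K →L[ℂ] K)} (hF : Ucp F)
    {α : Type} (s : Finset α) (g : α → C(Y, ℂ)) (h : α → C(Z, ℂ)) {A B : ℝ} (hA : 0 ≤ A)
    (hB : 0 ≤ B) (hg : ∀ y, ∑ a ∈ s, ‖g a y‖ ^ 2 ≤ A) (hh : ∀ z, ∑ a ∈ s, ‖h a z‖ ^ 2 ≤ B) :
    ‖∑ a ∈ s, E (g a) * F (h a)‖ ≤ Real.sqrt A * Real.sqrt B := by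
  refine ContinuousLinearMap.opNorm_le_bound _ (by positivity) fun ξ => ?_
  set ζ : K := (∑ a ∈ s, E (g a) * F (h a)) ξ with hζ
  have h1 : ∑ a ∈ s, ‖F (h a) ξ‖ ^ 2 ≤ B * ‖ξ‖ ^ 2 := hF.kad s h B hB hh ξ
  have h2 : ∑ a ∈ s, ‖E (star (g a)) ζ‖ ^ 2 ≤ A * ‖ζ‖ ^ 2 := by
    refine hE.kad s (fun a => star (g a)) A hA (fun y => ?_) ζ
    refine le_trans (le_of_eq ?_) (hg y)
    refine sum_congr rfl fun a _ => ?_
    rw [ContinuousMap.star_apply, norm_star]
  have h3 : ‖ζ‖ ^ 2 ≤ ∑ a ∈ s, ‖F (h a) ξ‖ * ‖E (star (g a)) ζ‖ := by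
    have e1 : (‖ζ‖ : ℝ) ^ 2 = ‖⟪ζ, ζ⟫_ℂ‖ := by
      rw [inner_self_eq_norm_sq_to_K]; simp
    have e2 : ⟪ζ, ζ⟫_ℂ = ∑ a ∈ s, ⟪E (star (g a)) ζ, F (h a) ξ⟫_ℂ := by
      conv_lhs => rw [show (⟪ζ, ζ⟫_ℂ) = ⟪ζ, (∑ a ∈ s, E (g a) * F (h a)) ξ⟫_ℂ from rfl]
      rw [ContinuousLinearMap.sum_apply, inner_sum]
      refine sum_congr rfl fun a _ => ?_
      rw [← hE.adj (g a), adjoint_inner_left]; rfl
    rw [e1, e2]
    refine (norm_sum_le _ _).trans (sum_le_sum fun a _ => ?_)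
    refine (norm_inner_le_norm _ _).trans (le_of_eq (mul_comm _ _))
  have h4 : ∑ a ∈ s, ‖F (h a) ξ‖ * ‖E (star (g a)) ζ‖ ≤
      Real.sqrt (B * ‖ξ‖ ^ 2) * Real.sqrt (A * ‖ζ‖ ^ 2) := by
    refine (Real.sum_mul_le_sqrt_mul_sqrt s _ _).trans ?_
    exact mul_le_mul (Real.sqrt_le_sqrt h1) (Real.sqrt_le_sqrt h2) (Real.sqrt_nonneg _)
      (Real.sqrt_nonneg _)
  rw [Real.sqrt_mul hB, Real.sqrt_mul hA, Real.sqrt_sq (norm_nonneg _),
    Real.sqrt_sq (norm_nonneg _)] at h4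
  have h5 : ‖ζ‖ ^ 2 ≤ (Real.sqrt A * Real.sqrt B * ‖ξ‖) * ‖ζ‖ := by
    refine (h3.trans h4).trans (le_of_eq (by ring))
  by_cases h6 : ‖ζ‖ = 0
  · rw [h6]; positivity
  · have h7 : 0 < ‖ζ‖ := lt_of_le_of_ne (norm_nonneg _) (Ne.symm h6)
    rw [sq] at h5
    exact le_of_mul_le_mul_right h5 h7

end basic

section synth

variable [PseudoMetricSpace Y] [PseudoMetricSpace Z] [CompactSpace Y] [CompactSpace Z]
  {I : Y → Z → Prop} {E : C(Y, ℂ) →ₗ[ℂ] (K →L[ℂ] K)} {F : C(Z, ℂ) →ₗ[ℂ] (K →L[ℂ] K)}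

theorem exists_bd (f : C(Y, ℂ)) : ∃ C : ℝ, 0 ≤ C ∧ ∀ y, ‖f y‖ ≤ C :=
  ⟨‖f‖, norm_nonneg _, fun y => f.norm_coe_le_norm y⟩

/-- `E(u) F(v ψ_a)` only sees the points close to the cell. -/
theorem cut (hinc : ∀ f g, Off I f g → E f * F g = 0) {ε N : ℝ} {A : Type} [Fintype A]
    {ψ : A → C(Z, ℂ)} {θ : A → C(Y, ℂ)} {l : A → Z} (hc : Cells I ε N A ψ θ l) (a : A)
    (u : C(Y, ℂ)) (v : C(Z, ℂ)) : E u * F (v * ψ a) = E (u * θ a) * F (v * ψ a) := by
  have h1 : E (u * (1 - θ a)) * F (v * ψ a) = 0 := by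
    refine hinc _ _ fun y hy z hz => hc.off a y ?_ z ?_
    · exact (tsupport_mul_subset_right (f := (u : Y → ℂ)) (g := ((1 - θ a : C(Y, ℂ)) : Y → ℂ)))
        hy
    · exact (tsupport_mul_subset_right (f := (v : Z → ℂ)) (g := (ψ a : Z → ℂ)))
        hz
  have h2 : u = u * θ a + u * (1 - θ a) := by ring
  conv_lhs => rw [h2, map_add, add_mul, h1, add_zero]

/-- **Synthesis, one order.** -/
theorem s1 (hE : Ucp E) (hF : Ucp F) (hinc : ∀ f g, Off I f g → E f * F g = 0) (hfine : Fine I)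
    {ρ : Type} (s : Finset ρ) (u : ρ → C(Y, ℂ)) (v : ρ → C(Z, ℂ))
    (hu : ∀ r ∈ s, Lp (u r)) (hv : ∀ r ∈ s, Lp (v r))
    (h0 : ∀ y z, I y z → ∑ r ∈ s, u r y * v r z = 0) : ∑ r ∈ s, E (u r) * F (v r) = 0 := by
  classical
  -- constants
  choose! Lu hLu0 hLu using hu
  choose! Lv hLv0 hLv using hv
  have hcu : ∀ r, ∃ C : ℝ, 0 ≤ C ∧ ∀ y, ‖u r y‖ ≤ C := fun r => exists_bd (u r)
  have hcv : ∀ r, ∃ C : ℝ, 0 ≤ C ∧ ∀ y, ‖v r y‖ ≤ C := fun r => exists_bd (v r)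
  choose Cu hCu0 hCu using hcu
  choose Cv hCv0 hCv using hcv
  set L : ℝ := ∑ r ∈ s, (Lu r * Cv r + Cu r * Lv r) with hL
  set L' : ℝ := ∑ r ∈ s, Cu r * Lv r with hL'
  have hL0 : 0 ≤ L := sum_nonneg fun r hr =>
    add_nonneg (mul_nonneg (hLu0 r hr) (hCv0 r)) (mul_nonneg (hCu0 r) (hLv0 r hr))
  have hL'0 : 0 ≤ L' := sum_nonneg fun r hr => mul_nonneg (hCu0 r) (hLv0 r hr)
  have key : ∀ δ : ℝ, 0 < δ → ‖∑ r ∈ s, E (u r) * F (v r)‖ ≤ (L + L') * δ := by
    intro δ hδ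
    obtain ⟨ε, N, n, ψ, θ, l, hε, hN, hεN, hc⟩ := hfine (δ ^ 2) (by positivity)
    have hsq : ε * Real.sqrt N ≤ δ := by
      have : (ε * Real.sqrt N) ^ 2 ≤ δ ^ 2 := by
        rw [mul_pow, Real.sq_sqrt hN]; exact hεN
      exact (abs_le_of_sq_le_sq' this hδ.le).2
    have hone : ∀ r, v r = ∑ a, v r * ψ a := by
      intro r
      ext z
      rw [← Finset.mul_sum]
      have := hc.one z
      simp only [ContinuousMap.mul_apply, ContinuousMap.coe_sum, Finset.sum_apply]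
      rw [this, mul_one]
    have e1 : ∑ r ∈ s, E (u r) * F (v r) =
        (∑ a, E (∑ r ∈ s, (v r (l a)) • (u r * θ a)) * F (ψ a)) +
        ∑ r ∈ s, ∑ a, E (u r * θ a) * F ((v r - algebraMap ℂ C(Z, ℂ) (v r (l a))) * ψ a) := by
      have e2 : ∀ r, E (u r) * F (v r) = ∑ a, E (u r * θ a) * F (v r * ψ a) := by
        intro r
        conv_lhs => rw [hone r, map_sum, mul_sum]
        exact sum_congr rfl fun a _ => cut hinc hc a _ _
      have e3 : ∀ r a, E (u r * θ a) * F (v r * ψ a) =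
          E ((v r (l a)) • (u r * θ a)) * F (ψ a) +
          E (u r * θ a) * F ((v r - algebraMap ℂ C(Z, ℂ) (v r (l a))) * ψ a) := by
        intro r a
        have e4 : v r * ψ a = (v r (l a)) • ψ a +
            (v r - algebraMap ℂ C(Z, ℂ) (v r (l a))) * ψ a := by
          rw [sub_mul, ← Algebra.smul_def]; ring
        conv_lhs => rw [e4, map_add, mul_add, map_smul, mul_smul_comm, ← smul_mul_assoc,
          ← map_smul]
      have e5 : ∀ a, E (∑ r ∈ s, (v r (l a)) • (u r * θ a)) * F (ψ a) =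
          ∑ r ∈ s, E ((v r (l a)) • (u r * θ a)) * F (ψ a) := by
        intro a
        rw [map_sum, sum_mul]
      simp_rw [e5]
      rw [sum_comm (s := Finset.univ), ← sum_add_distrib]
      refine sum_congr rfl fun r _ => ?_
      rw [e2 r, ← sum_add_distrib]
      exact sum_congr rfl fun a _ => e3 r a
    have b1 : ‖∑ a, E (∑ r ∈ s, (v r (l a)) • (u r * θ a)) * F (ψ a)‖ ≤
        Real.sqrt ((L * ε) ^ 2 * N) * Real.sqrt 1 := by
      refine bil hE hF Finset.univ _ _ (by positivity) zero_le_one (fun y => ?_) hc.sq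
      refine le_trans (sum_le_sum (g := fun a => (L * ε) ^ 2 * ‖θ a y‖ ^ 2) fun a _ => ?_) ?_
      · have e6 : (∑ r ∈ s, (v r (l a)) • (u r * θ a) : C(Y, ℂ)) y =
            (∑ r ∈ s, u r y * v r (l a)) * θ a y := by
          rw [ContinuousMap.coe_sum, Finset.sum_apply, sum_mul]
          refine sum_congr rfl fun r _ => ?_
          rw [ContinuousMap.smul_apply, ContinuousMap.mul_apply, smul_eq_mul]; ring
        rw [e6, norm_mul, mul_pow]
        by_cases hθ : θ a y = 0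
        · rw [hθ]; simp
        refine mul_le_mul_of_nonneg_right ?_ (by positivity)
        refine pow_le_pow_left₀ (norm_nonneg _) ?_ 2
        obtain ⟨y', z', hI, hy, hz⟩ := hc.near a y hθ
        have e7 : ∑ r ∈ s, u r y * v r (l a) =
            ∑ r ∈ s, ((u r y - u r y') * v r (l a) + u r y' * (v r (l a) - v r z')) := by
          have e8 : ∑ r ∈ s, u r y * v r (l a) =
              ∑ r ∈ s, u r y * v r (l a) - ∑ r ∈ s, u r y' * v r z' := by
            rw [h0 y' z' hI, sub_zero]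
          rw [e8, ← sum_sub_distrib]
          exact sum_congr rfl fun r _ => by ring
        rw [e7, hL, sum_mul]
        refine (norm_sum_le _ _).trans (sum_le_sum fun r hr => ?_)
        refine (norm_add_le _ _).trans ?_
        rw [norm_mul, norm_mul, add_mul]
        refine add_le_add ?_ ?_
        · have := hLu r hr y y'
          calc ‖u r y - u r y'‖ * ‖v r (l a)‖ ≤ (Lu r * ε) * Cv r :=
                mul_le_mul (this.trans (mul_le_mul_of_nonneg_left hy (hLu0 r hr)))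
                  (hCv r _) (norm_nonneg _) (mul_nonneg (hLu0 r hr) hε.le)
            _ = Lu r * Cv r * ε := by ring
        · have := hLv r hr (l a) z'
          rw [dist_comm] at this
          calc ‖u r y'‖ * ‖v r (l a) - v r z'‖ ≤ Cu r * (Lv r * ε) :=
                mul_le_mul (hCu r _) (this.trans (mul_le_mul_of_nonneg_left hz (hLv0 r hr)))
                  (norm_nonneg _) (hCu0 r)
            _ = Cu r * Lv r * ε := by ring
      · rw [← mul_sum]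
        exact mul_le_mul_of_nonneg_left (hc.cnt y) (by positivity)
    have b2 : ∀ r ∈ s,
        ‖∑ a, E (u r * θ a) * F ((v r - algebraMap ℂ C(Z, ℂ) (v r (l a))) * ψ a)‖ ≤
        Real.sqrt ((Cu r) ^ 2 * N) * Real.sqrt ((Lv r * ε) ^ 2) := by
      intro r hr
      have h1 := hCu0 r
      refine bil hE hF Finset.univ _ _ (by positivity) (by positivity) (fun y => ?_) fun z => ?_
      · refine le_trans (sum_le_sum (g := fun a => (Cu r) ^ 2 * ‖θ a y‖ ^ 2) fun a _ => ?_) ?_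
        · rw [ContinuousMap.mul_apply, norm_mul, mul_pow]
          exact mul_le_mul_of_nonneg_right (pow_le_pow_left₀ (norm_nonneg _) (hCu r y) 2)
            (by positivity)
        · rw [← mul_sum]
          exact mul_le_mul_of_nonneg_left (hc.cnt y) (by positivity)
      · refine le_trans (sum_le_sum (g := fun a => (Lv r * ε) ^ 2 * ‖ψ a z‖ ^ 2) fun a _ => ?_) ?_
        · rw [ContinuousMap.mul_apply, norm_mul, mul_pow]
          by_cases hψ : ψ a z = 0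
          · rw [hψ]; simp
          refine mul_le_mul_of_nonneg_right (pow_le_pow_left₀ (norm_nonneg _) ?_ 2)
            (by positivity)
          have e9 : (v r - algebraMap ℂ C(Z, ℂ) (v r (l a))) z = v r z - v r (l a) := by
            rw [ContinuousMap.sub_apply]
            rfl
          rw [e9]
          exact (hLv r hr _ _).trans (mul_le_mul_of_nonneg_left (hc.diam a z hψ) (hLv0 r hr))
        · rw [← mul_sum]
          exact (mul_le_mul_of_nonneg_left (hc.sq z) (by positivity)).trans (by rw [mul_one])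
    rw [e1]
    refine (norm_add_le _ _).trans ?_
    rw [add_mul]
    refine add_le_add ?_ ?_
    · refine b1.trans ?_
      rw [Real.sqrt_one, mul_one, Real.sqrt_mul (by positivity), Real.sqrt_sq (by positivity)]
      calc L * ε * Real.sqrt N = L * (ε * Real.sqrt N) := by ring
        _ ≤ L * δ := mul_le_mul_of_nonneg_left hsq hL0
    · rw [hL', sum_mul]
      refine (norm_sum_le _ _).trans (sum_le_sum fun r hr => (b2 r hr).trans ?_)
      have h1 := hCu0 r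
      have h2 := hLv0 r hr
      rw [Real.sqrt_mul (by positivity), Real.sqrt_sq h1, Real.sqrt_sq (by positivity)]
      calc Cu r * Real.sqrt N * (Lv r * ε) = Cu r * Lv r * (ε * Real.sqrt N) := by ring
        _ ≤ Cu r * Lv r * δ := mul_le_mul_of_nonneg_left hsq (by positivity)
  by_contra hne
  have hpos : 0 < ‖∑ r ∈ s, E (u r) * F (v r)‖ := norm_pos_iff.mpr hne
  have h3 := key (‖∑ r ∈ s, E (u r) * F (v r)‖ / (2 * (L + L' + 1))) (by positivity)
  have h4 : (L + L') * (‖∑ r ∈ s, E (u r) * F (v r)‖ / (2 * (L + L' + 1))) ≤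
      ‖∑ r ∈ s, E (u r) * F (v r)‖ / 2 := by
    rw [mul_div_assoc', div_le_div_iff₀ (by positivity) (by norm_num)]
    nlinarith
  linarith

/-- Lipschitz functions: conjugate. -/
theorem Lp.conj {f : C(Y, ℂ)} (h : Lp f) : Lp (star f : C(Y, ℂ)) := by
  obtain ⟨C, hC, h⟩ := h
  refine ⟨C, hC, fun x y => ?_⟩
  have : (star f : C(Y, ℂ)) x - (star f : C(Y, ℂ)) y = star (f x - f y) := by
    rw [ContinuousMap.star_apply, ContinuousMap.star_apply, star_sub]
  rw [this, norm_star]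
  exact h x y

/-- **Synthesis, the other order.** -/
theorem s1' (hE : Ucp E) (hF : Ucp F) (hinc : ∀ f g, Off I f g → E f * F g = 0) (hfine : Fine I)
    {ρ : Type} (s : Finset ρ) (u : ρ → C(Y, ℂ)) (v : ρ → C(Z, ℂ))
    (hu : ∀ r ∈ s, Lp (u r)) (hv : ∀ r ∈ s, Lp (v r))
    (h0 : ∀ y z, I y z → ∑ r ∈ s, u r y * v r z = 0) : ∑ r ∈ s, F (v r) * E (u r) = 0 := by
  have h1 := s1 hE hF hinc hfine s (fun r => star (u r)) (fun r => star (v r))
    (fun r hr => (hu r hr).conj) (fun r hr => (hv r hr).conj) (fun y z hI => by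
      have h2 := congrArg star (h0 y z hI)
      rw [star_sum, star_zero] at h2
      rw [← h2]
      refine sum_congr rfl fun r _ => ?_
      rw [ContinuousMap.star_apply, ContinuousMap.star_apply, star_mul, mul_comm])
  have h3 := congrArg adjoint h1
  rw [map_zero, map_sum] at h3
  rw [← h3]
  refine sum_congr rfl fun r _ => ?_
  rw [← hE.adj, ← hF.adj, ← ContinuousLinearMap.star_eq_adjoint,
    ← ContinuousLinearMap.star_eq_adjoint, ← ContinuousLinearMap.star_eq_adjoint, star_mul,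
    star_star, star_star]

end synth

end Vale.Agent.P092.H261.PS
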