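import Vale.Agent.P092.H261.PS1

set_option linter.all false

/-!
# Team P, row (S): the difference of two line calculi does not connect disjoint supports
-/

open scoped InnerProductSpace Topology
open ContinuousLinearMap Finset

namespace Vale.Agent.P092.H261.PS

variable {K : Type*} [NormedAddCommGroup K] [InnerProductSpace ℂ K] [CompleteSpace K]
  {Y Z : Type*}

section lip

variable [PseudoMetricSpace Y] [CompactSpace Y]

theorem Lp.const (c : ℂ) : Lp (algebraMap ℂ C(Y, ℂ) c) :=
  ⟨0, le_rfl, fun x y => by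
    have : (algebraMap ℂ C(Y, ℂ) c) x - (algebraMap ℂ C(Y, ℂ) c) y = 0 := sub_self _
    rw [this]; simp⟩

theorem Lp.add {f g : C(Y, ℂ)} (hf : Lp f) (hg : Lp g) : Lp (f + g : C(Y, ℂ)) := by
  obtain ⟨C, hC, hf⟩ := hf
  obtain ⟨D, hD, hg⟩ := hg
  refine ⟨C + D, by positivity, fun x y => ?_⟩
  have : (f + g) x - (f + g) y = (f x - f y) + (g x - g y) := by
    simp only [ContinuousMap.add_apply]; ring
  rw [this, add_mul]
  exact (norm_add_le _ _).trans (add_le_add (hf x y) (hg x y))

theorem Lp.mul {f g : C(Y, ℂ)} (hf : Lp f) (hg : Lp g) : Lp (f * g : C(Y, ℂ)) := by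
  obtain ⟨C, hC, hf⟩ := hf
  obtain ⟨D, hD, hg⟩ := hg
  refine ⟨C * ‖g‖ + ‖f‖ * D, by positivity, fun x y => ?_⟩
  have : (f * g) x - (f * g) y = (f x - f y) * g x + f y * (g x - g y) := by
    simp only [ContinuousMap.mul_apply]; ring
  rw [this, add_mul]
  refine (norm_add_le _ _).trans (add_le_add ?_ ?_)
  · rw [norm_mul]
    calc ‖f x - f y‖ * ‖g x‖ ≤ (C * dist x y) * ‖g‖ :=
          mul_le_mul (hf x y) (g.norm_coe_le_norm x) (norm_nonneg _) (by positivity)
      _ = C * ‖g‖ * dist x y := by ring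
  · rw [norm_mul]
    calc ‖f y‖ * ‖g x - g y‖ ≤ ‖f‖ * (D * dist x y) :=
          mul_le_mul (f.norm_coe_le_norm y) (hg x y) (norm_nonneg _) (norm_nonneg _)
      _ = ‖f‖ * D * dist x y := by ring

theorem Lp.smul {f : C(Y, ℂ)} (c : ℂ) (hf : Lp f) : Lp (c • f : C(Y, ℂ)) := by
  rw [Algebra.smul_def]; exact (Lp.const c).mul hf

theorem Lp.neg {f : C(Y, ℂ)} (hf : Lp f) : Lp (-f : C(Y, ℂ)) := by
  have := hf.smul (-1)
  rwa [neg_one_smul] at this

theorem Lp.sum {ι : Type*} (s : Finset ι) {f : ι → C(Y, ℂ)} (hf : ∀ i ∈ s, Lp (f i)) :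
    Lp (∑ i ∈ s, f i : C(Y, ℂ)) := by
  classical
  induction s using Finset.induction_on with
  | empty =>
    have := Lp.const (Y := Y) 0
    rwa [map_zero] at this
  | insert a s ha ih =>
    rw [sum_insert ha]
    exact (hf a (mem_insert_self a s)).add (ih fun i hi => hf i (mem_insert_of_mem hi))

theorem Lp.pow {f : C(Y, ℂ)} (hf : Lp f) (n : ℕ) : Lp (f ^ n : C(Y, ℂ)) := by
  induction n with
  | zero =>
    have := Lp.const (Y := Y) 1
    rwa [map_one, ← pow_zero f] at this
  | succ n ih => rw [pow_succ]; exact ih.mul hf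

/-- A finite Lipschitz partition of unity, with centres. -/
theorem exists_part {δ : ℝ} (hδ : 0 < δ) (S : Finset Y)
    (hS : ∀ y : Y, ∃ s ∈ S, dist y s ≤ δ / 2) :
    ∃ φ : Y → C(Y, ℂ), (∀ s, Lp (φ s)) ∧ (∀ s y, 0 ≤ (φ s y).re ∧ (φ s y).im = 0) ∧
      (∀ s ∈ S, ∀ y, φ s y ≠ 0 → dist y s < δ) ∧ (∀ y, ∑ s ∈ S, φ s y = 1) := by
  classical
  -- the bumps
  set h : Y → Y → ℝ := fun s y => max 0 (δ - dist y s) with hh
  have hhc : ∀ s, Continuous (h s) := fun s => by
    simp only [hh]; fun_prop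
  have hh0 : ∀ s y, 0 ≤ h s y := fun s y => le_max_left _ _
  have hhl : ∀ s x y, |h s x - h s y| ≤ dist x y := by
    intro s x y
    have h1 : |max 0 (δ - dist x s) - max 0 (δ - dist y s)| ≤
        |(δ - dist x s) - (δ - dist y s)| := by
      have := abs_max_sub_max_le_abs (δ - dist x s) (δ - dist y s) 0
      rwa [max_comm (δ - dist x s), max_comm (δ - dist y s)] at this
    refine h1.trans ?_
    have h2 : (δ - dist x s) - (δ - dist y s) = dist y s - dist x s := by ring
    rw [h2]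
    have := abs_dist_sub_le y x s
    rwa [dist_comm y x] at this
  set H : Y → ℝ := fun y => ∑ s ∈ S, h s y with hH
  have hHc : Continuous H := continuous_finset_sum _ fun s _ => hhc s
  have hHδ : ∀ y, δ / 2 ≤ H y := by
    intro y
    obtain ⟨s, hs, hd⟩ := hS y
    have h1 : h s y ≤ H y := Finset.single_le_sum (fun t _ => hh0 t y) hs
    have h2 : δ - dist y s ≤ h s y := le_max_right _ _
    linarith
  have hHp : ∀ y, 0 < H y := fun y => lt_of_lt_of_le (by positivity) (hHδ y)
  have hHl : ∀ x y, |H x - H y| ≤ S.card * dist x y := by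
    intro x y
    rw [hH]
    simp only
    rw [← sum_sub_distrib]
    refine (Finset.abs_sum_le_sum_abs _ _).trans ?_
    refine (sum_le_sum fun s _ => hhl s x y).trans ?_
    rw [sum_const, nsmul_eq_mul]
  have hcont : ∀ s, Continuous fun y => ((h s y / H y : ℝ) : ℂ) := fun s =>
    Complex.continuous_ofReal.comp ((hhc s).div hHc fun y => (hHp y).ne')
  refine ⟨fun s => ⟨fun y => ((h s y / H y : ℝ) : ℂ), hcont s⟩, fun s => ?_, fun s y => ?_,
    fun s hs y hy => ?_, fun y => ?_⟩
  · -- Lipschitz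
    refine ⟨2 / δ + δ * S.card * (2 / δ) * (2 / δ), by positivity, fun x y => ?_⟩
    have e1 : ((⟨fun y => ((h s y / H y : ℝ) : ℂ), hcont s⟩ : C(Y, ℂ)) x -
        (⟨fun y => ((h s y / H y : ℝ) : ℂ), hcont s⟩ : C(Y, ℂ)) y) =
        ((h s x / H x - h s y / H y : ℝ) : ℂ) := by
      simp only [ContinuousMap.coe_mk]; push_cast; ring
    rw [e1, Complex.norm_real, Real.norm_eq_abs]
    have hx := hHp x
    have hy := hHp y
    have e2 : h s x / H x - h s y / H y =
        (h s x - h s y) / H x + h s y * (H y - H x) / (H x * H y) := by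
      field_simp; ring
    rw [e2]
    have hhδ : h s y ≤ δ := by
      refine max_le hδ.le ?_
      linarith [dist_nonneg (x := y) (y := s)]
    have inv1 : ∀ z, 1 / H z ≤ 2 / δ := fun z => by
      rw [div_le_div_iff₀ (hHp z) hδ]; linarith [hHδ z]
    refine (abs_add_le _ _).trans ?_
    rw [add_mul]
    refine add_le_add ?_ ?_
    · rw [abs_div, abs_of_pos hx, div_eq_mul_one_div]
      calc |h s x - h s y| * (1 / H x) ≤ dist x y * (2 / δ) :=
            mul_le_mul (hhl s x y) (inv1 x) (by positivity) dist_nonneg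
        _ = 2 / δ * dist x y := by ring
    · rw [abs_div, abs_mul, abs_of_nonneg (hh0 s y), abs_of_pos (mul_pos hx hy)]
      have e3 : h s y * |H y - H x| / (H x * H y) = h s y * |H y - H x| * (1 / H x) * (1 / H y) := by
        field_simp
      rw [e3]
      have h1 : |H y - H x| ≤ S.card * dist x y := by
        have := hHl y x
        rwa [dist_comm] at this
      calc h s y * |H y - H x| * (1 / H x) * (1 / H y)
          ≤ δ * (S.card * dist x y) * (2 / δ) * (2 / δ) := by
            have p1 := inv1 x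
            have p2 := inv1 y
            have p3 := hh0 s y
            gcongr
        _ = δ * S.card * (2 / δ) * (2 / δ) * dist x y := by ring
  · simp only [ContinuousMap.coe_mk, Complex.ofReal_re, Complex.ofReal_im, and_true]
    exact div_nonneg (hh0 s y) (hHp y).le
  · by_contra hcon
    apply hy
    have : h s y = 0 := by
      refine max_eq_left ?_
      linarith [not_lt.mp hcon]
    simp [this]
  · simp only [ContinuousMap.coe_mk]
    rw [← Complex.ofReal_sum, ← Finset.sum_div]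
    have : (∑ s ∈ S, h s y) = H y := rfl
    rw [this, div_self (hHp y).ne']; simp

/-- Finite nets. -/
theorem exists_net {δ : ℝ} (hδ : 0 < δ) : ∃ S : Finset Y, ∀ y : Y, ∃ s ∈ S, dist y s ≤ δ := by
  obtain ⟨t, ht, hc⟩ := (Metric.totallyBounded_iff.mp
    (isCompact_univ (X := Y)).totallyBounded) δ hδ
  obtain ⟨htf, hc⟩ : t.Finite ∧ _ := ⟨ht, hc⟩
  refine ⟨htf.toFinset, fun y => ?_⟩
  have := hc (Set.mem_univ y)
  simp only [Set.mem_iUnion, Metric.mem_ball, exists_prop] at this
  obtain ⟨s, hs, hd⟩ := this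
  exact ⟨s, htf.mem_toFinset.mpr hs, hd.le⟩

/-- Lipschitz functions are dense. -/
theorem exists_lp (f : C(Y, ℂ)) {ε : ℝ} (hε : 0 < ε) :
    ∃ g : C(Y, ℂ), Lp g ∧ ∀ y, ‖f y - g y‖ ≤ ε := by
  have hu : UniformContinuous f := CompactSpace.uniformContinuous_of_continuous f.continuous
  obtain ⟨δ, hδ, hd⟩ := Metric.uniformContinuous_iff.mp hu ε hε
  obtain ⟨S, hS⟩ := exists_net (Y := Y) (half_pos hδ)
  obtain ⟨φ, h1, h2, h3, h4⟩ := exists_part hδ S hS
  refine ⟨∑ s ∈ S, (f s) • φ s, Lp.sum S fun s _ => (h1 s).smul _, fun y => ?_⟩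
  have e1 : f y - (∑ s ∈ S, (f s) • φ s : C(Y, ℂ)) y = ∑ s ∈ S, (f y - f s) * φ s y := by
    rw [ContinuousMap.coe_sum, Finset.sum_apply]
    simp only [ContinuousMap.smul_apply, smul_eq_mul, sub_mul, sum_sub_distrib]
    rw [← mul_sum, h4 y, mul_one]
  rw [e1]
  have hn : ∀ s, ‖φ s y‖ = (φ s y).re := by
    intro s
    have : φ s y = (((φ s y).re : ℝ) : ℂ) := by
      apply Complex.ext <;> simp [(h2 s y).2]
    rw [this, Complex.norm_real, Real.norm_eq_abs, abs_of_nonneg (h2 s y).1, Complex.ofReal_re]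
  have hs1 : ∑ s ∈ S, ‖φ s y‖ = 1 := by
    simp_rw [hn]
    have := congrArg Complex.re (h4 y)
    rw [Complex.re_sum] at this
    rw [this]; simp
  calc ‖∑ s ∈ S, (f y - f s) * φ s y‖ ≤ ∑ s ∈ S, ε * ‖φ s y‖ := by
        refine (norm_sum_le _ _).trans (sum_le_sum fun s hs => ?_)
        rw [norm_mul]
        by_cases h0 : φ s y = 0
        · rw [h0]; simp
        refine mul_le_mul_of_nonneg_right ?_ (norm_nonneg _)
        have := hd (h3 s hs y h0)
        rw [dist_eq_norm] at this
        exact this.le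
    _ = ε := by rw [← mul_sum, hs1, mul_one]

end lip

end Vale.Agent.P092.H261.PS
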