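import Vale.Agent.P092.H261.PS2

set_option linter.all false

/-!
# Team P, row (S): trilinear words `E(u) L(g) E(u')`
-/

open scoped InnerProductSpace Topology
open ContinuousLinearMap Finset

namespace Vale.Agent.P092.H261.PS

variable {K : Type*} [NormedAddCommGroup K] [InnerProductSpace ℂ K] [CompleteSpace K]
  {Y Z : Type*}

/-- The relations between the point calculus `E` and a (difference of) line calculi `L`. -/
structure Rel [PseudoMetricSpace Y] [PseudoMetricSpace Z] [CompactSpace Z] (I : Y → Z → Prop)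
    (E : C(Y, ℂ) →ₗ[ℂ] (K →L[ℂ] K)) (L : C(Z, ℂ) →ₗ[ℂ] (K →L[ℂ] K)) : Prop where
  bd : ∃ C : ℝ, 0 ≤ C ∧ ∀ g, ‖L g‖ ≤ C * ‖g‖
  incl : ∀ f g, Off I f g → E f * L g = 0
  incr : ∀ f g, Off I f g → L g * E f = 0
  syl : ∀ (s : Finset (Fin 3)) (u : Fin 3 → C(Y, ℂ)) (v : Fin 3 → C(Z, ℂ)),
    (∀ r ∈ s, Lp (u r)) → (∀ r ∈ s, Lp (v r)) →
    (∀ y z, I y z → ∑ r ∈ s, u r y * v r z = 0) → ∑ r ∈ s, E (u r) * L (v r) = 0
  syr : ∀ (s : Finset (Fin 3)) (u : Fin 3 → C(Y, ℂ)) (v : Fin 3 → C(Z, ℂ)),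
    (∀ r ∈ s, Lp (u r)) → (∀ r ∈ s, Lp (v r)) →
    (∀ y z, I y z → ∑ r ∈ s, u r y * v r z = 0) → ∑ r ∈ s, L (v r) * E (u r) = 0

section rel

variable [PseudoMetricSpace Y] [PseudoMetricSpace Z] [CompactSpace Y] [CompactSpace Z]
  {I : Y → Z → Prop} {E : C(Y, ℂ) →ₗ[ℂ] (K →L[ℂ] K)} {F F' L : C(Z, ℂ) →ₗ[ℂ] (K →L[ℂ] K)}

/-- A line calculus. -/
theorem Rel.of (hE : Ucp E) (hF : Ucp F) (hinc : ∀ f g, Off I f g → E f * F g = 0)
    (hfine : Fine I) : Rel I E F where
  bd := ⟨1, zero_le_one, fun g => by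
    rw [one_mul]; exact hF.bd g (norm_nonneg _) fun y => g.norm_coe_le_norm y⟩
  incl := hinc
  incr := fun f g h => by
    have h1 : Off I (star f) (star g) := by
      intro y hy z hz
      refine h y ?_ z ?_
      · have : tsupport ((star f : C(Y, ℂ)) : Y → ℂ) = tsupport (f : Y → ℂ) := by
          unfold tsupport; congr 1; ext y; simp [Function.mem_support]
        rwa [this] at hy
      · have : tsupport ((star g : C(Z, ℂ)) : Z → ℂ) = tsupport (g : Z → ℂ) := by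
          unfold tsupport; congr 1; ext y; simp [Function.mem_support]
        rwa [this] at hz
    have h2 := congrArg adjoint (hinc _ _ h1)
    rw [map_zero, ← hE.adj, ← hF.adj, ← ContinuousLinearMap.star_eq_adjoint,
      ← ContinuousLinearMap.star_eq_adjoint, ← ContinuousLinearMap.star_eq_adjoint, star_mul,
      star_star, star_star] at h2
    exact h2
  syl := fun s u v hu hv h0 => s1 hE hF hinc hfine s u v hu hv h0
  syr := fun s u v hu hv h0 => s1' hE hF hinc hfine s u v hu hv h0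

/-- Differences. -/
theorem Rel.sub (h : Rel I E F) (h' : Rel I E F') : Rel I E (F - F') where
  bd := by
    obtain ⟨C, hC, h1⟩ := h.bd
    obtain ⟨D, hD, h2⟩ := h'.bd
    refine ⟨C + D, by positivity, fun g => ?_⟩
    rw [LinearMap.sub_apply, add_mul]
    exact (norm_sub_le _ _).trans (add_le_add (h1 g) (h2 g))
  incl := fun f g ho => by rw [LinearMap.sub_apply, mul_sub, h.incl f g ho, h'.incl f g ho, sub_zero]
  incr := fun f g ho => by rw [LinearMap.sub_apply, sub_mul, h.incr f g ho, h'.incr f g ho, sub_zero]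
  syl := fun s u v hu hv h0 => by
    simp only [LinearMap.sub_apply, mul_sub, sum_sub_distrib]
    rw [h.syl s u v hu hv h0, h'.syl s u v hu hv h0, sub_zero]
  syr := fun s u v hu hv h0 => by
    simp only [LinearMap.sub_apply, sub_mul, sum_sub_distrib]
    rw [h.syr s u v hu hv h0, h'.syr s u v hu hv h0, sub_zero]

/-- The lines meeting both sets. -/
def NN (I : Y → Z → Prop) (S S' : Set Y) : Set Z :=
  {z | (∃ y ∈ S, I y z) ∧ ∃ y ∈ S', I y z}

theorem isClosed_meet (hI : IsClosed {p : Y × Z | I p.1 p.2}) {S : Set Y} (hS : IsClosed S) :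
    IsClosed {z | ∃ y ∈ S, I y z} := by
  have h1 : {z | ∃ y ∈ S, I y z} = Prod.snd '' ({p : Y × Z | I p.1 p.2} ∩ (S ×ˢ Set.univ)) := by
    ext z
    constructor
    · rintro ⟨y, hy, h⟩
      exact ⟨(y, z), ⟨h, hy, trivial⟩, rfl⟩
    · rintro ⟨⟨y, z'⟩, ⟨h, hy, -⟩, rfl⟩
      exact ⟨y, hy, h⟩
  rw [h1]
  exact isClosedMap_snd_of_compactSpace _ (hI.inter (hS.prod isClosed_univ))

theorem isClosed_NN (hI : IsClosed {p : Y × Z | I p.1 p.2}) {S S' : Set Y} (hS : IsClosed S)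
    (hS' : IsClosed S') : IsClosed (NN I S S') :=
  (isClosed_meet hI hS).inter (isClosed_meet hI hS')

/-- Locality of the words. -/
theorem loc (hr : Rel I E L) (hI : IsClosed {p : Y × Z | I p.1 p.2}) {S S' : Set Y}
    (hS : IsClosed S) (hS' : IsClosed S') {u u' : C(Y, ℂ)} (hu : tsupport u ⊆ S)
    (hu' : tsupport u' ⊆ S') {g : C(Z, ℂ)} (hg : Disjoint (tsupport g) (NN I S S')) :
    E u * L g * E u' = 0 := by
  set O1 : Set Z := {z | ∃ y ∈ S, I y z}ᶜ with hO1
  set O2 : Set Z := {z | ∃ y ∈ S', I y z}ᶜ with hO2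
  have o1 : IsOpen O1 := (isClosed_meet hI hS).isOpen_compl
  have o2 : IsOpen O2 := (isClosed_meet hI hS').isOpen_compl
  have hcov : tsupport g ⊆ O1 ∪ O2 := by
    intro z hz
    by_contra hcon
    rw [Set.mem_union, not_or, hO1, hO2, Set.notMem_compl_iff, Set.notMem_compl_iff] at hcon
    exact Set.disjoint_left.mp hg hz ⟨hcon.1, hcon.2⟩
  set A : Set Z := tsupport g \ O2 with hA
  have hAc : IsClosed A := (isClosed_tsupport _).sdiff o2
  have hAO : A ⊆ O1 := fun z hz => (hcov hz.1).resolve_right hz.2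
  obtain ⟨V, hVo, hAV, hVO⟩ := normal_exists_closure_subset hAc o1 hAO
  obtain ⟨V1, hV1o, hAV1, hV1V⟩ := normal_exists_closure_subset hAc hVo hAV
  obtain ⟨φ, hφ0, hφ1, -⟩ := exists_continuous_zero_one_of_isClosed
    hVo.isClosed_compl (isClosed_closure (s := V1))
    (Set.disjoint_left.mpr fun z hz hz' => hz (hV1V hz'))
  set φc : C(Z, ℂ) := ⟨fun z => ((φ z : ℝ) : ℂ), by fun_prop⟩ with hφc
  have h1 : g = φc * g + (1 - φc) * g := by ring
  have s1 : tsupport ((φc * g : C(Z, ℂ)) : Z → ℂ) ⊆ O1 := by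
    have : tsupport ((φc * g : C(Z, ℂ)) : Z → ℂ) ⊆ tsupport (φc : Z → ℂ) :=
      tsupport_mul_subset_left (f := (φc : Z → ℂ)) (g := (g : Z → ℂ))
    refine this.trans ((closure_minimal ?_ isClosed_closure).trans hVO)
    intro z hz
    apply subset_closure
    by_contra hzV
    apply hz
    have : φ z = 0 := hφ0 hzV
    simp [hφc, this]
  have s2 : tsupport (((1 - φc) * g : C(Z, ℂ)) : Z → ℂ) ⊆ O2 := by
    have t1 : tsupport (((1 - φc) * g : C(Z, ℂ)) : Z → ℂ) ⊆ tsupport (g : Z → ℂ) :=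
      tsupport_mul_subset_right (f := ((1 - φc : C(Z, ℂ)) : Z → ℂ)) (g := (g : Z → ℂ))
    have t2 : tsupport (((1 - φc) * g : C(Z, ℂ)) : Z → ℂ) ⊆ V1ᶜ := by
      refine closure_minimal ?_ hV1o.isClosed_compl
      intro z hz hzV
      apply hz
      have : φ z = 1 := hφ1 (subset_closure hzV)
      simp [hφc, this]
    intro z hz
    by_contra hcon
    exact t2 hz (hAV1 ⟨t1 hz, hcon⟩)
  have z1 : E u * L (φc * g) = 0 := hr.incl _ _ fun y hy z hz hyz =>
    s1 hz ⟨y, hu hy, hyz⟩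
  have z2 : L ((1 - φc) * g) * E u' = 0 := hr.incr _ _ fun y hy z hz hyz =>
    s2 hz ⟨y, hu' hy, hyz⟩
  rw [h1, map_add, mul_add, z1, zero_add, mul_assoc, z2, mul_zero]

/-- A Lipschitz cut-off. -/
theorem exists_cut {N U : Set Z} (hN : IsClosed N) (hU : IsOpen U) (hNU : N ⊆ U) :
    ∃ χ : C(Z, ℂ), Lp χ ∧ (∀ z, χ z ≠ 0 → z ∈ U) ∧ (∀ z, ‖χ z‖ ≤ 1) ∧
      Disjoint (tsupport ((1 - χ : C(Z, ℂ)) : Z → ℂ)) N := by
  classical
  by_cases hne : (Set.univ : Set Z).Nonempty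
  swap
  · have he : IsEmpty Z := ⟨fun z => hne ⟨z, trivial⟩⟩
    exact ⟨1, ⟨0, le_rfl, fun x => (he.false x).elim⟩, fun z => (he.false z).elim,
      fun z => (he.false z).elim, Set.disjoint_left.mpr fun z => (he.false z).elim⟩
  -- positive distance
  obtain ⟨δ, hδ, hd⟩ : ∃ δ : ℝ, 0 < δ ∧ ∀ x ∈ N, ∀ y, y ∉ U → δ ≤ dist x y := by
    have := Metric.exists_pos_forall_lt_edist hN.isCompact hU.isClosed_compl
      (Set.disjoint_left.mpr fun z hz hz' => hz' (hNU hz))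
    obtain ⟨r, hr, h⟩ := this
    refine ⟨r, by exact_mod_cast hr, fun x hx y hy => ?_⟩
    have h1 := h x hx y hy
    rw [edist_nndist] at h1
    have h2 : r < nndist x y := by exact_mod_cast h1
    exact_mod_cast h2.le
  obtain ⟨S, hS⟩ := exists_net (Y := Z) (show (0 : ℝ) < δ / 8 by positivity)
  obtain ⟨φ, h1, h2, h3, h4⟩ := exists_part (show (0 : ℝ) < δ / 4 by positivity) S
    (fun y => by
      obtain ⟨s, hs, hd⟩ := hS y
      exact ⟨s, hs, by linarith⟩)
  have hn : ∀ s y, ‖φ s y‖ = (φ s y).re := by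
    intro s y
    have : φ s y = (((φ s y).re : ℝ) : ℂ) := by
      apply Complex.ext <;> simp [(h2 s y).2]
    rw [this, Complex.norm_real, Real.norm_eq_abs, abs_of_nonneg (h2 s y).1, Complex.ofReal_re]
  set T : Finset Z := S.filter fun s => ∃ x ∈ N, dist x s ≤ δ / 2 with hT
  refine ⟨∑ s ∈ T, φ s, Lp.sum T fun s _ => h1 s, fun z hz => ?_, fun z => ?_, ?_⟩
  · by_contra hzU
    apply hz
    rw [ContinuousMap.coe_sum, Finset.sum_apply]
    refine sum_eq_zero fun s hs => ?_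
    by_contra h0
    rw [hT, mem_filter] at hs
    obtain ⟨hsS, x, hx, hxs⟩ := hs
    have a1 := h3 s hsS z h0
    have a2 := hd x hx z hzU
    have a3 := dist_triangle x s z
    rw [dist_comm s z] at a3
    linarith
  · rw [ContinuousMap.coe_sum, Finset.sum_apply]
    refine (norm_sum_le _ _).trans ?_
    simp_rw [hn]
    have h5 : ∑ s ∈ T, (φ s z).re ≤ ∑ s ∈ S, (φ s z).re :=
      sum_le_sum_of_subset_of_nonneg (filter_subset _ _) fun s _ _ => (h2 s z).1
    refine h5.trans (le_of_eq ?_)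
    have := congrArg Complex.re (h4 z)
    rw [Complex.re_sum] at this
    rw [this]; simp
  · rw [Set.disjoint_left]
    intro z hz hzN
    -- 1 - χ vanishes near z
    have h6 : ∀ w, dist w z < δ / 4 → (1 - ∑ s ∈ T, φ s : C(Z, ℂ)) w = 0 := by
      intro w hw
      rw [ContinuousMap.sub_apply, ContinuousMap.one_apply, ContinuousMap.coe_sum,
        Finset.sum_apply, ← h4 w, hT, sub_eq_zero]
      symm
      refine sum_filter_of_ne fun s hs h0 => ?_
      refine ⟨z, hzN, ?_⟩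
      have a1 := h3 s hs w h0
      have a2 := dist_triangle z w s
      rw [dist_comm z w] at a2
      linarith
    rw [tsupport, mem_closure_iff_nhds] at hz
    obtain ⟨w, hw1, hw2⟩ := hz (Metric.ball z (δ / 4)) (Metric.ball_mem_nhds z (by positivity))
    exact hw2 (h6 w hw1)

/-- A chart for the pairs of points in `S × S'`. -/
structure Chart (I : Y → Z → Prop) (S S' : Set Y) (ι : Type) (x0 : C(Y, ℂ)) (x : ι → C(Y, ℂ))
    (b m : ι → C(Z, ℂ)) : Prop where
  lx0 : Lp x0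
  lx : ∀ i, Lp (x i)
  lb : ∀ i, Lp (b i)
  lm : ∀ i, Lp (m i)
  rb : ∀ i, star (b i) = b i
  rm : ∀ i, star (m i) = m i
  rel : ∃ U : Set Z, IsOpen U ∧ NN I S S' ⊆ U ∧ ∀ y ∈ S ∪ S', ∀ z ∈ U, I y z → ∀ i,
    x i y = b i z + m i z * x0 y
  lo : ∀ y ∈ S, ‖x0 y‖ ≤ 1 / 4
  hi : ∀ y ∈ S', 3 / 4 ≤ ‖x0 y‖
  sep : ∀ z ∈ NN I S S', ∀ z' ∈ NN I S S', (∀ i, b i z = b i z' ∧ m i z = m i z') → z = z'

end rel

end Vale.Agent.P092.H261.PS
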