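import Vale.Agent.P092.H261.PS3

set_option linter.all false

/-!
# Team P, row (S): the words `E(u) L(g) E(u')` vanish as soon as `E(u) L(1) E(u')` do
-/

open scoped InnerProductSpace Topology
open ContinuousLinearMap Finset

namespace Vale.Agent.P092.H261.PS

variable {K : Type*} [NormedAddCommGroup K] [InnerProductSpace ℂ K] [CompleteSpace K]
  {Y Z : Type*}

section words

variable [PseudoMetricSpace Y] [PseudoMetricSpace Z] [CompactSpace Y] [CompactSpace Z]
  {I : Y → Z → Prop} {E : C(Y, ℂ) →ₗ[ℂ] (K →L[ℂ] K)} {L : C(Z, ℂ) →ₗ[ℂ] (K →L[ℂ] K)}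

theorem Ucp.cont (hE : Ucp E) : Continuous E := by
  have h1 : ∀ f, ‖E f‖ ≤ 1 * ‖f‖ := fun f => by
    rw [one_mul]; exact hE.bd f (norm_nonneg _) fun y => f.norm_coe_le_norm y
  exact (E.mkContinuous 1 h1).continuous

/-- Lipschitz functions with support in `S` are dense. -/
theorem mem_closure_lp {S : Set Y} (u : C(Y, ℂ)) (hu : tsupport u ⊆ S) :
    u ∈ closure {v : C(Y, ℂ) | Lp v ∧ tsupport v ⊆ S} := by
  rw [Metric.mem_closure_iff]
  intro ε hε
  obtain ⟨f, hf, hfe⟩ := exists_lp u (show (0 : ℝ) < ε / 4 by positivity)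
  have hN : IsClosed {y | ε / 8 ≤ ‖u y‖} := isClosed_le continuous_const u.continuous.norm
  have hU : IsOpen {y | u y ≠ 0} := isOpen_ne_fun u.continuous continuous_const
  obtain ⟨χ, h1, h2, h3, h4⟩ := exists_cut hN hU (fun y (hy : ε / 8 ≤ ‖u y‖) (h0 : u y = 0) => by
    rw [h0, norm_zero] at hy; linarith)
  refine ⟨χ * f, ⟨h1.mul hf, ?_⟩, ?_⟩
  · refine (closure_minimal ?_ isClosed_closure).trans hu
    intro y hy
    apply subset_closure
    have : χ y ≠ 0 := fun h0 => hy (by simp [h0])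
    exact h2 y this
  · refine lt_of_le_of_lt ((ContinuousMap.dist_le (by positivity : (0 : ℝ) ≤ ε / 2)).mpr
      fun y => ?_) (by linarith)
    rw [dist_eq_norm, ContinuousMap.mul_apply]
    have e1 : u y - χ y * f y = (1 - χ y) * u y + χ y * (u y - f y) := by ring
    rw [e1]
    refine (norm_add_le _ _).trans ?_
    have h5 : ‖χ y * (u y - f y)‖ ≤ ε / 4 := by
      rw [norm_mul]
      calc ‖χ y‖ * ‖u y - f y‖ ≤ 1 * (ε / 4) :=
            mul_le_mul (h3 y) (hfe y) (norm_nonneg _) zero_le_one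
        _ = ε / 4 := one_mul _
    have h6 : ‖(1 - χ y) * u y‖ ≤ ε / 4 := by
      by_cases hy : ε / 8 ≤ ‖u y‖
      · have : (1 - χ : C(Y, ℂ)) y = 0 := by
          by_contra h0
          exact Set.disjoint_left.mp h4 (subset_closure h0) hy
        have h7 : 1 - χ y = 0 := this
        rw [h7, zero_mul, norm_zero]; positivity
      · have h8 : ‖1 - χ y‖ ≤ 2 := (norm_sub_le _ _).trans (by rw [norm_one]; linarith [h3 y])
        rw [norm_mul]
        calc ‖1 - χ y‖ * ‖u y‖ ≤ 2 * (ε / 8) :=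
              mul_le_mul h8 (not_le.mp hy).le (norm_nonneg _) (by norm_num)
          _ = ε / 4 := by ring
    linarith

/-- A relation for Lipschitz functions with supports in `S` holds for all functions. -/
theorem ext_lp {S : Set Y} {G : C(Y, ℂ) → (K →L[ℂ] K)} (hG : Continuous G)
    (h : ∀ u : C(Y, ℂ), Lp u → tsupport u ⊆ S → G u = 0) (u : C(Y, ℂ)) (hu : tsupport u ⊆ S) :
    G u = 0 := by
  have hcl : IsClosed {v : C(Y, ℂ) | G v = 0} := isClosed_eq hG continuous_const
  exact closure_minimal (fun v hv => h v hv.1 hv.2) hcl (mem_closure_lp u hu)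

/-- The words vanish. -/
def QQ (E : C(Y, ℂ) →ₗ[ℂ] (K →L[ℂ] K)) (L : C(Z, ℂ) →ₗ[ℂ] (K →L[ℂ] K)) (S S' : Set Y)
    (P : C(Z, ℂ)) : Prop :=
  Lp P ∧ ∀ u u' : C(Y, ℂ), tsupport u ⊆ S → tsupport u' ⊆ S' → E u * L P * E u' = 0

theorem tsupp_mul_right {S : Set Y} (f : C(Y, ℂ)) {u : C(Y, ℂ)} (hu : tsupport u ⊆ S) :
    tsupport ((f * u : C(Y, ℂ)) : Y → ℂ) ⊆ S :=
  (tsupport_mul_subset_right (f := (f : Y → ℂ)) (g := (u : Y → ℂ))).trans hu

/-- The step of the induction. -/
theorem step (hE : Ucp E) (hr : Rel I E L) (hI : IsClosed {p : Y × Z | I p.1 p.2})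
    {S S' : Set Y} (hS : IsClosed S) (hS' : IsClosed S') {ι : Type} {x0 : C(Y, ℂ)}
    {x : ι → C(Y, ℂ)} {b m : ι → C(Z, ℂ)} (hc : Chart I S S' ι x0 x b m) {P : C(Z, ℂ)}
    (hP : QQ E L S S' P) (i : ι) : QQ E L S S' (b i * P) ∧ QQ E L S S' (m i * P) := by
  obtain ⟨U, hUo, hNU, hrel⟩ := hc.rel
  have hN : IsClosed (NN I S S') := isClosed_NN hI hS hS'
  obtain ⟨χ, hχ1, hχ2, hχ3, hχ4⟩ := exists_cut hN hUo hNU
  -- remove the cut-off
  have cutoff : ∀ (g : C(Z, ℂ)) (u u' : C(Y, ℂ)), tsupport u ⊆ S → tsupport u' ⊆ S' →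
      E u * L (χ * g) * E u' = E u * L g * E u' := by
    intro g u u' hu hu'
    have h1 : E u * L ((1 - χ) * g) * E u' = 0 := by
      refine loc hr hI hS hS' hu hu' ?_
      refine hχ4.mono_left ?_
      exact tsupport_mul_subset_left (f := ((1 - χ : C(Z, ℂ)) : Z → ℂ)) (g := (g : Z → ℂ))
    have h2 : g = χ * g + (1 - χ) * g := by ring
    conv_rhs => rw [h2, map_add, mul_add, add_mul, h1, add_zero]
  -- the two relations
  have ra : ∀ u u' : C(Y, ℂ), Lp u → tsupport u ⊆ S → tsupport u' ⊆ S' →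
      E u * L (b i * P) * E u' = - (E (x0 * u) * L (m i * P) * E u') := by
    intro u u' hul hu hu'
    have h1 := hr.syl Finset.univ ![x i * u, -u, -(x0 * u)] ![χ * P, χ * (b i * P), χ * (m i * P)]
      (by
        intro r _
        fin_cases r
        · exact (hc.lx i).mul hul
        · exact hul.neg
        · exact (hc.lx0.mul hul).neg)
      (by
        intro r _
        fin_cases r
        · exact hχ1.mul hP.1
        · exact hχ1.mul ((hc.lb i).mul hP.1)
        · exact hχ1.mul ((hc.lm i).mul hP.1))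
      (by
        intro y z hyz
        simp only [Fin.sum_univ_three, Matrix.cons_val_zero, Matrix.cons_val_one,
          Matrix.cons_val_two, Matrix.head_cons, Matrix.tail_cons, ContinuousMap.mul_apply,
          ContinuousMap.neg_apply]
        by_cases h0 : χ z = 0
        · rw [h0]; ring
        by_cases h00 : u y = 0
        · rw [h00]; ring
        have := hrel y (Or.inl (hu (subset_closure h00))) z (hχ2 z h0) hyz i
        rw [this]; ring)
    simp only [Fin.sum_univ_three, Matrix.cons_val_zero, Matrix.cons_val_one,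
      Matrix.cons_val_two, Matrix.head_cons, Matrix.tail_cons, map_neg, neg_mul] at h1
    have h2 := congrArg (fun T => T * E u') h1
    simp only [add_mul, zero_mul, neg_mul] at h2
    rw [cutoff P (x i * u) u' (tsupp_mul_right _ hu) hu',
      cutoff (b i * P) u u' hu hu', cutoff (m i * P) (x0 * u) u' (tsupp_mul_right _ hu) hu',
      hP.2 (x i * u) u' (tsupp_mul_right _ hu) hu', zero_add] at h2
    have h3 := eq_neg_of_add_eq_zero_left h2
    rw [neg_neg] at h3
    exact neg_eq_iff_eq_neg.mp h3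
  have rb : ∀ u u' : C(Y, ℂ), Lp u' → tsupport u ⊆ S → tsupport u' ⊆ S' →
      E u * L (b i * P) * E u' = - (E u * L (m i * P) * E (x0 * u')) := by
    intro u u' hul hu hu'
    have h1 := hr.syr Finset.univ ![x i * u', -u', -(x0 * u')]
      ![χ * P, χ * (b i * P), χ * (m i * P)]
      (by
        intro r _
        fin_cases r
        · exact (hc.lx i).mul hul
        · exact hul.neg
        · exact (hc.lx0.mul hul).neg)
      (by
        intro r _
        fin_cases r
        · exact hχ1.mul hP.1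
        · exact hχ1.mul ((hc.lb i).mul hP.1)
        · exact hχ1.mul ((hc.lm i).mul hP.1))
      (by
        intro y z hyz
        simp only [Fin.sum_univ_three, Matrix.cons_val_zero, Matrix.cons_val_one,
          Matrix.cons_val_two, Matrix.head_cons, Matrix.tail_cons, ContinuousMap.mul_apply,
          ContinuousMap.neg_apply]
        by_cases h0 : χ z = 0
        · rw [h0]; ring
        by_cases h00 : u' y = 0
        · rw [h00]; ring
        have := hrel y (Or.inr (hu' (subset_closure h00))) z (hχ2 z h0) hyz i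
        rw [this]; ring)
    simp only [Fin.sum_univ_three, Matrix.cons_val_zero, Matrix.cons_val_one,
      Matrix.cons_val_two, Matrix.head_cons, Matrix.tail_cons, map_neg, mul_neg] at h1
    have h2 := congrArg (fun T => E u * T) h1
    simp only [mul_add, mul_zero, mul_neg, ← mul_assoc (E u)] at h2
    rw [cutoff P u (x i * u') hu (tsupp_mul_right _ hu'),
      cutoff (b i * P) u u' hu hu', cutoff (m i * P) u (x0 * u') hu (tsupp_mul_right _ hu'),
      hP.2 u (x i * u') hu (tsupp_mul_right _ hu'), zero_add] at h2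
    have h3 := eq_neg_of_add_eq_zero_left h2
    rw [neg_neg] at h3
    exact neg_eq_iff_eq_neg.mp h3
  -- the intertwining relation, for all functions
  have rc : ∀ u u' : C(Y, ℂ), tsupport u ⊆ S → tsupport u' ⊆ S' →
      E (x0 * u) * L (m i * P) * E u' - E u * L (m i * P) * E (x0 * u') = 0 := by
    intro u u' hu hu'
    have c1 : ∀ v : C(Y, ℂ), Continuous fun w : C(Y, ℂ) =>
        E (x0 * w) * L (m i * P) * E v - E w * L (m i * P) * E (x0 * v) := by
      intro v
      have := hE.cont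
      fun_prop
    have c2 : ∀ v : C(Y, ℂ), Continuous fun w : C(Y, ℂ) =>
        E (x0 * v) * L (m i * P) * E w - E v * L (m i * P) * E (x0 * w) := by
      intro v
      have := hE.cont
      fun_prop
    refine ext_lp (c1 u') (fun w hw hws => ?_) u hu
    refine ext_lp (c2 w) (fun w' hw' hws' => ?_) u' hu'
    have := (ra w w' hw hws hws').symm.trans (rb w w' hw' hws hws')
    rw [neg_inj] at this
    rw [this, sub_self]
  -- an inverse of `x0` on `S'`
  have hhc : Continuous fun y => (starRingEnd ℂ (x0 y)) / ((max (‖x0 y‖ ^ 2) (9 / 16) : ℝ) : ℂ) := by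
    refine Continuous.div ?_ ?_ fun y => ?_
    · exact Complex.continuous_conj.comp x0.continuous
    · exact Complex.continuous_ofReal.comp ((x0.continuous.norm.pow 2).max continuous_const)
    · have : (0 : ℝ) < max (‖x0 y‖ ^ 2) (9 / 16) := lt_of_lt_of_le (by norm_num) (le_max_right _ _)
      exact_mod_cast this.ne'
  set h : C(Y, ℂ) := ⟨_, hhc⟩ with hh
  have hinv : ∀ y ∈ S', x0 y * h y = 1 := by
    intro y hy
    have h1 := hc.hi y hy
    have h2 : max (‖x0 y‖ ^ 2) (9 / 16) = ‖x0 y‖ ^ 2 := by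
      refine max_eq_left ?_
      nlinarith [norm_nonneg (x0 y)]
    have h3 : x0 y ≠ 0 := fun h0 => by rw [h0, norm_zero] at h1; linarith
    rw [hh]
    simp only [ContinuousMap.coe_mk]
    rw [h2, mul_div_assoc', Complex.mul_conj, Complex.normSq_eq_norm_sq, div_self]
    have : (0 : ℝ) < ‖x0 y‖ ^ 2 := by positivity
    exact_mod_cast this.ne'
  have hhb : ∀ y ∈ S', ‖h y‖ ≤ 4 / 3 := by
    intro y hy
    have h1 := hc.hi y hy
    have h2 : ‖x0 y‖ * ‖h y‖ = 1 := by rw [← norm_mul, hinv y hy, norm_one]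
    have h3 := norm_nonneg (h y)
    nlinarith
  -- iteration
  have rd : ∀ (n : ℕ) (u u' : C(Y, ℂ)), tsupport u ⊆ S → tsupport u' ⊆ S' →
      E (x0 ^ n * u) * L (m i * P) * E u' = E u * L (m i * P) * E (x0 ^ n * u') := by
    intro n
    induction n with
    | zero => intro u u' _ _; simp
    | succ n ih =>
      intro u u' hu hu'
      have e1 : x0 ^ (n + 1) * u = x0 * (x0 ^ n * u) := by ring
      have e2 : x0 ^ (n + 1) * u' = x0 ^ n * (x0 * u') := by ring
      rw [e1, sub_eq_zero.mp (rc (x0 ^ n * u) u' (tsupp_mul_right _ hu) hu'),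
        ih u (x0 * u') hu (tsupp_mul_right _ hu'), e2]
  have rm : ∀ u u' : C(Y, ℂ), tsupport u ⊆ S → tsupport u' ⊆ S' →
      E u * L (m i * P) * E u' = 0 := by
    intro u u' hu hu'
    have hb : ∀ n : ℕ, ‖E u * L (m i * P) * E u'‖ ≤
        (‖u‖ * ‖L (m i * P)‖ * ‖u'‖) * (1 / 3) ^ n := by
      intro n
      have e1 : x0 ^ n * (h ^ n * u') = u' := by
        ext y
        simp only [ContinuousMap.mul_apply, ContinuousMap.pow_apply]
        by_cases h0 : u' y = 0
        · rw [h0]; ring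
        have := hinv y (hu' (subset_closure h0))
        rw [← mul_assoc, ← mul_pow, this, one_pow, one_mul]
      have e2 : E u * L (m i * P) * E u' =
          E (x0 ^ n * u) * L (m i * P) * E (h ^ n * u') := by
        rw [rd n u (h ^ n * u') hu (tsupp_mul_right _ hu'), e1]
      have b1 : ‖E (x0 ^ n * u)‖ ≤ (1 / 4) ^ n * ‖u‖ := by
        refine hE.bd _ (by positivity) fun y => ?_
        rw [ContinuousMap.mul_apply, ContinuousMap.pow_apply, norm_mul, norm_pow]
        by_cases h0 : u y = 0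
        · rw [h0, norm_zero, mul_zero]; positivity
        exact mul_le_mul (pow_le_pow_left₀ (norm_nonneg _) (hc.lo y (hu (subset_closure h0))) n)
          (u.norm_coe_le_norm y) (norm_nonneg _) (by positivity)
      have b2 : ‖E (h ^ n * u')‖ ≤ (4 / 3) ^ n * ‖u'‖ := by
        refine hE.bd _ (by positivity) fun y => ?_
        rw [ContinuousMap.mul_apply, ContinuousMap.pow_apply, norm_mul, norm_pow]
        by_cases h0 : u' y = 0
        · rw [h0, norm_zero, mul_zero]; positivity
        exact mul_le_mul (pow_le_pow_left₀ (norm_nonneg _) (hhb y (hu' (subset_closure h0))) n)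
          (u'.norm_coe_le_norm y) (norm_nonneg _) (by positivity)
      rw [e2]
      calc ‖E (x0 ^ n * u) * L (m i * P) * E (h ^ n * u')‖
          ≤ ‖E (x0 ^ n * u)‖ * ‖L (m i * P)‖ * ‖E (h ^ n * u')‖ :=
            (norm_mul_le _ _).trans (mul_le_mul_of_nonneg_right (norm_mul_le _ _) (norm_nonneg _))
        _ ≤ ((1 / 4) ^ n * ‖u‖) * ‖L (m i * P)‖ * ((4 / 3) ^ n * ‖u'‖) := by gcongr
        _ = (‖u‖ * ‖L (m i * P)‖ * ‖u'‖) * ((1 / 4) ^ n * (4 / 3) ^ n) := by ring
        _ = (‖u‖ * ‖L (m i * P)‖ * ‖u'‖) * (1 / 3) ^ n := by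
            rw [← mul_pow]; norm_num
    have ht : Filter.Tendsto (fun n : ℕ => (‖u‖ * ‖L (m i * P)‖ * ‖u'‖) * (1 / 3 : ℝ) ^ n)
        Filter.atTop (𝓝 ((‖u‖ * ‖L (m i * P)‖ * ‖u'‖) * 0)) :=
      (tendsto_pow_atTop_nhds_zero_of_lt_one (by norm_num) (by norm_num)).const_mul _
    rw [mul_zero] at ht
    exact norm_le_zero_iff.mp (ge_of_tendsto' ht hb)
  refine ⟨⟨(hc.lb i).mul hP.1, fun u u' hu hu' => ?_⟩, ⟨(hc.lm i).mul hP.1, rm⟩⟩
  have c1 : Continuous fun w : C(Y, ℂ) => E w * L (b i * P) * E u' := by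
    have := hE.cont
    fun_prop
  refine ext_lp c1 (fun w hw hws => ?_) u hu
  rw [ra w u' hw hws hu', rm _ _ (tsupp_mul_right _ hws) hu', neg_zero]

end words

end Vale.Agent.P092.H261.PS
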